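import Crest.Agent.R17.B.Line

/-! Row 17, block B: the Gamma function on vertical lines (no Stirling). -/

set_option autoImplicit false

namespace Crest.Agent.R17

open Complex MeasureTheory Filter Set
open scoped Real Topology ComplexConjugate

theorem gA_norm_integrand (s r : ℂ) {x : ℝ} (hx : 0 < x) :
    ‖(x : ℂ) ^ (s - 1) * cexp (-(r * x))‖ = x ^ (s.re - 1) * Real.exp (-(r.re * x)) := by
  rw [norm_mul, norm_cpow_eq_rpow_re_of_pos hx, Complex.norm_exp]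
  simp

theorem gA_norm_integral_le {s r : ℂ} (hs : 0 < s.re) (hr : 0 < r.re) :
    ‖∫ x : ℝ in Ioi 0, (x : ℂ) ^ (s - 1) * cexp (-(r * x))‖ ≤
      (1 / r.re) ^ s.re * Real.Gamma s.re := by
  rw [← Real.integral_rpow_mul_exp_neg_mul_Ioi hs hr]
  refine (norm_integral_le_integral_norm _).trans (le_of_eq ?_)
  exact setIntegral_congr_fun measurableSet_Ioi fun x hx => gA_norm_integrand s r hx

theorem norm_Gamma_le {s : ℂ} (hs : 0 < s.re) : ‖Gamma s‖ ≤ Real.Gamma s.re := by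
  have h1 := gA_norm_integral_le (r := ((1 : ℝ) : ℂ)) hs (by simp)
  rw [integral_cpow_mul_exp_neg_mul_Ioi hs one_pos] at h1
  simpa using h1

theorem gA_diff_integral {s : ℂ} (hs : 0 < s.re) :
    DifferentiableOn ℂ (fun r : ℂ => ∫ x : ℝ in Ioi 0, (x : ℂ) ^ (s - 1) * cexp (-(r * x)))
      {r : ℂ | 0 < r.re} := by
  have hU : IsOpen {r : ℂ | 0 < r.re} := isOpen_lt continuous_const continuous_re
  have e : ∀ r : ℂ, ∫ x : ℝ in Ioi 0, (x : ℂ) ^ (s - 1) * cexp (-(r * x)) =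
      ∫ x : ℝ, (Ioi (0 : ℝ)).indicator (fun x : ℝ => (x : ℂ) ^ (s - 1) * cexp (-(r * x))) x :=
    fun r => (integral_indicator measurableSet_Ioi).symm
  simp only [e]
  refine diffOn_integral hU (fun r _ => ?_) (fun x => ?_) fun r₀ hr₀ => ?_
  · exact (Measurable.indicator (by fun_prop) measurableSet_Ioi).aestronglyMeasurable
  · by_cases hx : x ∈ Ioi (0 : ℝ)
    · simp only [indicator_of_mem hx]
      fun_prop
    · simp only [indicator_of_notMem hx]
      fun_prop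
  · have hr₀' : 0 < r₀.re := hr₀
    refine ⟨(Ioi (0 : ℝ)).indicator fun x => x ^ (s.re - 1) * Real.exp (-(r₀.re / 2) * x ^ (1 : ℝ)),
      (integrable_indicator_iff measurableSet_Ioi).2
        (integrableOn_rpow_mul_exp_neg_mul_rpow (by linarith) one_pos (by linarith)), ?_⟩
    have hev : ∀ᶠ r in 𝓝 r₀, r₀.re / 2 < r.re :=
      continuous_re.continuousAt.eventually (lt_mem_nhds (by linarith))
    filter_upwards [hev] with r hr x
    by_cases hx : x ∈ Ioi (0 : ℝ)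
    · have hx' : 0 < x := hx
      rw [indicator_of_mem hx, indicator_of_mem hx, gA_norm_integrand s r hx', Real.rpow_one]
      refine mul_le_mul_of_nonneg_left (Real.exp_le_exp.2 ?_) (Real.rpow_nonneg hx'.le _)
      nlinarith
    · rw [indicator_of_notMem hx, indicator_of_notMem hx, norm_zero]

theorem gA_rotate {s r : ℂ} (hs : 0 < s.re) (hr : 0 < r.re) :
    ∫ x : ℝ in Ioi 0, (x : ℂ) ^ (s - 1) * cexp (-(r * x)) = r ^ (-s) * Gamma s := by
  have hU : IsOpen {r : ℂ | 0 < r.re} := isOpen_lt continuous_const continuous_re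
  have h1 := (gA_diff_integral hs).analyticOnNhd hU
  have h2 : AnalyticOnNhd ℂ (fun r : ℂ => r ^ (-s) * Gamma s) {r : ℂ | 0 < r.re} := by
    refine DifferentiableOn.analyticOnNhd (fun z hz => ?_) hU
    exact ((differentiableAt_id.cpow_const (Or.inl hz)).mul_const _).differentiableWithinAt
  refine h1.eqOn_of_preconnected_of_frequently_eq h2 (convex_halfSpace_re_gt 0).isPreconnected
    (z₀ := 1) (by simp) ?_ hr
  have ht : Tendsto (fun x : ℝ => (x : ℂ)) (𝓝[>] 1) (𝓝[≠] 1) := by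
    refine tendsto_nhdsWithin_iff.2 ⟨?_, ?_⟩
    · exact (continuous_ofReal.tendsto' 1 1 ofReal_one).mono_left nhdsWithin_le_nhds
    · filter_upwards [self_mem_nhdsWithin] with x hx
      exact fun h => (ne_of_gt hx) (ofReal_eq_one.1 h)
  refine ht.frequently (Eventually.frequently ?_)
  filter_upwards [self_mem_nhdsWithin] with x hx
  have hx' : (0 : ℝ) < x := lt_trans one_pos hx
  rw [integral_cpow_mul_exp_neg_mul_Ioi hs hx', one_div, cpow_neg, inv_cpow]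
  rw [arg_ofReal_of_nonneg hx'.le]
  exact Real.pi_pos.ne

theorem gA_le_exp {s : ℂ} (hs : 0 < s.re) {θ : ℝ} (hθ : |θ| ≤ 1) :
    Real.exp (θ * s.im) * ‖Gamma s‖ ≤ Real.Gamma s.re * 2 ^ s.re := by
  have hθ' := abs_le.1 hθ
  have hc : 1 / 2 ≤ Real.cos θ := by
    have := Real.one_sub_sq_div_two_le_cos (x := θ)
    nlinarith
  have hre : (cexp (θ * I)).re = Real.cos θ := exp_ofReal_mul_I_re θ
  have hr : 0 < (cexp (θ * I)).re := by rw [hre]; linarith
  have h1 := gA_norm_integral_le hs hr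
  have hl : log (cexp (θ * I)) = θ * I := by
    refine log_exp ?_ ?_
    · simp only [mul_im, ofReal_re, I_im, mul_one, ofReal_im, I_re, mul_zero, add_zero]
      linarith [Real.pi_gt_three]
    · simp only [mul_im, ofReal_re, I_im, mul_one, ofReal_im, I_re, mul_zero, add_zero]
      linarith [Real.pi_gt_three]
  rw [gA_rotate hs hr, norm_mul, cpow_def_of_ne_zero (exp_ne_zero _), hl, Complex.norm_exp,
    hre] at h1
  have e : ((θ : ℂ) * I * -s).re = θ * s.im := by simp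
  rw [e] at h1
  refine h1.trans ?_
  rw [mul_comm]
  refine mul_le_mul_of_nonneg_left ?_ (Real.Gamma_pos_of_pos hs).le
  refine Real.rpow_le_rpow (by positivity) ?_ hs.le
  rw [div_le_iff₀ (by linarith)]
  linarith

/-- rotate the contour: `∫ x^(s-1) exp (-r x) = r^(-s) Γ(s)` for `Re r > 0` (`diffOn_integral` and the
identity theorem), `r = exp (± i)`, `cos 1 ≥ 1/2`. -/
theorem norm_Gamma_le_exp {s : ℂ} (hs : 0 < s.re) :
    ‖Gamma s‖ ≤ Real.Gamma s.re * 2 ^ s.re * Real.exp (-|s.im|) := by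
  have h1 : Real.exp |s.im| * ‖Gamma s‖ ≤ Real.Gamma s.re * 2 ^ s.re := by
    rcases le_total 0 s.im with h | h
    · have := gA_le_exp hs (θ := 1) (by simp)
      rwa [one_mul, ← abs_of_nonneg h] at this
    · have := gA_le_exp hs (θ := -1) (by simp)
      rwa [neg_one_mul, ← abs_of_nonpos h] at this
  rw [Real.exp_neg, ← div_eq_mul_inv, le_div_iff₀ (Real.exp_pos _), mul_comm]
  exact h1

theorem Gamma_strip {σ₁ : ℝ} (h : 0 < σ₁) (σ₂ : ℝ) : ∃ C : ℝ, 0 < C ∧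
    ∀ s ∈ strip σ₁ σ₂, ‖Gamma s‖ ≤ C * Real.exp (-|s.im|) := by
  have hc : ContinuousOn (fun σ : ℝ => Real.Gamma σ * 2 ^ σ) (Icc σ₁ σ₂) := by
    refine ContinuousOn.mul ?_ (by fun_prop (disch := norm_num))
    exact Real.differentiableOn_Gamma_Ioi.continuousOn.mono fun x hx => lt_of_lt_of_le h hx.1
  obtain ⟨C, hC⟩ := isCompact_Icc.exists_bound_of_continuousOn hc
  refine ⟨max C 1, lt_of_lt_of_le one_pos (le_max_right _ _), fun s hs => ?_⟩
  refine (norm_Gamma_le_exp (lt_of_lt_of_le h hs.1)).trans ?_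
  refine mul_le_mul_of_nonneg_right ?_ (Real.exp_pos _).le
  exact ((le_abs_self _).trans (hC s.re hs)).trans (le_max_left _ _)

theorem gA_continuous_line {σ : ℝ} (hσ : 0 < σ) : Continuous fun y : ℝ => Gamma (σ + y * I) := by
  refine continuous_iff_continuousAt.2 fun y => ?_
  refine ContinuousAt.comp (f := fun y : ℝ => (σ : ℂ) + y * I) (continuousAt_Gamma _ fun m hm => ?_)
    (by fun_prop)
  have := congrArg re hm
  simp at this
  linarith [Nat.cast_nonneg (α := ℝ) m]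

theorem gA_integrable_exp_poly (A : ℝ) :
    Integrable fun y : ℝ => Real.exp (-|y|) * (1 + |y|) ^ A := by
  have h0 : Integrable fun y : ℝ => (1 + ‖y‖) ^ (-(2 : ℝ)) :=
    integrable_one_add_norm (by simp)
  set n : ℕ := ⌈A + 2⌉₊ with hn
  refine (h0.const_mul (n.factorial * Real.exp 1)).mono' ?_ (Eventually.of_forall fun y => ?_)
  · refine Continuous.aestronglyMeasurable ?_
    refine Continuous.mul (by fun_prop) (Continuous.rpow_const (by fun_prop) fun y => Or.inl ?_)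
    positivity
  · have h1 : (1 : ℝ) ≤ 1 + |y| := by linarith [abs_nonneg y]
    have h2 : (0 : ℝ) < 1 + |y| := by linarith
    rw [Real.norm_of_nonneg (by positivity), Real.norm_eq_abs]
    have h3 : (1 + |y|) ^ (A + 2) ≤ (1 + |y|) ^ n := by
      rw [← Real.rpow_natCast]
      exact Real.rpow_le_rpow_of_exponent_le h1 (Nat.le_ceil _)
    have h4 := Real.pow_div_factorial_le_exp (1 + |y|) h2.le n
    rw [div_le_iff₀ (by positivity), Real.exp_add] at h4
    have h5 : (1 + |y|) ^ A = (1 + |y|) ^ (A + 2) * (1 + |y|) ^ (-(2 : ℝ)) := by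
      rw [← Real.rpow_add h2]; congr 1; ring
    rw [h5, ← mul_assoc]
    refine mul_le_mul_of_nonneg_right ?_ (by positivity)
    rw [Real.exp_neg, inv_mul_le_iff₀ (Real.exp_pos _)]
    calc _ ≤ _ := h3.trans h4
      _ = _ := by ring

theorem gA_integrable_poly {σ : ℝ} (hσ : 0 < σ) (A : ℝ) :
    Integrable fun y : ℝ => ‖Gamma (σ + y * I)‖ * (1 + |y|) ^ A := by
  obtain ⟨C, -, hC⟩ := Gamma_strip hσ σ
  refine ((gA_integrable_exp_poly A).const_mul C).mono' ?_ (Eventually.of_forall fun y => ?_)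
  · refine Continuous.aestronglyMeasurable ?_
    refine Continuous.mul (gA_continuous_line hσ).norm
      (Continuous.rpow_const (by fun_prop) fun y => Or.inl ?_)
    positivity
  · rw [Real.norm_of_nonneg (by positivity), ← mul_assoc]
    refine mul_le_mul_of_nonneg_right ?_ (by positivity)
    have := hC (σ + y * I) ⟨by simp, by simp⟩
    simpa using this

theorem vInt_Gamma {σ : ℝ} (hσ : 0 < σ) : VInt σ Gamma := by
  have h := gA_integrable_poly hσ 0
  simp only [Real.rpow_zero, mul_one] at h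
  exact (integrable_norm_iff (gA_continuous_line hσ).aestronglyMeasurable).1 h

/-- `∫ |Γ(σ + iy)| (1 + |y|)^A dy < ∞` -/
theorem integrable_Gamma_poly {σ : ℝ} (hσ : 0 < σ) (A : ℝ) :
    Integrable fun y : ℝ => ‖Gamma (σ + y * I)‖ * (1 + |y|) ^ A := by
  exact gA_integrable_poly hσ A

theorem gamb_shift (z : ℂ) (m : ℕ) :
    (Gamma (z - m))⁻¹ = (∏ j ∈ Finset.range m, (z - (j + 1))) * (Gamma z)⁻¹ := by
  induction m with
  | zero => simp
  | succ m ih =>
    rw [one_div_Gamma_eq_self_mul_one_div_Gamma_add_one, Finset.prod_range_succ, Nat.cast_succ,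
      show z - (m + 1) + 1 = z - m by ring, ih]
    ring

theorem gamb_beta {x d : ℝ} (y : ℝ) : ‖betaIntegral (x + y * I) d‖ ≤ ‖betaIntegral x d‖ := by
  have e : betaIntegral x d = ((∫ t : ℝ in (0 : ℝ)..1,
      ‖(t : ℂ) ^ ((x + y * I : ℂ) - 1) * (1 - (t : ℂ)) ^ ((d : ℂ) - 1)‖ : ℝ) : ℂ) := by
    rw [← intervalIntegral.integral_ofReal]
    refine intervalIntegral.integral_congr_ae (ae_of_all _ fun t ht => ?_)
    rw [uIoc_of_le zero_le_one] at ht
    have h1 : 0 ≤ 1 - t := sub_nonneg.2 ht.2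
    have e1 : (1 - (t : ℂ)) ^ ((d : ℂ) - 1) = (((1 - t) ^ (d - 1) : ℝ) : ℂ) := by
      rw [ofReal_cpow h1]
      push_cast
      rfl
    rw [norm_mul, norm_cpow_eq_rpow_re_of_pos ht.1, e1, norm_real,
      Real.norm_of_nonneg (Real.rpow_nonneg h1 _), ofReal_mul, ofReal_cpow ht.1.le]
    simp
  rw [e, norm_real]
  exact (intervalIntegral.norm_integral_le_integral_norm zero_le_one).trans (le_abs_self _)

theorem gamb_mono {x x' : ℝ} (hx : 0 < x) (h : x ≤ x') (y : ℝ) :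
    ‖Gamma (x + y * I)‖ * Real.Gamma x' ≤ Real.Gamma x * ‖Gamma (x' + y * I)‖ := by
  rcases h.eq_or_lt with rfl | h
  · exact (mul_comm _ _).le
  obtain ⟨d, hd, rfl⟩ : ∃ d, 0 < d ∧ x' = x + d := ⟨x' - x, sub_pos.2 h, by ring⟩
  have h1 := congrArg norm (Gamma_mul_Gamma_eq_betaIntegral (s := x + y * I) (t := d) (by simpa)
    (by simpa))
  have h2 := congrArg norm (Gamma_mul_Gamma_eq_betaIntegral (s := x) (t := d) (by simpa) (by simpa))
  have hn : ∀ {u : ℝ}, 0 < u → ‖Gamma u‖ = Real.Gamma u := fun hu => by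
    rw [Gamma_ofReal, norm_real, Real.norm_of_nonneg (Real.Gamma_pos_of_pos hu).le]
  rw [norm_mul, norm_mul, ← ofReal_add, hn hx, hn hd, hn (add_pos hx hd)] at h2
  rw [norm_mul, norm_mul, hn hd, add_right_comm, ← ofReal_add] at h1
  refine le_of_mul_le_mul_right ?_ (Real.Gamma_pos_of_pos hd)
  rw [mul_right_comm, h1, mul_right_comm (Real.Gamma x), h2]
  have h3 := mul_le_mul_of_nonneg_left (gamb_beta (x := x) (d := d) y)
    (mul_nonneg (norm_nonneg (Gamma ((x + d : ℝ) + y * I))) (Real.Gamma_pos_of_pos (add_pos hx hd)).le)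
  linarith

theorem gamb_bdd {a : ℝ} (ha : 0 < a) (b : ℝ) :
    ∃ c K : ℝ, 0 < c ∧ ∀ x ∈ Icc a b, c ≤ Real.Gamma x ∧ Real.Gamma x ≤ K := by
  have hc : ContinuousOn Real.Gamma (Icc a b) := fun x hx =>
    (Real.differentiableAt_Gamma fun m hm => by
      linarith [hx.1, Nat.cast_nonneg (α := ℝ) m]).continuousAt.continuousWithinAt
  obtain ⟨c, hc0, h1⟩ := isCompact_Icc.exists_forall_le' hc fun x hx =>
    Real.Gamma_pos_of_pos (ha.trans_le hx.1)
  obtain ⟨K, h2⟩ := isCompact_Icc.exists_bound_of_continuousOn hc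
  exact ⟨c, K, hc0, fun x hx => ⟨h1 x hx, (le_abs_self _).trans (h2 x hx)⟩⟩

theorem gamb_refl {s : ℂ} (hs : 0 < (1 - s).re) :
    ‖(Gamma s)⁻¹‖ ≤ ‖Gamma (1 - s)‖ * Real.exp (π * |s.im|) := by
  have h1 : ‖sin (π * s)‖ ≤ Real.exp (π * |s.im|) := by
    have h2 : ∀ u : ℂ, |u.re| = π * |s.im| → ‖cexp u‖ ≤ Real.exp (π * |s.im|) := fun u hu => by
      rw [norm_exp]
      exact Real.exp_le_exp.2 ((le_abs_self _).trans hu.le)
    have h3 := h2 (-(π * s) * I) (by simp [abs_mul, abs_of_pos Real.pi_pos])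
    have h4 := h2 (π * s * I) (by simp [abs_mul, abs_of_pos Real.pi_pos])
    rw [Complex.sin, norm_div, norm_mul, norm_I, mul_one, Complex.norm_two]
    linarith [norm_sub_le (cexp (-(π * s) * I)) (cexp (π * s * I))]
  rw [eq_div_of_mul_eq (Gamma_ne_zero_of_re_pos hs) (Gamma_mul_Gamma_one_sub s), inv_div,
    div_div_eq_mul_div, norm_div, norm_mul, norm_real, Real.norm_of_nonneg Real.pi_pos.le]
  exact (div_le_self (by positivity) (by linarith [Real.pi_gt_three])).trans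
    (mul_le_mul_of_nonneg_left h1 (norm_nonneg _))

theorem gamb_nat {α : ℝ} (m : ℕ) {s : ℂ} (hs : s.re = (m + 1) / 2) (hα : 0 < s.re + α) :
    ‖Gamma (s + α) * (Gamma (1 - s + α))⁻¹‖ = ∏ j ∈ Finset.range m, ‖s + α - (j + 1)‖ := by
  have e : 1 - s + α = conj (s + α) - m := by
    apply Complex.ext <;> simp
    linarith
  have h0 : ‖Gamma (s + α)‖ ≠ 0 := norm_ne_zero_iff.2 (Gamma_ne_zero_of_re_pos (by simpa))
  rw [e, gamb_shift, Gamma_conj, norm_mul, norm_mul, norm_inv, norm_conj, mul_left_comm,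
    mul_inv_cancel₀ h0, mul_one, norm_prod]
  refine Finset.prod_congr rfl fun j _ => ?_
  rw [← norm_conj]
  simp

/-- reflection formula after shifting to the left by an integer; compactness for `|Im s| ≤ 1` -/
theorem inv_Gamma_strip (σ₁ σ₂ : ℝ) : ∃ C : ℝ, 0 < C ∧
    ∀ s ∈ strip σ₁ σ₂, ‖(Gamma s)⁻¹‖ ≤ C * Real.exp (π * |s.im|) := by
  obtain ⟨C, hC, h1⟩ := Gamma_strip one_half_pos (max (1 - σ₁) (1 / 2))
  obtain ⟨c, K, hc, h2⟩ := gamb_bdd one_half_pos σ₂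
  have key : ∀ s : ℂ, 1 / 2 ≤ (1 - s).re → (1 - s).re ≤ max (1 - σ₁) (1 / 2) →
      ‖(Gamma s)⁻¹‖ ≤ C * Real.exp (π * |s.im|) := fun s a b => by
    refine (gamb_refl (by linarith)).trans (mul_le_mul_of_nonneg_right ((h1 _ ⟨a, b⟩).trans
      (mul_le_of_le_one_right hC.le ?_)) (Real.exp_pos _).le)
    exact Real.exp_le_one_iff.2 (neg_nonpos.2 (abs_nonneg _))
  have hG := Real.Gamma_pos_of_pos one_half_pos
  refine ⟨C * (1 + Real.Gamma (1 / 2) / c), by positivity, fun s hs => ?_⟩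
  have hE : 0 ≤ C * Real.exp (π * |s.im|) := by positivity
  rw [mul_right_comm]
  rcases le_total s.re (1 / 2) with h | h
  · refine (key s (by simp only [sub_re, one_re]; linarith) (le_max_of_le_left ?_)).trans
      (le_mul_of_one_le_right hE (le_add_of_nonneg_right (by positivity)))
    simp only [sub_re, one_re]
    linarith [hs.1]
  · have h3 := key ((1 / 2 : ℝ) + s.im * I) (by norm_num) (le_max_of_le_right (by norm_num))
    have h4 := gamb_mono one_half_pos h s.im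
    rw [re_add_im] at h4
    have h5 : 0 < ‖Gamma ((1 / 2 : ℝ) + s.im * I)‖ :=
      norm_pos_iff.2 (Gamma_ne_zero_of_re_pos (by simp))
    have h6 : 0 < ‖Gamma s‖ := norm_pos_iff.2 (Gamma_ne_zero_of_re_pos (by linarith))
    have e : ((1 / 2 : ℝ) + s.im * I : ℂ).im = s.im := by simp
    rw [norm_inv, e] at h3
    refine le_trans ?_ (mul_le_mul h3 (le_add_of_nonneg_left zero_le_one) (by positivity) hE)
    rw [norm_inv, inv_mul_eq_div, div_div, inv_eq_one_div, div_le_div_iff₀ h6 (by positivity), one_mul,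
      mul_comm c]
    exact (mul_le_mul_of_nonneg_left (h2 _ ⟨h, hs.2⟩).1 h5.le).trans h4

/-- `‖Γ(x + iy)‖ / Γ(x)` is increasing in `x` (Beta integral) -/
theorem norm_Gamma_mono {x x' : ℝ} (hx : 0 < x) (h : x ≤ x') (y : ℝ) :
    ‖Gamma (x + y * I)‖ * Real.Gamma x' ≤ Real.Gamma x * ‖Gamma (x' + y * I)‖ := by
  exact gamb_mono hx h y

/-- the ratio is holomorphic with polynomial growth on `Re s > -α` -/
theorem polyOn_Gamma_ratio (α : ℝ) :
    PolyOn (-α) fun s => Gamma (s + α) * (Gamma (1 - s + α))⁻¹ := by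
  refine ⟨fun s hs => DifferentiableAt.differentiableWithinAt (DifferentiableAt.mul ?_ ?_),
    fun σ₁ σ₂ h => ?_⟩
  · refine (differentiableAt_Gamma _ fun m hm => ?_).comp s (differentiableAt_id.add_const _)
    have h1 := congrArg re hm
    have h2 : -α < s.re := hs
    simp only [add_re, ofReal_re, neg_re, natCast_re] at h1
    linarith [Nat.cast_nonneg (α := ℝ) m]
  · exact (differentiable_one_div_Gamma _).comp s (f := fun s : ℂ => 1 - s + α) (by fun_prop)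
  obtain ⟨m, hm⟩ := exists_nat_ge (2 * σ₂ - 1)
  obtain ⟨c, K, hc, h2⟩ := gamb_bdd (a := σ₁ + α) (by linarith) (1 - σ₁ + α + m)
  obtain ⟨M, hM⟩ : ∃ M : ℝ, M = |σ₁| + |σ₂| + |α| + m + 1 := ⟨_, rfl⟩
  have hM1 : 1 ≤ M := by
    rw [hM]
    exact le_add_of_nonneg_left (by positivity)
  refine ⟨|K| / c * M ^ m, m, by positivity, by positivity, fun s hs => ?_⟩
  obtain ⟨a1, a2⟩ := hs
  have e : 1 - s + α = conj ((1 - s.re + α + m : ℝ) + s.im * I) - m := by
    apply Complex.ext <;> simp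
  have e' : s + α = (s.re + α : ℝ) + s.im * I := by
    apply Complex.ext <;> simp
  have h3 := gamb_mono (x := s.re + α) (x' := 1 - s.re + α + m) (by linarith) (by linarith) s.im
  have h4 : 0 < ‖Gamma ((1 - s.re + α + m : ℝ) + s.im * I)‖ :=
    norm_pos_iff.2 (Gamma_ne_zero_of_re_pos (by simp; linarith))
  have h5 := (h2 (s.re + α) ⟨by linarith, by linarith⟩).2.trans (le_abs_self _)
  have h6 := (h2 (1 - s.re + α + m) ⟨by linarith, by linarith⟩).1
  beta_reduce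
  rw [e, gamb_shift, Gamma_conj, norm_mul, norm_mul, norm_inv, norm_conj, mul_left_comm, mul_comm,
    Real.rpow_natCast, mul_assoc (|K| / c), ← mul_pow, norm_prod]
  refine mul_le_mul ?_ ?_ (by positivity) (by positivity)
  · rw [← div_eq_mul_inv, div_le_div_iff₀ h4 hc, e']
    exact ((mul_le_mul_of_nonneg_left h6 (norm_nonneg _)).trans h3).trans
      (mul_le_mul_of_nonneg_right h5 h4.le)
  · refine (Finset.prod_le_prod (fun _ _ => norm_nonneg _) fun j hj => ?_).trans_eq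
      ((Finset.prod_const _).trans (by rw [Finset.card_range]))
    refine (norm_le_abs_re_add_abs_im _).trans ?_
    have h7 : (j : ℝ) + 1 ≤ m := by exact_mod_cast Finset.mem_range.1 hj
    have h8 : |1 - s.re + α + m - (j + 1)| ≤ M := by
      rw [abs_le, hM]
      constructor <;> linarith [le_abs_self σ₂, neg_abs_le σ₁, le_abs_self α, neg_abs_le α,
        abs_nonneg σ₁, abs_nonneg σ₂, Nat.cast_nonneg (α := ℝ) j]
    have h9 := le_mul_of_one_le_left (abs_nonneg s.im) hM1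
    simp only [map_add, conj_ofReal, map_mul, conj_I, mul_neg, sub_re, add_re, ofReal_re, neg_re,
      mul_re, I_re, mul_zero, ofReal_im, I_im, mul_one, sub_self, neg_zero, add_zero, natCast_re,
      one_re, sub_im, add_im, neg_im, mul_im, zero_add, natCast_im, one_im, sub_zero, abs_neg]
    linarith

theorem norm_Gamma_ratio_half {α : ℝ} (hα : -(1 / 2) < α) {s : ℂ} (hs : s.re = 1 / 2) :
    ‖Gamma (s + α) * (Gamma (1 - s + α))⁻¹‖ = 1 := by
  simpa using gamb_nat (α := α) 0 (s := s) (by simpa using hs) (by linarith)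

theorem norm_Gamma_ratio_zero {α : ℝ} (hα : 0 < α) {s : ℂ} (hs : s.re = 0) :
    ‖Gamma (s + α) * (Gamma (1 - s + α))⁻¹‖ = ‖s + α‖⁻¹ := by
  have e : 1 - s + α = conj (s + α) + 1 := by
    apply Complex.ext <;> simp [hs]
    ring
  have h1 : 0 < (s + α).re := by simpa [hs]
  have h0 : ‖Gamma (s + α)‖ ≠ 0 := norm_ne_zero_iff.2 (Gamma_ne_zero_of_re_pos h1)
  rw [e, Gamma_add_one _ ((map_ne_zero _).2 (ne_zero_of_re_pos h1)), Gamma_conj, norm_mul, norm_inv,
    norm_mul, norm_conj, norm_conj, mul_inv, mul_left_comm, mul_inv_cancel₀ h0, mul_one]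

/-- on `Re s = (m + 1) / 2` the ratio is a polynomial of degree `m` in modulus -/
theorem norm_Gamma_ratio_nat {α : ℝ} (m : ℕ) {s : ℂ} (hs : s.re = (m + 1) / 2)
    (hα : 0 < s.re + α) :
    ‖Gamma (s + α) * (Gamma (1 - s + α))⁻¹‖ = ∏ j ∈ Finset.range m, ‖s + α - (j + 1)‖ := by
  exact gamb_nat m hs hα

/-- `exp (-y)` as an inverse Mellin transform -/
theorem exp_neg_eq_VI {σ y : ℝ} (hσ : 0 < σ) (hy : 0 < y) :
    VInt σ (fun z => Gamma z * (y : ℂ) ^ (-z)) ∧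
    ((Real.exp (-y) : ℝ) : ℂ) = VI σ fun z => Gamma z * (y : ℂ) ^ (-z) := by
  have hm : ∀ t : ℝ, mellin (fun x : ℝ => ((Real.exp (-x) : ℝ) : ℂ)) (σ + t * I) =
      Gamma (σ + t * I) := fun t => by
    rw [← GammaIntegral_eq_mellin, Gamma_eq_integral (by simpa using hσ)]
  have h1 : MellinConvergent (fun x : ℝ => ((Real.exp (-x) : ℝ) : ℂ)) σ := by
    have := GammaIntegral_convergent (s := σ) (by simpa using hσ)
    simpa only [MellinConvergent, smul_eq_mul, mul_comm] using this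
  have h2 : VerticalIntegrable (mellin fun x : ℝ => ((Real.exp (-x) : ℝ) : ℂ)) σ := by
    unfold VerticalIntegrable
    simp only [hm]
    exact vInt_Gamma hσ
  have h3 := mellinInv_mellin_eq σ _ hy h1 h2 (by fun_prop)
  constructor
  · refine Integrable.mul_bdd (c := y ^ (-σ)) (vInt_Gamma hσ) ?_ (Eventually.of_forall fun t => ?_)
    · exact (Continuous.const_cpow (by fun_prop) (Or.inl (ofReal_ne_zero.2 hy.ne'))).aestronglyMeasurable
    · rw [norm_cpow_eq_rpow_re_of_pos hy]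
      simp
  · rw [← h3, mellinInv, VI, real_smul]
    simp only [hm, smul_eq_mul]
    simp only [mul_comm]

theorem gc_polyOn_mul {σ₀ : ℝ} {F G : ℂ → ℂ} (hF : PolyOn σ₀ F) (hG : PolyOn σ₀ G) :
    PolyOn σ₀ fun s => F s * G s := by
  refine ⟨hF.1.mul hG.1, fun σ₁ σ₂ h => ?_⟩
  obtain ⟨C, A, hC, hA, h1⟩ := hF.2 σ₁ σ₂ h
  obtain ⟨D, B, hD, hB, h2⟩ := hG.2 σ₁ σ₂ h
  refine ⟨C * D, A + B, by positivity, by positivity, fun s hs => ?_⟩
  rw [norm_mul, Real.rpow_add (by positivity)]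
  calc ‖F s‖ * ‖G s‖ ≤ (C * (1 + |s.im|) ^ A) * (D * (1 + |s.im|) ^ B) :=
        mul_le_mul (h1 s hs) (h2 s hs) (norm_nonneg _) (by positivity)
    _ = _ := by ring

theorem gc_polyOn_mono {σ₀ σ' : ℝ} {F : ℂ → ℂ} (hF : PolyOn σ₀ F) (h : σ₀ ≤ σ') : PolyOn σ' F :=
  ⟨hF.1.mono fun _ hs => lt_of_le_of_lt h hs, fun σ₁ σ₂ h1 => hF.2 σ₁ σ₂ (lt_of_le_of_lt h h1)⟩

theorem gc_diff_cpow {X : ℝ} (hX : 0 < X) (a b : ℝ) :
    Differentiable ℂ fun s : ℂ => (X : ℂ) ^ (a * s + b) :=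
  Differentiable.const_cpow (by fun_prop) (Or.inl (by exact_mod_cast hX.ne'))

theorem gc_norm_cpow {X : ℝ} (hX : 0 < X) (a b : ℝ) (s : ℂ) :
    ‖(X : ℂ) ^ (a * s + b)‖ = X ^ (a * s.re + b) := by
  rw [norm_cpow_eq_rpow_re_of_pos hX]
  simp

theorem gc_polyOn_cpow {X : ℝ} (hX : 0 < X) (a b σ₀ : ℝ) :
    PolyOn σ₀ fun s : ℂ => (X : ℂ) ^ (a * s + b) := by
  refine ⟨(gc_diff_cpow hX a b).differentiableOn, fun σ₁ σ₂ _ => ?_⟩
  refine ⟨Real.exp (|Real.log X| * (|a| * (|σ₁| + |σ₂|) + |b|)), 0, by positivity, le_rfl,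
    fun s hs => ?_⟩
  rw [gc_norm_cpow hX, Real.rpow_zero, mul_one, Real.rpow_def_of_pos hX]
  refine Real.exp_le_exp.2 ((le_abs_self _).trans ?_)
  rw [abs_mul]
  refine mul_le_mul_of_nonneg_left ((abs_add_le _ _).trans ?_) (abs_nonneg _)
  rw [abs_mul]
  have h1 : |s.re| ≤ |σ₁| + |σ₂| := by
    have := hs.1
    have := hs.2
    have := le_abs_self σ₂
    have := neg_abs_le σ₁
    have := abs_nonneg σ₁
    have := abs_nonneg σ₂
    rw [abs_le]
    constructor <;> linarith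
  have := mul_le_mul_of_nonneg_left h1 (abs_nonneg a)
  linarith

theorem gc_XK_pos : (0 : ℝ) < 2 * π / √3 := by positivity

theorem gc_Xth_pos : (0 : ℝ) < 27 / (4 * π ^ 2) := by positivity

theorem gc_inv_gK (s : ℂ) :
    (gK s)⁻¹ = ((2 * π / √3 : ℝ) : ℂ) ^ (((1 : ℝ) : ℂ) * s + ((0 : ℝ) : ℂ)) * (Gamma s)⁻¹ := by
  rw [gK, mul_inv, cpow_neg, inv_inv]
  simp

theorem gc_RK (s : ℂ) : RK s = ((2 * π / √3 : ℝ) : ℂ) ^ (((-2 : ℝ) : ℂ) * s + ((1 : ℝ) : ℂ)) *
    (Gamma (s + ((0 : ℝ) : ℂ)) * (Gamma (1 - s + ((0 : ℝ) : ℂ)))⁻¹) := by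
  have hX : ((2 * π / √3 : ℝ) : ℂ) ≠ 0 := by exact_mod_cast gc_XK_pos.ne'
  have h : ((2 * π / √3 : ℝ) : ℂ) ^ (((-2 : ℝ) : ℂ) * s + ((1 : ℝ) : ℂ)) =
      ((2 * π / √3 : ℝ) : ℂ) ^ (-s) * ((2 * π / √3 : ℝ) : ℂ) ^ (1 - s) := by
    rw [← cpow_add _ _ hX]
    congr 1
    push_cast
    ring
  rw [RK, gK, gK, mul_inv, cpow_neg _ (1 - s), inv_inv, h, ofReal_zero, add_zero, add_zero]
  ring

theorem gc_inv_gth (s : ℂ) :
    (gth s)⁻¹ = ((27 / (4 * π ^ 2) : ℝ) : ℂ) ^ (((-1 : ℝ) : ℂ) * s + ((0 : ℝ) : ℂ)) *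
      ((Gamma (s + 1 / 3))⁻¹ * (Gamma (s + 2 / 3))⁻¹) := by
  rw [gth, mul_inv, mul_inv, ← cpow_neg, mul_assoc]
  congr 2
  push_cast
  ring

theorem gc_Rth (s : ℂ) :
    Rth s = ((27 / (4 * π ^ 2) : ℝ) : ℂ) ^ (((2 : ℝ) : ℂ) * s + ((-1 : ℝ) : ℂ)) *
      ((Gamma (s + ((1 / 3 : ℝ) : ℂ)) * (Gamma (1 - s + ((1 / 3 : ℝ) : ℂ)))⁻¹) *
        (Gamma (s + ((2 / 3 : ℝ) : ℂ)) * (Gamma (1 - s + ((2 / 3 : ℝ) : ℂ)))⁻¹)) := by
  have hX : ((27 / (4 * π ^ 2) : ℝ) : ℂ) ≠ 0 := by exact_mod_cast gc_Xth_pos.ne'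
  have h : ((27 / (4 * π ^ 2) : ℝ) : ℂ) ^ (((2 : ℝ) : ℂ) * s + ((-1 : ℝ) : ℂ)) =
      ((27 / (4 * π ^ 2) : ℝ) : ℂ) ^ s * (((27 / (4 * π ^ 2) : ℝ) : ℂ) ^ (1 - s))⁻¹ := by
    rw [← cpow_neg, ← cpow_add _ _ hX]
    congr 1
    push_cast
    ring
  have h1 : ((1 / 3 : ℝ) : ℂ) = 1 / 3 := by push_cast; ring
  have h2 : ((2 / 3 : ℝ) : ℂ) = 2 / 3 := by push_cast; ring
  rw [Rth, gth, gth, mul_inv, mul_inv, h, h1, h2]
  ring

theorem gc_expOn_inv_Gamma (σ₁ σ₂ a : ℝ) : ExpOn σ₁ σ₂ fun s => (Gamma (s + a))⁻¹ := by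
  obtain ⟨C, -, h⟩ := inv_Gamma_strip (σ₁ + a) (σ₂ + a)
  refine ⟨C, π, fun s hs => ?_⟩
  have h1 := h (s + a) ⟨by have := hs.1; simpa using this, by have := hs.2; simpa using this⟩
  simpa using h1

theorem gK_ne_zero {s : ℂ} (hs : 0 < s.re) : gK s ≠ 0 := by
  have hX : ((2 * π / √3 : ℝ) : ℂ) ≠ 0 := by exact_mod_cast gc_XK_pos.ne'
  exact mul_ne_zero (cpow_ne_zero_iff.2 (Or.inl hX)) (Gamma_ne_zero_of_re_pos hs)

theorem differentiable_inv_gK : Differentiable ℂ fun s => (gK s)⁻¹ := by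
  simp only [gc_inv_gK]
  exact (gc_diff_cpow gc_XK_pos 1 0).mul differentiable_one_div_Gamma

theorem expOn_inv_gK (σ₁ σ₂ : ℝ) : ExpOn σ₁ σ₂ fun s => (gK s)⁻¹ := by
  simp only [gc_inv_gK]
  have h := gc_expOn_inv_Gamma σ₁ σ₂ 0
  simp only [ofReal_zero, add_zero] at h
  exact (expOn_cpow gc_XK_pos σ₁ σ₂ 1 0).mul h

theorem polyOn_RK : PolyOn 0 RK := by
  have h : RK = _ := funext gc_RK
  rw [h]
  exact gc_polyOn_mul (gc_polyOn_cpow gc_XK_pos _ _ _)
    (gc_polyOn_mono (polyOn_Gamma_ratio 0) (by norm_num))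

theorem norm_RK_half {s : ℂ} (hs : s.re = 1 / 2) : ‖RK s‖ = 1 := by
  rw [gc_RK, norm_mul, gc_norm_cpow gc_XK_pos, norm_Gamma_ratio_half (by norm_num) hs, hs]
  norm_num

theorem gth_ne_zero {s : ℂ} (hs : -(1 / 3) < s.re) : gth s ≠ 0 := by
  have hX : ((27 / (4 * π ^ 2) : ℝ) : ℂ) ≠ 0 := by exact_mod_cast gc_Xth_pos.ne'
  refine mul_ne_zero (mul_ne_zero (cpow_ne_zero_iff.2 (Or.inl hX)) (Gamma_ne_zero_of_re_pos ?_))
    (Gamma_ne_zero_of_re_pos ?_)
  · have : (s + 1 / 3).re = s.re + 1 / 3 := by simp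
    rw [this]; linarith
  · have : (s + 2 / 3).re = s.re + 2 / 3 := by simp
    rw [this]; linarith

theorem differentiable_inv_gth : Differentiable ℂ fun s => (gth s)⁻¹ := by
  simp only [gc_inv_gth]
  exact (gc_diff_cpow gc_Xth_pos (-1) 0).mul
    ((differentiable_one_div_Gamma.comp (differentiable_id.add_const _)).mul
      (differentiable_one_div_Gamma.comp (differentiable_id.add_const _)))

theorem expOn_inv_gth (σ₁ σ₂ : ℝ) : ExpOn σ₁ σ₂ fun s => (gth s)⁻¹ := by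
  simp only [gc_inv_gth]
  have h1 : ((1 / 3 : ℝ) : ℂ) = 1 / 3 := by push_cast; ring
  have h2 : ((2 / 3 : ℝ) : ℂ) = 2 / 3 := by push_cast; ring
  have ha := gc_expOn_inv_Gamma σ₁ σ₂ (1 / 3)
  have hb := gc_expOn_inv_Gamma σ₁ σ₂ (2 / 3)
  rw [h1] at ha
  rw [h2] at hb
  exact (expOn_cpow gc_Xth_pos σ₁ σ₂ (-1) 0).mul (ha.mul hb)

theorem polyOn_Rth : PolyOn (-(1 / 3)) Rth := by
  have h : Rth = _ := funext gc_Rth
  rw [h]
  exact gc_polyOn_mul (gc_polyOn_cpow gc_Xth_pos _ _ _)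
    (gc_polyOn_mul (polyOn_Gamma_ratio (1 / 3))
      (gc_polyOn_mono (polyOn_Gamma_ratio (2 / 3)) (by norm_num)))

theorem norm_Rth_half {s : ℂ} (hs : s.re = 1 / 2) : ‖Rth s‖ = 1 := by
  rw [gc_Rth, norm_mul, norm_mul, gc_norm_cpow gc_Xth_pos,
    norm_Gamma_ratio_half (by norm_num) hs, norm_Gamma_ratio_half (by norm_num) hs, hs]
  norm_num

theorem norm_Rth_zero {s : ℂ} (hs : s.re = 0) : ‖Rth s‖ ≤ 7 := by
  rw [gc_Rth, norm_mul, norm_mul, gc_norm_cpow gc_Xth_pos,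
    norm_Gamma_ratio_zero (by norm_num) hs, norm_Gamma_ratio_zero (by norm_num) hs, hs]
  have hb : ∀ a : ℝ, 0 < a → ‖s + a‖⁻¹ ≤ a⁻¹ := by
    intro a ha
    refine inv_anti₀ ha ?_
    have h1 : (s + a).re = a := by simp [hs]
    calc a = (s + a).re := h1.symm
      _ ≤ ‖s + a‖ := re_le_norm _
  have h1 := hb (1 / 3) (by norm_num)
  have h2 := hb (2 / 3) (by norm_num)
  have h3 : (27 / (4 * π ^ 2) : ℝ) ^ (2 * (0 : ℝ) + -1) = 4 * π ^ 2 / 27 := by
    rw [mul_zero, zero_add, Real.rpow_neg_one, inv_div]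
  rw [h3]
  have hpi : π ^ 2 < 10 := by nlinarith [Real.pi_lt_d2, Real.pi_pos]
  have h4 : ‖s + ((1 / 3 : ℝ) : ℂ)‖⁻¹ * ‖s + ((2 / 3 : ℝ) : ℂ)‖⁻¹ ≤ (1 / 3)⁻¹ * (2 / 3)⁻¹ :=
    mul_le_mul h1 h2 (by positivity) (by positivity)
  calc 4 * π ^ 2 / 27 * (‖s + ((1 / 3 : ℝ) : ℂ)‖⁻¹ * ‖s + ((2 / 3 : ℝ) : ℂ)‖⁻¹)
      ≤ 4 * 10 / 27 * ((1 / 3)⁻¹ * (2 / 3)⁻¹) := by
        refine mul_le_mul ?_ h4 (by positivity) (by positivity)
        linarith
    _ ≤ 7 := by norm_num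

end Crest.Agent.R17
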