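import Crest.Agent.R17.B.Gauss

/-! Row 17, block B: the log-normal test function and its Mellin transform. -/

set_option autoImplicit false

namespace Crest.Agent.R17

open Complex MeasureTheory Filter Set
open scoped Real Topology ComplexConjugate

theorem norm_LN (a Y t x : ℝ) :
    ‖LN a Y t x‖ = Real.exp (-(Real.log (x / Y) ^ 2 / (2 * a ^ 2))) := by
  rw [LN, Complex.norm_exp]
  congr 1
  simp only [add_re, neg_re, ofReal_re, mul_re, I_re, zero_mul, I_im, ofReal_im, mul_zero,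
    sub_self, add_zero]

theorem norm_LN_le_one (a Y t x : ℝ) : ‖LN a Y t x‖ ≤ 1 := by
  rw [norm_LN, Real.exp_le_one_iff, neg_nonpos]
  positivity

theorem norm_LN_twist (a Y t t' x : ℝ) : ‖LN a Y t x‖ = ‖LN a Y t' x‖ := by
  rw [norm_LN, norm_LN]

theorem LN_zero (a Y x : ℝ) :
    LN a Y 0 x = (Real.exp (-(Real.log (x / Y) ^ 2 / (2 * a ^ 2))) : ℝ) := by
  rw [LN, zero_mul, ofReal_zero, mul_zero, add_zero, ofReal_exp, ofReal_neg]

theorem conj_LN (a Y t x : ℝ) : conj (LN a Y t x) = LN a Y (-t) x := by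
  rw [LN, LN, ← Complex.exp_conj]
  congr 1
  simp only [map_add, map_neg, conj_ofReal, map_mul, conj_I]
  push_cast
  ring

theorem LN_mul_arg (a Y t d x : ℝ) : LN a Y t (d * x) = LN a (Y / d) t x := by
  rw [LN, LN, div_div_eq_mul_div, mul_comm x d]

theorem LN_mul_mul (a Y t x : ℝ) {d : ℝ} (hd : d ≠ 0) : LN a (d * Y) t (d * x) = LN a Y t x := by
  rw [LN, LN, mul_div_mul_left _ _ hd]

theorem LNa_cpow {x : ℝ} (hx : 0 < x) (s : ℂ) :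
    (x : ℂ) ^ s = cexp ((Real.log x : ℂ) * s) := by
  rw [cpow_def_of_ne_zero (ofReal_ne_zero.2 hx.ne'), ofReal_log hx.le]

theorem LN_twist_eq {Y x : ℝ} (hY : 0 < Y) (hx : 0 < x) (a t τ : ℝ) :
    LN a Y (t + τ) x = LN a Y t x * ((x : ℂ) ^ (I * τ) * (Y : ℂ) ^ (-(I * τ))) := by
  rw [LNa_cpow hx, LNa_cpow hY, LN, LN, ← Complex.exp_add, ← Complex.exp_add,
    Real.log_div hx.ne' hY.ne']
  congr 1
  push_cast
  ring

/-- a log-normal times a power is a log-normal -/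
theorem LN_mul_cpow {a Y x : ℝ} (ha : 0 < a) (hY : 0 < Y) (hx : 0 < x) (t : ℝ) (s : ℂ) :
    LN a Y t x * (x : ℂ) ^ s =
      (Y : ℂ) ^ s * cexp (((a ^ 2 * s.re ^ 2 / 2 : ℝ) : ℂ) + I * ((a ^ 2 * s.re * (t + s.im) : ℝ) : ℂ)) *
        LN a (Y * Real.exp (a ^ 2 * s.re)) (t + s.im) x := by
  have hY' : 0 < Y * Real.exp (a ^ 2 * s.re) := by positivity
  rw [LNa_cpow hx, LNa_cpow hY, LN, LN, ← Complex.exp_add, ← Complex.exp_add, ← Complex.exp_add,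
    Real.log_div hx.ne' hY.ne', Real.log_div hx.ne' hY'.ne',
    Real.log_mul hY.ne' (Real.exp_pos _).ne', Real.log_exp]
  congr 1
  have ha' : (a : ℂ) ≠ 0 := ofReal_ne_zero.2 ha.ne'
  obtain ⟨σ, τ, rfl⟩ : ∃ σ τ : ℝ, s = σ + τ * I := ⟨s.re, s.im, (re_add_im s).symm⟩
  simp only [add_re, ofReal_re, mul_re, I_re, mul_zero, ofReal_im, I_im, mul_one, sub_self,
    add_zero, add_im, mul_im, zero_add]
  push_cast
  field_simp
  ring

theorem norm_LN_mul_rpow {a Y x : ℝ} (ha : 0 < a) (hY : 0 < Y) (hx : 0 < x) (t t' σ : ℝ) :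
    ‖LN a Y t x‖ * x ^ σ =
      Y ^ σ * Real.exp (a ^ 2 * σ ^ 2 / 2) * ‖LN a (Y * Real.exp (a ^ 2 * σ)) t' x‖ := by
  have h := congrArg (fun z : ℂ => ‖z‖) (LN_mul_cpow ha hY hx t (σ : ℂ))
  simp only [norm_mul, norm_cpow_eq_rpow_re_of_pos hx, norm_cpow_eq_rpow_re_of_pos hY, ofReal_re,
    ofReal_im, Complex.norm_exp, add_re, mul_re, I_re, zero_mul, I_im, mul_zero, sub_self,
    add_zero] at h
  rw [h, norm_LN_twist a _ t t']

theorem norm_LN_le_rpow {a Y x : ℝ} (ha : 0 < a) (hY : 0 < Y) (hx : 0 < x) (t σ : ℝ) :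
    ‖LN a Y t x‖ ≤ Real.exp (a ^ 2 * σ ^ 2 / 2) * Y ^ σ * x ^ (-σ) := by
  have h := norm_LN_mul_rpow ha hY hx t 0 σ
  have h1 := norm_LN_le_one a (Y * Real.exp (a ^ 2 * σ)) 0 x
  have hxs : 0 < x ^ σ := Real.rpow_pos_of_pos hx σ
  have hYs : 0 < Y ^ σ := Real.rpow_pos_of_pos hY σ
  rw [Real.rpow_neg hx.le, ← div_eq_mul_inv, le_div_iff₀ hxs, h]
  have h2 : 0 < Y ^ σ * Real.exp (a ^ 2 * σ ^ 2 / 2) := by positivity
  calc _ ≤ Y ^ σ * Real.exp (a ^ 2 * σ ^ 2 / 2) * 1 := by gcongr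
    _ = _ := by ring

theorem norm_LN_tail {a Y x Δ : ℝ} (hΔ : 0 ≤ Δ) (h : Δ ≤ |Real.log (x / Y)|) (t : ℝ) :
    ‖LN a Y t x‖ ≤ Real.exp (-(Δ ^ 2 / (4 * a ^ 2))) * ‖LN (√2 * a) Y 0 x‖ := by
  rw [norm_LN, norm_LN, ← Real.exp_add, Real.exp_le_exp, mul_pow, Real.sq_sqrt (by norm_num)]
  have h1 : Δ ^ 2 ≤ Real.log (x / Y) ^ 2 := by
    rw [← sq_abs (Real.log _)]
    exact pow_le_pow_left₀ hΔ h 2
  have h2 : Δ ^ 2 / (4 * a ^ 2) ≤ Real.log (x / Y) ^ 2 / (4 * a ^ 2) :=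
    div_le_div_of_nonneg_right h1 (by positivity)
  have h3 : Real.log (x / Y) ^ 2 / (2 * a ^ 2) = Real.log (x / Y) ^ 2 / (4 * a ^ 2) +
      Real.log (x / Y) ^ 2 / (2 * (2 * a ^ 2)) := by ring
  linarith

theorem le_norm_LN {a Y x Δ : ℝ} (h : |Real.log (x / Y)| ≤ Δ) (t : ℝ) :
    Real.exp (-(Δ ^ 2 / (2 * a ^ 2))) ≤ ‖LN a Y t x‖ := by
  rw [norm_LN, Real.exp_le_exp, neg_le_neg_iff]
  have h1 : Real.log (x / Y) ^ 2 ≤ Δ ^ 2 := by
    rw [← sq_abs (Real.log _)]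
    exact pow_le_pow_left₀ (abs_nonneg _) h 2
  exact div_le_div_of_nonneg_right h1 (by positivity)

theorem LN_mul_LN {a b c : ℝ} (h : 1 / a ^ 2 = 1 / b ^ 2 + 1 / c ^ 2) (Y t t' x : ℝ) :
    LN b Y t x * LN c Y t' x = LN a Y (t + t') x := by
  rw [LN, LN, LN, ← Complex.exp_add]
  congr 1
  have h1 : Real.log (x / Y) ^ 2 / (2 * a ^ 2) =
      Real.log (x / Y) ^ 2 / (2 * b ^ 2) + Real.log (x / Y) ^ 2 / (2 * c ^ 2) := by
    have e : ∀ u : ℝ, Real.log (x / Y) ^ 2 / (2 * u ^ 2) =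
        Real.log (x / Y) ^ 2 / 2 * (1 / u ^ 2) := fun u => by ring
    rw [e, e, e, h]; ring
  rw [h1]
  push_cast
  ring

/-- joint continuity in (log centre, twist) -/
theorem continuous_LN {Y x : ℝ} (hY : 0 < Y) (hx : 0 < x) (a : ℝ) :
    Continuous fun p : ℝ × ℝ => LN a (Y * Real.exp p.1) p.2 x := by
  have h : ∀ p : ℝ × ℝ, Real.log (x / (Y * Real.exp p.1)) = Real.log x - Real.log Y - p.1 := by
    intro p
    rw [Real.log_div hx.ne' (by positivity), Real.log_mul hY.ne' (Real.exp_pos _).ne',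
      Real.log_exp]
    ring
  simp only [LN, h]
  fun_prop

theorem differentiable_LNt (a : ℝ) : Differentiable ℂ (LNt a) := by
  unfold LNt
  fun_prop

theorem norm_LNt {a : ℝ} (ha : 0 ≤ a) (s : ℂ) :
    ‖LNt a s‖ = √(2 * π) * a * Real.exp (a ^ 2 * s.re ^ 2 / 2) *
      Real.exp (-(a ^ 2 / 2) * s.im ^ 2) := by
  rw [LNt, norm_mul, Complex.norm_real, Real.norm_of_nonneg (by positivity), Complex.norm_exp,
    mul_assoc (√(2 * π) * a), ← Real.exp_add]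
  congr 2
  have : (a : ℂ) ^ 2 * s ^ 2 / 2 = ((a ^ 2 / 2 : ℝ) : ℂ) * (s * s) := by push_cast; ring
  rw [this, re_ofReal_mul, mul_re]
  ring

theorem LNt_neg (a : ℝ) (s : ℂ) : LNt a (-s) = LNt a s := by
  rw [LNt, LNt, neg_sq]

theorem LNt_ne_zero {a : ℝ} (ha : a ≠ 0) (s : ℂ) : LNt a s ≠ 0 := by
  refine mul_ne_zero (ofReal_ne_zero.2 (mul_ne_zero ?_ ha)) (Complex.exp_ne_zero _)
  exact (Real.sqrt_pos.2 (by positivity)).ne'

theorem LNt_add (a : ℝ) (s w : ℂ) :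
    LNt a (s + w) = LNt a s * cexp ((a : ℂ) ^ 2 * s * w + (a : ℂ) ^ 2 * w ^ 2 / 2) := by
  rw [LNt, LNt, mul_assoc, ← Complex.exp_add]
  congr 2
  ring

theorem LNt_mul {a b c : ℝ} (ha : a ≠ 0) (h : a ^ 2 = b ^ 2 + c ^ 2) (s : ℂ) :
    LNt b s * LNt c s = ((√(2 * π) * b * c / a : ℝ) : ℂ) * LNt a s := by
  have h' : (a : ℂ) ^ 2 = (b : ℂ) ^ 2 + (c : ℂ) ^ 2 := by exact_mod_cast h
  have ha' : (a : ℂ) ≠ 0 := ofReal_ne_zero.2 ha
  have e : cexp ((a : ℂ) ^ 2 * s ^ 2 / 2) =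
      cexp ((b : ℂ) ^ 2 * s ^ 2 / 2) * cexp ((c : ℂ) ^ 2 * s ^ 2 / 2) := by
    rw [← Complex.exp_add, h']; congr 1; ring
  rw [LNt, LNt, LNt, e]
  push_cast
  field_simp

theorem lnb_gauss {r : ℝ} (hr : 0 < r) (c d : ℂ) :
    Integrable (fun x : ℝ => cexp (-(r : ℂ) * x ^ 2 + c * x + d)) ∧
    ∫ x : ℝ, cexp (-(r : ℂ) * x ^ 2 + c * x + d) =
      ((√(π / r) : ℝ) : ℂ) * cexp (d + c ^ 2 / (4 * r)) := by
  have hb : (-(r : ℂ)).re < 0 := by simpa using hr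
  refine ⟨integrable_cexp_quadratic' hb c d, ?_⟩
  rw [integral_cexp_quadratic hb, Real.sqrt_eq_rpow, ofReal_cpow (by positivity)]
  push_cast
  rw [neg_neg, mul_neg, div_neg, sub_neg_eq_add]

theorem lnb_gauss' {a : ℝ} (ha : 0 < a) (c d : ℂ) :
    Integrable (fun x : ℝ => cexp (-(1 / (2 * (a : ℂ) ^ 2)) * x ^ 2 + c * x + d)) ∧
    ∫ x : ℝ, cexp (-(1 / (2 * (a : ℂ) ^ 2)) * x ^ 2 + c * x + d) =
      ((√(2 * π) * a : ℝ) : ℂ) * cexp (d + (a : ℂ) ^ 2 * c ^ 2 / 2) := by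
  have h := lnb_gauss (r := 1 / (2 * a ^ 2)) (by positivity) c d
  have e : √(π / (1 / (2 * a ^ 2))) = √(2 * π) * a := by
    rw [show π / (1 / (2 * a ^ 2)) = 2 * π * a ^ 2 by field_simp,
      Real.sqrt_mul (by positivity), Real.sqrt_sq ha.le]
  have ha' : (a : ℂ) ≠ 0 := ofReal_ne_zero.2 ha.ne'
  have e2 : c ^ 2 / (4 * ((1 / (2 * a ^ 2) : ℝ) : ℂ)) = (a : ℂ) ^ 2 * c ^ 2 / 2 := by
    push_cast
    field_simp
    ring
  rw [e, e2] at h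
  have e3 : ((1 / (2 * a ^ 2) : ℝ) : ℂ) = 1 / (2 * (a : ℂ) ^ 2) := by push_cast; rfl
  rwa [e3] at h

theorem lnb_cpow {x : ℝ} (hx : 0 < x) (s : ℂ) : (x : ℂ) ^ s = cexp ((Real.log x : ℂ) * s) := by
  rw [cpow_def_of_ne_zero (ofReal_ne_zero.2 hx.ne'), ofReal_log hx.le]

/-- Mellin transform in the logarithm of the centre (`integral_cexp_quadratic`) -/
theorem integral_LN_centre {a x : ℝ} (ha : 0 < a) (hx : 0 < x) (t : ℝ) (s : ℂ) :
    Integrable (fun η : ℝ => cexp (-(η : ℂ) * s) * LN a (Real.exp η) t x) ∧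
    ∫ η : ℝ, cexp (-(η : ℂ) * s) * LN a (Real.exp η) t x = LNt a (s + I * t) * (x : ℂ) ^ (-s) := by
  have ha' : (a : ℂ) ≠ 0 := ofReal_ne_zero.2 ha.ne'
  obtain ⟨L, hL⟩ : ∃ L, L = Real.log x := ⟨_, rfl⟩
  have h := lnb_gauss' ha ((L : ℂ) / (a : ℂ) ^ 2 - (s + I * t))
    (-((L : ℂ) ^ 2 / (2 * (a : ℂ) ^ 2)) + I * t * L)
  have e : (fun η : ℝ => cexp (-(η : ℂ) * s) * LN a (Real.exp η) t x) = fun η : ℝ =>
      cexp (-(1 / (2 * (a : ℂ) ^ 2)) * η ^ 2 + ((L : ℂ) / (a : ℂ) ^ 2 - (s + I * t)) * η +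
        (-((L : ℂ) ^ 2 / (2 * (a : ℂ) ^ 2)) + I * t * L)) := by
    funext η
    rw [LN, Real.log_div hx.ne' (Real.exp_pos η).ne', Real.log_exp, ← hL, ← Complex.exp_add]
    congr 1
    push_cast
    ring
  rw [e]
  refine ⟨h.1, h.2.trans ?_⟩
  rw [LNt, lnb_cpow hx, ← hL, mul_assoc _ (cexp _), ← Complex.exp_add]
  congr 2
  field_simp
  ring

theorem integral_norm_LN_centre {a x : ℝ} (ha : 0 < a) (hx : 0 < x) (t σ : ℝ) :
    ∫ η : ℝ, Real.exp (-η * σ) * ‖LN a (Real.exp η) t x‖ =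
      √(2 * π) * a * Real.exp (a ^ 2 * σ ^ 2 / 2) * x ^ (-σ) := by
  have h := (integral_LN_centre ha hx 0 σ).2
  have e : (fun η : ℝ => cexp (-(η : ℂ) * σ) * LN a (Real.exp η) 0 x) = fun η : ℝ =>
      ((Real.exp (-η * σ) * ‖LN a (Real.exp η) t x‖ : ℝ) : ℂ) := by
    funext η
    rw [LN_zero, norm_LN, ofReal_mul, ofReal_exp (-η * σ), ofReal_mul, ofReal_neg]
  rw [e, integral_complex_ofReal] at h
  refine ofReal_injective (h.trans ?_)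
  rw [LNt, ofReal_mul _ (x ^ (-σ)), ofReal_cpow hx.le, ofReal_mul _ (Real.exp _), ofReal_exp]
  push_cast
  rw [mul_zero, add_zero]

/-- Mellin transform in the argument -/
theorem mellin_LN {a Y : ℝ} (ha : 0 < a) (hY : 0 < Y) (t : ℝ) (s : ℂ) :
    IntegrableOn (fun x : ℝ => (x : ℂ) ^ (s - 1) * LN a Y t x) (Ioi 0) ∧
    ∫ x in Ioi (0 : ℝ), (x : ℂ) ^ (s - 1) * LN a Y t x = (Y : ℂ) ^ s * LNt a (s + I * t) := by
  have ha' : (a : ℂ) ≠ 0 := ofReal_ne_zero.2 ha.ne'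
  obtain ⟨M, hM⟩ : ∃ M, M = Real.log Y := ⟨_, rfl⟩
  have h := lnb_gauss' ha ((M : ℂ) / (a : ℂ) ^ 2 + (s + I * t))
    (-((M : ℂ) ^ 2 / (2 * (a : ℂ) ^ 2)) - I * t * M)
  have e : (fun u : ℝ => |Real.exp u| • (((Real.exp u : ℝ) : ℂ) ^ (s - 1) *
      LN a Y t (Real.exp u))) = fun u : ℝ =>
      cexp (-(1 / (2 * (a : ℂ) ^ 2)) * u ^ 2 + ((M : ℂ) / (a : ℂ) ^ 2 + (s + I * t)) * u +
        (-((M : ℂ) ^ 2 / (2 * (a : ℂ) ^ 2)) - I * t * M)) := by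
    funext u
    rw [LN, Real.log_div (Real.exp_pos u).ne' hY.ne', lnb_cpow (Real.exp_pos u), Real.log_exp, ← hM,
      abs_of_pos (Real.exp_pos u), real_smul, ofReal_exp, ← Complex.exp_add, ← Complex.exp_add]
    congr 1
    push_cast
    ring
  have im : Ioi (0 : ℝ) = Real.exp '' univ := by rw [image_univ, Real.range_exp]
  have hd : ∀ u ∈ (univ : Set ℝ), HasDerivWithinAt Real.exp (Real.exp u) univ u :=
    fun u _ => (Real.hasDerivAt_exp u).hasDerivWithinAt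
  rw [im, integrableOn_image_iff_integrableOn_abs_deriv_smul MeasurableSet.univ hd
    Real.exp_injective.injOn, integral_image_eq_integral_abs_deriv_smul MeasurableSet.univ hd
    Real.exp_injective.injOn, integrableOn_univ, Measure.restrict_univ, e]
  refine ⟨h.1, h.2.trans ?_⟩
  rw [LNt, lnb_cpow hY, ← hM, mul_left_comm, ← Complex.exp_add]
  congr 2
  field_simp
  ring

/-- Mellin inversion on every line (`integral_cexp_quadratic`) -/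
theorem LN_eq_VI {a Y x : ℝ} (ha : 0 < a) (hY : 0 < Y) (hx : 0 < x) (t σ : ℝ) :
    VInt σ (fun s => LNt a (s + I * t) * (Y : ℂ) ^ s * (x : ℂ) ^ (-s)) ∧
    LN a Y t x = VI σ fun s => LNt a (s + I * t) * (Y : ℂ) ^ s * (x : ℂ) ^ (-s) := by
  have ha' : (a : ℂ) ≠ 0 := ofReal_ne_zero.2 ha.ne'
  obtain ⟨L, hL⟩ : ∃ L, L = Real.log x := ⟨_, rfl⟩
  obtain ⟨M, hM⟩ : ∃ M, M = Real.log Y := ⟨_, rfl⟩
  have h := lnb_gauss (r := a ^ 2 / 2) (by positivity)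
    (I * ((a : ℂ) ^ 2 * (σ + I * t) - (L - M))) ((a : ℂ) ^ 2 * (σ + I * t) ^ 2 / 2 - (L - M) * σ)
  have e : (fun y : ℝ => LNt a ((σ : ℂ) + y * I + I * t) * (Y : ℂ) ^ ((σ : ℂ) + y * I) *
      (x : ℂ) ^ (-((σ : ℂ) + y * I))) = fun y : ℝ => ((√(2 * π) * a : ℝ) : ℂ) *
      cexp (-((a ^ 2 / 2 : ℝ) : ℂ) * y ^ 2 + I * ((a : ℂ) ^ 2 * (σ + I * t) - (L - M)) * y +
        ((a : ℂ) ^ 2 * (σ + I * t) ^ 2 / 2 - (L - M) * σ)) := by
    funext y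
    rw [LNt, lnb_cpow hY, lnb_cpow hx, ← hL, ← hM, mul_assoc, mul_assoc, ← Complex.exp_add,
      ← Complex.exp_add]
    congr 2
    push_cast
    linear_combination ((a : ℂ) ^ 2 * y ^ 2 / 2) * I_sq
  unfold VInt VI
  rw [e]
  refine ⟨h.1.const_mul _, ?_⟩
  have e1 : 1 / (2 * π) * (√(2 * π) * a) * √(π / (a ^ 2 / 2)) = 1 := by
    have h2 : √(2 * π) * √(2 * π) = 2 * π := Real.mul_self_sqrt (by positivity)
    rw [show π / (a ^ 2 / 2) = 2 * π / a ^ 2 by field_simp, Real.sqrt_div (by positivity),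
      Real.sqrt_sq ha.le]
    field_simp
    linarith
  rw [integral_const_mul, h.2, ← mul_assoc, ← mul_assoc, ← ofReal_mul, ← ofReal_mul, e1,
    ofReal_one, one_mul, LN, Real.log_div hx.ne' hY.ne', ← hL, ← hM, mul_pow I, I_sq]
  congr 1
  push_cast
  field_simp
  ring

end Crest.Agent.R17
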