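import Crest.Agent.R17.B.LN

/-! Row 17, block B: vertical line integrals and contour shifts. -/

set_option autoImplicit false

namespace Crest.Agent.R17

open Complex MeasureTheory Filter Set
open scoped Real Topology ComplexConjugate

theorem VI_congr {σ : ℝ} {F G : ℂ → ℂ} (h : ∀ s : ℂ, s.re = σ → F s = G s) : VI σ F = VI σ G := by
  unfold VI
  rw [funext fun y : ℝ => h (σ + y * I) (by simp)]

theorem VInt.congr {σ : ℝ} {F G : ℂ → ℂ} (hF : VInt σ F) (h : ∀ s : ℂ, s.re = σ → F s = G s) :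
    VInt σ G := by
  unfold VInt at hF ⊢
  rwa [← funext fun y : ℝ => h (σ + y * I) (by simp)]

theorem VI_const_mul (σ : ℝ) (c : ℂ) (F : ℂ → ℂ) : VI σ (fun s => c * F s) = c * VI σ F := by
  rw [VI, VI, integral_const_mul, mul_left_comm]

theorem VI_add {σ : ℝ} {F G : ℂ → ℂ} (hF : VInt σ F) (hG : VInt σ G) :
    VI σ (fun s => F s + G s) = VI σ F + VI σ G := by
  rw [VI, VI, VI, integral_add hF hG, mul_add]

theorem VI_sub {σ : ℝ} {F G : ℂ → ℂ} (hF : VInt σ F) (hG : VInt σ G) :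
    VI σ (fun s => F s - G s) = VI σ F - VI σ G := by
  rw [VI, VI, VI, integral_sub hF hG, mul_sub]

theorem VI_sum {ι : Type*} {σ : ℝ} (S : Finset ι) {F : ι → ℂ → ℂ} (hF : ∀ i ∈ S, VInt σ (F i)) :
    VI σ (fun s => ∑ i ∈ S, F i s) = ∑ i ∈ S, VI σ (F i) := by
  simp only [VI]
  rw [integral_finsetSum S hF, Finset.mul_sum]

theorem VI_tsum {ι : Type*} [Countable ι] {σ : ℝ} {F : ι → ℂ → ℂ} (hF : ∀ i, VInt σ (F i))
    (hs : Summable fun i => ∫ y : ℝ, ‖F i (σ + y * I)‖) :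
    VInt σ (fun s => ∑' i, F i s) ∧ HasSum (fun i => VI σ (F i)) (VI σ fun s => ∑' i, F i s) := by
  refine ⟨⟨(AEMeasurable.tsum fun i => (hF i).1.aemeasurable).aestronglyMeasurable, ?_⟩,
    (hasSum_integral_of_summable_integral_norm hF hs).mul_left _⟩
  refine lt_of_le_of_lt (lintegral_mono fun y => enorm_tsum_le_tsum_enorm) ?_
  rw [lintegral_tsum fun i => (hF i).1.enorm]
  simp only [← ofReal_integral_norm_eq_lintegral_enorm (hF _)]
  rw [← ENNReal.ofReal_tsum_of_nonneg (fun i => integral_nonneg fun _ => norm_nonneg _) hs]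
  exact ENNReal.ofReal_lt_top

theorem VI_add_const (σ : ℝ) (w : ℂ) (F : ℂ → ℂ) :
    VI σ (fun s => F (s + w)) = VI (σ + w.re) F := by
  unfold VI
  rw [← integral_add_right_eq_self (fun y : ℝ => F ((σ + w.re : ℝ) + y * I)) w.im]
  congr 2
  funext y
  exact congrArg F (Complex.ext (by simp) (by simp))

theorem VI_const_sub (σ : ℝ) (w : ℂ) (F : ℂ → ℂ) :
    VI σ (fun s => F (w - s)) = VI (w.re - σ) F := by
  unfold VI
  rw [← integral_sub_left_eq_self (fun y : ℝ => F ((w.re - σ : ℝ) + y * I)) volume w.im]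
  congr 2
  funext y
  exact congrArg F (Complex.ext (by simp) (by simp))

theorem norm_VI_le {σ : ℝ} {F : ℂ → ℂ} {φ : ℝ → ℝ} (hφ : Integrable φ)
    (h : ∀ y : ℝ, ‖F (σ + y * I)‖ ≤ φ y) : ‖VI σ F‖ ≤ 1 / (2 * π) * ∫ y, φ y := by
  rw [VI, norm_mul, Complex.norm_of_nonneg (by positivity)]
  exact mul_le_mul_of_nonneg_left (norm_integral_le_of_norm_le hφ (Eventually.of_forall h))
    (by positivity)

/-- Gaussian times polynomial on a line -/
theorem norm_VI_le_gauss {c A : ℝ} (hc : 0 < c) (hA : 0 ≤ A) : ∃ C : ℝ, 0 < C ∧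
    ∀ (σ t₀ M : ℝ) (F : ℂ → ℂ),
      (∀ y : ℝ, ‖F (σ + y * I)‖ ≤ M * (Real.exp (-c * (y - t₀) ^ 2) * (1 + |y|) ^ A)) →
      ‖VI σ F‖ ≤ C * M * (1 + |t₀|) ^ A := by
  obtain ⟨C, hC, h⟩ := gauss_poly hc hA
  refine ⟨1 / (2 * π) * C, by positivity, fun σ t₀ M F hF => ?_⟩
  have hM : 0 ≤ M := nonneg_of_mul_nonneg_left ((norm_nonneg _).trans (hF 0)) (by positivity)
  refine (norm_VI_le ((integrable_gauss_poly hc hA t₀).const_mul M) hF).trans ?_
  rw [integral_const_mul, mul_assoc, mul_assoc, mul_left_comm C]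
  gcongr
  exact h t₀

/-- Cauchy–Schwarz on a line -/
theorem norm_VI_mul_sq_le {σ : ℝ} {K F : ℂ → ℂ} {φ : ℝ → ℝ}
    (hK : AEStronglyMeasurable (fun y : ℝ => K (σ + y * I)) volume)
    (hF : AEStronglyMeasurable (fun y : ℝ => F (σ + y * I)) volume)
    (hφ : ∀ y : ℝ, ‖K (σ + y * I)‖ ≤ φ y) (h1 : Integrable φ)
    (h2 : Integrable fun y : ℝ => φ y * ‖F (σ + y * I)‖ ^ 2) :
    ‖VI σ fun s => K s * F s‖ ^ 2 ≤ (∫ y, φ y) * ∫ y : ℝ, φ y * ‖F (σ + y * I)‖ ^ 2 := by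
  refine le_trans ?_ (norm_integral_mul_sq_le' hK hF hφ h1 h2)
  rw [VI, norm_mul, Complex.norm_of_nonneg (by positivity)]
  refine pow_le_pow_left₀ (by positivity) (mul_le_of_le_one_left (norm_nonneg _) ?_) 2
  rw [div_le_one (by positivity)]
  linarith [Real.pi_gt_three]

/-- Cauchy's theorem for a rectangle, as a bound -/
theorem VT_rect {σ₁ σ₂ t₀ T M : ℝ} {F : ℂ → ℂ} (h12 : σ₁ ≤ σ₂) (hT : 0 ≤ T)
    (hd : DifferentiableOn ℂ F (rect σ₁ σ₂ t₀ T))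
    (hM : ∀ s ∈ rect σ₁ σ₂ t₀ T, |s.im - t₀| = T → ‖F s‖ ≤ M) :
    ‖VT σ₂ (t₀ - T) (t₀ + T) F - VT σ₁ (t₀ - T) (t₀ + T) F‖ ≤ (σ₂ - σ₁) * M := by
  have h0 := Complex.integral_boundary_rect_eq_zero_of_differentiableOn F
    (⟨σ₁, t₀ - T⟩ : ℂ) (⟨σ₂, t₀ + T⟩ : ℂ) (hd.mono ?_)
  swap
  · intro s hs
    rw [Complex.mem_reProdIm, uIcc_of_le h12, uIcc_of_le (by linarith)] at hs
    exact ⟨hs.1.1, hs.1.2, abs_le.2 ⟨by linarith [hs.2.1], by linarith [hs.2.2]⟩⟩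
  simp only at h0
  have hor : ∀ t : ℝ, |t - t₀| = T → ‖∫ x in σ₁..σ₂, F (x + t * I)‖ ≤ M * (σ₂ - σ₁) := by
    intro t ht
    have := intervalIntegral.norm_integral_le_of_norm_le_const (a := σ₁) (b := σ₂) (C := M)
      (f := fun x : ℝ => F (x + t * I)) (fun x hx => by
        rw [uIoc_of_le h12] at hx
        refine hM _ ⟨by simpa using hx.1.le, by simpa using hx.2, by simpa using ht.le⟩ ?_
        simpa using ht)
    rwa [abs_of_nonneg (sub_nonneg.2 h12)] at this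
  have hM0 : 0 ≤ M := by
    have ht : |t₀ + T - t₀| = T := by rw [add_sub_cancel_left, abs_of_nonneg hT]
    exact (norm_nonneg _).trans (hM (⟨σ₁, t₀ + T⟩ : ℂ) ⟨le_rfl, h12, ht.le⟩ ht)
  have h1 := hor (t₀ - T) (by rw [sub_sub_cancel_left, abs_neg, abs_of_nonneg hT])
  have h2 := hor (t₀ + T) (by rw [add_sub_cancel_left, abs_of_nonneg hT])
  have h3 : I * ((∫ y in (t₀ - T)..(t₀ + T), F (σ₂ + y * I)) -
      ∫ y in (t₀ - T)..(t₀ + T), F (σ₁ + y * I)) =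
      (∫ x in σ₁..σ₂, F (x + (t₀ + T : ℝ) * I)) - ∫ x in σ₁..σ₂, F (x + (t₀ - T : ℝ) * I) := by
    simp only [smul_eq_mul] at h0
    linear_combination h0
  have h4 : ‖(∫ y in (t₀ - T)..(t₀ + T), F (σ₂ + y * I)) -
      ∫ y in (t₀ - T)..(t₀ + T), F (σ₁ + y * I)‖ ≤ 2 * (M * (σ₂ - σ₁)) := by
    have := congrArg norm h3
    rw [norm_mul, Complex.norm_I, one_mul] at this
    rw [this]
    exact (norm_sub_le _ _).trans (by linarith)
  unfold VT
  rw [← mul_sub, norm_mul, Complex.norm_real, Real.norm_eq_abs,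
    abs_of_pos (by positivity : (0 : ℝ) < 1 / (2 * π))]
  have h5 : 1 / (2 * π) ≤ (1 / 2 : ℝ) :=
    one_div_le_one_div_of_le (by norm_num) (by linarith [Real.pi_gt_three])
  have h6 : 0 ≤ M * (σ₂ - σ₁) := mul_nonneg hM0 (sub_nonneg.2 h12)
  calc _ ≤ (1 / 2 : ℝ) * (2 * (M * (σ₂ - σ₁))) := mul_le_mul h5 h4 (norm_nonneg _) (by norm_num)
    _ = _ := by ring

theorem lineb_int {f : ℝ → ℂ} (hc : Continuous f) {φ : ℝ → ℝ} (hφ : Integrable φ) {T : ℝ}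
    (hb : ∀ y, T ≤ |y| → ‖f y‖ ≤ φ y) : Integrable f := by
  rw [← integrableOn_univ, ← union_compl_self (Icc (-T) T)]
  refine IntegrableOn.union hc.integrableOn_Icc ?_
  refine Integrable.mono' hφ.integrableOn hc.aestronglyMeasurable ?_
  refine (ae_restrict_iff' measurableSet_Icc.compl).2 (Eventually.of_forall fun y hy => hb y ?_)
  by_contra h
  have := abs_lt.1 (not_le.1 h)
  exact hy ⟨this.1.le, this.2.le⟩

theorem lineb_small {φ : ℝ → ℝ} (hφ : Integrable φ) (R : ℝ) {ε : ℝ} (hε : 0 < ε) :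
    ∃ T, R ≤ T ∧ φ T ≤ ε ∧ φ (-T) ≤ ε := by
  by_contra h
  push Not at h
  have hψ : Integrable fun y => |φ y| + |φ (-y)| := hφ.abs.add hφ.comp_neg.abs
  have h1 := hψ.measure_ge_lt_top hε
  have h2 : Ici R ⊆ {y | ε ≤ |φ y| + |φ (-y)|} := by
    intro y hy
    show ε ≤ |φ y| + |φ (-y)|
    have a1 := le_abs_self (φ y)
    have a2 := le_abs_self (φ (-y))
    have a3 := abs_nonneg (φ y)
    have a4 := abs_nonneg (φ (-y))
    by_cases h3 : φ y ≤ ε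
    · linarith [h y hy h3]
    · linarith [not_le.1 h3]
  have h3 := (measure_mono h2).trans_lt h1
  simp at h3

theorem lineb_cont {σ₁ σ₂ σ : ℝ} {F : ℂ → ℂ} (hd : DifferentiableOn ℂ F (strip σ₁ σ₂))
    (h1 : σ₁ ≤ σ) (h2 : σ ≤ σ₂) : Continuous fun y : ℝ => F (σ + y * I) :=
  hd.continuousOn.comp_continuous (by fun_prop) (fun y => ⟨by simpa using h1, by simpa using h2⟩)

/-- shifting a full line; `φ` integrable has arbitrarily small values at arbitrarily large `±T` -/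
theorem VI_shift {σ₁ σ₂ T₀ : ℝ} {F : ℂ → ℂ} {φ : ℝ → ℝ} (h12 : σ₁ ≤ σ₂)
    (hd : DifferentiableOn ℂ F (strip σ₁ σ₂)) (hφ : Integrable φ)
    (hb : ∀ s ∈ strip σ₁ σ₂, T₀ ≤ |s.im| → ‖F s‖ ≤ φ s.im) :
    VInt σ₁ F ∧ VInt σ₂ F ∧ VI σ₁ F = VI σ₂ F := by
  have hI : ∀ σ, σ₁ ≤ σ → σ ≤ σ₂ → VInt σ F := fun σ h1 h2 =>
    lineb_int (lineb_cont hd h1 h2) hφ (T := T₀) (fun y hy => by
      simpa using hb (σ + y * I) ⟨by simpa using h1, by simpa using h2⟩ (by simpa using hy))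
  refine ⟨hI _ le_rfl h12, hI _ h12 le_rfl, ?_⟩
  have hex : ∀ n : ℕ, ∃ T, max (n : ℝ) T₀ ≤ T ∧ φ T ≤ 1 / ((n : ℝ) + 1) ∧
      φ (-T) ≤ 1 / ((n : ℝ) + 1) := fun n => lineb_small hφ _ (by positivity)
  choose T hT1 hT2 hT3 using hex
  have hTn : ∀ n : ℕ, (n : ℝ) ≤ T n := fun n => (le_max_left _ _).trans (hT1 n)
  have hT0 : ∀ n, 0 ≤ T n := fun n => (Nat.cast_nonneg n).trans (hTn n)
  have ht : Tendsto T atTop atTop := tendsto_atTop_mono hTn tendsto_natCast_atTop_atTop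
  have hl : ∀ σ, VInt σ F → Tendsto (fun n => VT σ (0 - T n) (0 + T n) F) atTop (𝓝 (VI σ F)) := by
    intro σ hσ
    refine Tendsto.const_mul _ (intervalIntegral_tendsto_integral hσ ?_ ?_)
    · simpa using ht
    · simpa using ht
  have h1 := ((hl _ (hI _ h12 le_rfl)).sub (hl _ (hI _ le_rfl h12))).norm
  have h2 : Tendsto (fun n : ℕ => (σ₂ - σ₁) * (1 / ((n : ℝ) + 1))) atTop (𝓝 0) := by
    simpa using (tendsto_one_div_add_atTop_nhds_zero_nat (𝕜 := ℝ)).const_mul (σ₂ - σ₁)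
  have h3 := le_of_tendsto_of_tendsto' h1 h2 (fun n =>
    VT_rect h12 (hT0 n) (hd.mono fun s hs => ⟨hs.1, hs.2.1⟩) (fun s hs hs' => by
      rw [sub_zero] at hs'
      refine (hb s ⟨hs.1, hs.2.1⟩ (hs' ▸ (le_max_right _ _).trans (hT1 n))).trans ?_
      rcases (abs_eq (hT0 n)).1 hs' with h | h
      · rw [h]; exact hT2 n
      · rw [h]; exact hT3 n))
  exact (sub_eq_zero.1 (norm_le_zero_iff.1 h3)).symm

theorem lineb_bound {z : ℂ} (L : ℝ) (hz : 1 ≤ |z.im|) :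
    ‖1 / z - 1 / (z - L)‖ ≤ 2 * |L| * (1 + z.im ^ 2)⁻¹ := by
  have h1 : |z.im| ≤ ‖z‖ := Complex.abs_im_le_norm z
  have h2 : |z.im| ≤ ‖z - L‖ := by simpa using Complex.abs_im_le_norm (z - L)
  have h3 : z ≠ 0 := norm_pos_iff.1 (by linarith)
  have h4 : z - L ≠ 0 := norm_pos_iff.1 (by linarith)
  have h5 : 1 / z - 1 / (z - L) = -(L : ℂ) / (z * (z - L)) := by field_simp; ring
  have h6 : z.im ^ 2 ≤ ‖z‖ * ‖z - L‖ := by
    rw [← sq_abs, sq]
    exact mul_le_mul h1 h2 (abs_nonneg _) (norm_nonneg _)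
  have h7 : 1 ≤ z.im ^ 2 := by rw [← sq_abs]; nlinarith
  rw [h5, norm_div, norm_neg, norm_mul, Complex.norm_real, Real.norm_eq_abs, ← div_eq_mul_inv,
    div_le_div_iff₀ (by linarith) (by positivity)]
  nlinarith [abs_nonneg L]

theorem lineb_ne {a : ℝ} (ha : a ≠ 0) (y : ℝ) : (a : ℂ) + y * I ≠ 0 := fun h => ha (by
  simpa using congrArg Complex.re h)

theorem lineb_poisson {a : ℝ} (ha : a ≠ 0) :
    Integrable (fun y : ℝ => a / (a ^ 2 + y ^ 2)) ∧ ∫ y : ℝ, a / (a ^ 2 + y ^ 2) = a⁻¹ * |a| * π := by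
  have h : (fun y : ℝ => a / (a ^ 2 + y ^ 2)) = fun y => a⁻¹ * (1 + (y / a) ^ 2)⁻¹ := by
    funext y
    field_simp
  rw [h]
  refine ⟨(integrable_inv_one_add_sq.comp_div ha).const_mul _, ?_⟩
  rw [integral_const_mul, Measure.integral_comp_div (fun y : ℝ => (1 + y ^ 2)⁻¹) a,
    integral_univ_inv_one_add_sq, smul_eq_mul, mul_assoc]

theorem lineb_expl {a b : ℝ} (ha : a ≠ 0) (hb : b ≠ 0) :
    Integrable (fun y : ℝ => 1 / ((a : ℂ) + y * I) - 1 / ((b : ℂ) + y * I)) ∧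
      ∫ y : ℝ, (1 / ((a : ℂ) + y * I) - 1 / ((b : ℂ) + y * I)) =
        ((a⁻¹ * |a| * π - b⁻¹ * |b| * π : ℝ) : ℂ) := by
  have hi : Integrable (fun y : ℝ => 1 / ((a : ℂ) + y * I) - 1 / ((b : ℂ) + y * I)) := by
    refine lineb_int (T := 1) ?_ (integrable_inv_one_add_sq.const_mul (2 * |a - b|)) (fun y hy => ?_)
    · exact (continuous_const.div (by fun_prop) (lineb_ne ha)).sub
        (continuous_const.div (by fun_prop) (lineb_ne hb))
    · have := lineb_bound (z := (a : ℂ) + y * I) (a - b) (by simpa using hy)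
      have e : (a : ℂ) + y * I - ((a - b : ℝ) : ℂ) = b + y * I := by push_cast; ring
      rw [e] at this
      simpa using this
  refine ⟨hi, ?_⟩
  have h1 := integral_neg_eq_self (fun y : ℝ => 1 / ((a : ℂ) + y * I) - 1 / ((b : ℂ) + y * I)) volume
  have h2 := integral_add hi hi.comp_neg
  rw [h1] at h2
  have key : ∀ c : ℝ, c ≠ 0 → ∀ y : ℝ, 1 / ((c : ℂ) + y * I) + 1 / ((c : ℂ) + (-y : ℝ) * I) =
      2 * ((c / (c ^ 2 + y ^ 2) : ℝ) : ℂ) := by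
    intro c hc y
    have e1 := lineb_ne hc y
    have e2 := lineb_ne hc (-y)
    have e3 : ((c : ℂ) + y * I) * ((c : ℂ) + (-y : ℝ) * I) = ((c ^ 2 + y ^ 2 : ℝ) : ℂ) := by
      push_cast
      linear_combination (-(y : ℂ) ^ 2) * Complex.I_mul_I
    rw [div_add_div _ _ e1 e2, e3]
    push_cast
    ring
  have h3 : ∫ y : ℝ, ((1 / ((a : ℂ) + y * I) - 1 / ((b : ℂ) + y * I)) +
      (1 / ((a : ℂ) + (-y : ℝ) * I) - 1 / ((b : ℂ) + (-y : ℝ) * I))) =
      ∫ y : ℝ, 2 * ((a / (a ^ 2 + y ^ 2) - b / (b ^ 2 + y ^ 2) : ℝ) : ℂ) := by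
    refine integral_congr_ae (Eventually.of_forall fun y => ?_)
    have e1 := key a ha y
    have e2 := key b hb y
    simp only [Complex.ofReal_sub]
    linear_combination e1 - e2
  rw [h3, integral_const_mul, integral_complex_ofReal,
    integral_sub (lineb_poisson ha).1 (lineb_poisson hb).1, (lineb_poisson ha).2,
    (lineb_poisson hb).2] at h2
  linear_combination (-1 / 2 : ℂ) * h2

theorem lineb_expl' {σ L : ℝ} {ρ : ℂ} (ha : σ - ρ.re ≠ 0) (hb : σ - ρ.re - L ≠ 0) :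
    VInt σ (fun s => 1 / (s - ρ) - 1 / (s - ρ - L)) ∧
      VI σ (fun s => 1 / (s - ρ) - 1 / (s - ρ - L)) =
        ((((σ - ρ.re)⁻¹ * |σ - ρ.re| - (σ - ρ.re - L)⁻¹ * |σ - ρ.re - L|) / 2 : ℝ) : ℂ) := by
  obtain ⟨h1, h2⟩ := lineb_expl ha hb
  have e : (fun y : ℝ => 1 / ((σ : ℂ) + y * I - ρ) - 1 / ((σ : ℂ) + y * I - ρ - L)) =
      fun y : ℝ => (fun y : ℝ => 1 / (((σ - ρ.re : ℝ) : ℂ) + y * I) -
        1 / (((σ - ρ.re - L : ℝ) : ℂ) + y * I)) (y - ρ.im) := by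
    funext y
    have e1 : (σ : ℂ) + y * I - ρ = ((σ - ρ.re : ℝ) : ℂ) + ((y - ρ.im : ℝ) : ℂ) * I := by
      apply Complex.ext <;> simp
    have e2 : (σ : ℂ) + y * I - ρ - L = ((σ - ρ.re - L : ℝ) : ℂ) + ((y - ρ.im : ℝ) : ℂ) * I := by
      apply Complex.ext <;> simp
    rw [e2, e1]
  constructor
  · unfold VInt
    rw [e]
    exact h1.comp_sub_right _
  · unfold VI
    rw [e, integral_sub_right_eq_self (fun y : ℝ => 1 / (((σ - ρ.re : ℝ) : ℂ) + y * I) -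
        1 / (((σ - ρ.re - L : ℝ) : ℂ) + y * I)) ρ.im, h2, ← Complex.ofReal_mul]
    congr 1
    have := Real.pi_pos.ne'
    generalize (σ - ρ.re)⁻¹ * |σ - ρ.re| = u
    generalize (σ - ρ.re - L)⁻¹ * |σ - ρ.re - L| = v
    field_simp

/-- shifting a full line across one simple pole (use `dslope G ρ` and one explicit comparison
function, e.g. `exp ((s - ρ)²) / (s - ρ)`, or the rectangle Cauchy formula) -/
theorem VI_shift_pole {σ₁ σ₂ T₀ : ℝ} {G : ℂ → ℂ} {φ : ℝ → ℝ} {ρ : ℂ} (h1 : σ₁ < ρ.re)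
    (h2 : ρ.re < σ₂) (hd : DifferentiableOn ℂ G (strip σ₁ σ₂)) (hφ : Integrable φ)
    (hb : ∀ s ∈ strip σ₁ σ₂, T₀ ≤ |s.im| → ‖G s‖ ≤ φ s.im) :
    VInt σ₁ (fun s => G s / (s - ρ)) ∧ VInt σ₂ (fun s => G s / (s - ρ)) ∧
      VI σ₂ (fun s => G s / (s - ρ)) = VI σ₁ (fun s => G s / (s - ρ)) + G ρ := by
  obtain ⟨L, hL⟩ : ∃ L : ℝ, L = σ₂ - ρ.re + 1 := ⟨_, rfl⟩
  have hL0 : 0 < L := by linarith
  have hne : ∀ s ∈ strip σ₁ σ₂, s - ρ - L ≠ 0 := fun s hs h => by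
    have h' := congrArg Complex.re h
    simp only [Complex.sub_re, Complex.ofReal_re, Complex.zero_re] at h'
    linarith [hs.2]
  set K : ℂ → ℂ := fun s => G s - G ρ * (-(L : ℂ) / (s - ρ - L)) with hK
  have hKd : DifferentiableOn ℂ K (strip σ₁ σ₂) :=
    hd.sub ((DifferentiableOn.div (by fun_prop) (by fun_prop) hne).const_mul _)
  have hLc : (L : ℂ) ≠ 0 := by exact_mod_cast hL0.ne'
  have hK0 : K ρ = 0 := by
    simp only [hK, sub_self, zero_sub]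
    rw [div_self (neg_ne_zero.2 hLc)]; ring
  have hnhds : strip σ₁ σ₂ ∈ 𝓝 ρ := by
    have : IsOpen {s : ℂ | σ₁ < s.re ∧ s.re < σ₂} :=
      (isOpen_lt continuous_const Complex.continuous_re).inter
        (isOpen_lt Complex.continuous_re continuous_const)
    exact mem_of_superset (this.mem_nhds ⟨h1, h2⟩) (fun s hs => ⟨hs.1.le, hs.2.le⟩)
  have hHd := (Complex.differentiableOn_dslope hnhds).2 hKd
  have hH : ∀ s ∈ strip σ₁ σ₂, s ≠ ρ →
      dslope K ρ s = G s / (s - ρ) - G ρ * (1 / (s - ρ) - 1 / (s - ρ - L)) := by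
    intro s hs hsρ
    have e1 := sub_ne_zero.2 hsρ
    have e2 := hne s hs
    rw [dslope_of_ne _ hsρ, slope_def_field, hK0]
    simp only [hK]
    field_simp
    ring
  have hφ' : Integrable fun y : ℝ => φ y + ‖G ρ‖ * (2 * |L| * (1 + (y - ρ.im) ^ 2)⁻¹) :=
    hφ.add (((integrable_inv_one_add_sq.comp_sub_right ρ.im).const_mul _).const_mul _)
  obtain ⟨i1, i2, hEq⟩ := VI_shift (T₀ := max T₀ (|ρ.im| + 1)) (h1.trans h2).le hHd hφ'
    (fun s hs hs' => by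
      have a1 : 1 ≤ |(s - ρ).im| := by
        have := abs_sub_abs_le_abs_sub s.im ρ.im
        rw [Complex.sub_im]
        linarith [le_max_right T₀ (|ρ.im| + 1)]
      have a2 : 1 ≤ ‖s - ρ‖ := a1.trans (Complex.abs_im_le_norm _)
      have a3 : s ≠ ρ := sub_ne_zero.1 (norm_pos_iff.1 (by linarith))
      rw [hH s hs a3]
      refine (norm_sub_le _ _).trans (add_le_add ?_ ?_)
      · rw [norm_div]
        exact (div_le_self (norm_nonneg _) a2).trans (hb s hs ((le_max_left _ _).trans hs'))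
      · rw [norm_mul]
        exact mul_le_mul_of_nonneg_left (by simpa using lineb_bound L a1) (norm_nonneg _))
  obtain ⟨j1, k1⟩ := lineb_expl' (σ := σ₁) (L := L) (ρ := ρ) (by linarith) (by linarith)
  obtain ⟨j2, k2⟩ := lineb_expl' (σ := σ₂) (L := L) (ρ := ρ) (by linarith) (by linarith)
  have c : ∀ σ, σ₁ ≤ σ → σ ≤ σ₂ → σ ≠ ρ.re → ∀ s : ℂ, s.re = σ →
      dslope K ρ s + G ρ * (1 / (s - ρ) - 1 / (s - ρ - L)) = G s / (s - ρ) := by
    intro σ a1 a2 a3 s hs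
    rw [hH s ⟨hs ▸ a1, hs ▸ a2⟩ (fun e => a3 (by rw [← hs, e]))]
    ring
  have c1 := c σ₁ le_rfl (h1.trans h2).le h1.ne
  have c2 := c σ₂ (h1.trans h2).le le_rfl h2.ne'
  have j1' : VInt σ₁ (fun s => G ρ * (1 / (s - ρ) - 1 / (s - ρ - L))) := j1.const_mul _
  have j2' : VInt σ₂ (fun s => G ρ * (1 / (s - ρ) - 1 / (s - ρ - L))) := j2.const_mul _
  refine ⟨VInt.congr (F := fun s => dslope K ρ s + G ρ * (1 / (s - ρ) - 1 / (s - ρ - L)))
      (Integrable.add i1 j1') c1,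
    VInt.congr (F := fun s => dslope K ρ s + G ρ * (1 / (s - ρ) - 1 / (s - ρ - L)))
      (Integrable.add i2 j2') c2, ?_⟩
  rw [← VI_congr c1, ← VI_congr c2, VI_add i1 j1', VI_add i2 j2', VI_const_mul, VI_const_mul, k1, k2,
    hEq]
  have n1 : ∀ x : ℝ, x < 0 → x⁻¹ * |x| = -1 := fun x hx => by
    rw [abs_of_neg hx, mul_neg, inv_mul_cancel₀ hx.ne]
  have n2 : ∀ x : ℝ, 0 < x → x⁻¹ * |x| = 1 := fun x hx => by
    rw [abs_of_pos hx, inv_mul_cancel₀ hx.ne']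
  rw [n1 _ (by linarith : σ₁ - ρ.re < 0), n1 _ (by linarith : σ₁ - ρ.re - L < 0),
    n2 _ (by linarith : 0 < σ₂ - ρ.re), n1 _ (by linarith : σ₂ - ρ.re - L < 0)]
  push_cast
  ring

theorem lineb_LNt {a σ₁ σ₂ : ℝ} {G : ℂ → ℂ} (ha : 0 < a) (w : ℂ) (hb : ExpOn σ₁ σ₂ G) :
    ∃ φ : ℝ → ℝ, Integrable φ ∧ ∀ s ∈ strip σ₁ σ₂, (0 : ℝ) ≤ |s.im| →
      ‖LNt a (s + w) * G s‖ ≤ φ s.im := by
  obtain ⟨C, A, hC⟩ := hb
  refine ⟨fun y => (√(2 * π) * a * Real.exp (a ^ 2 * (|σ₁| + |σ₂| + |w.re|) ^ 2 / 2) * |C|) *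
    (Real.exp (-(a ^ 2 / 2) * (y - (-w.im)) ^ 2) * Real.exp (A * |y|)),
    (integrable_gauss_exp (by positivity) A _).const_mul _, fun s hs _ => ?_⟩
  rw [norm_mul, norm_LNt ha.le]
  have h1 : (s + w).re ^ 2 ≤ (|σ₁| + |σ₂| + |w.re|) ^ 2 := by
    refine sq_le_sq' ?_ ?_ <;> rw [Complex.add_re]
    · linarith [neg_abs_le σ₁, abs_nonneg σ₂, neg_abs_le w.re, hs.1]
    · linarith [le_abs_self σ₂, abs_nonneg σ₁, le_abs_self w.re, hs.2]
  have h2 : Real.exp (a ^ 2 * (s + w).re ^ 2 / 2) ≤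
      Real.exp (a ^ 2 * (|σ₁| + |σ₂| + |w.re|) ^ 2 / 2) := by gcongr
  have h3 : ‖G s‖ ≤ |C| * Real.exp (A * |s.im|) :=
    (hC s hs).trans (mul_le_mul_of_nonneg_right (le_abs_self C) (Real.exp_pos _).le)
  simp only [Complex.add_im, sub_neg_eq_add]
  calc _ ≤ √(2 * π) * a * Real.exp (a ^ 2 * (|σ₁| + |σ₂| + |w.re|) ^ 2 / 2) *
        Real.exp (-(a ^ 2 / 2) * (s.im + w.im) ^ 2) * (|C| * Real.exp (A * |s.im|)) := by gcongr
    _ = _ := by ring

theorem lineb_LNt_diff {a σ₁ σ₂ : ℝ} {G : ℂ → ℂ} (w : ℂ)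
    (hd : DifferentiableOn ℂ G (strip σ₁ σ₂)) :
    DifferentiableOn ℂ (fun s => LNt a (s + w) * G s) (strip σ₁ σ₂) :=
  (((differentiable_LNt a).comp (differentiable_id.add_const w)).differentiableOn).mul hd

theorem VI_shift_LNt {a σ₁ σ₂ : ℝ} {G : ℂ → ℂ} (ha : 0 < a) (w : ℂ) (h12 : σ₁ ≤ σ₂)
    (hd : DifferentiableOn ℂ G (strip σ₁ σ₂)) (hb : ExpOn σ₁ σ₂ G) :
    VInt σ₁ (fun s => LNt a (s + w) * G s) ∧ VInt σ₂ (fun s => LNt a (s + w) * G s) ∧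
      VI σ₁ (fun s => LNt a (s + w) * G s) = VI σ₂ fun s => LNt a (s + w) * G s := by
  obtain ⟨φ, h1, h2⟩ := lineb_LNt ha w hb
  exact VI_shift h12 (lineb_LNt_diff w hd) h1 h2

theorem VI_shift_LNt_pole {a σ₁ σ₂ : ℝ} {G : ℂ → ℂ} {ρ : ℂ} (ha : 0 < a) (w : ℂ) (h1 : σ₁ < ρ.re)
    (h2 : ρ.re < σ₂) (hd : DifferentiableOn ℂ G (strip σ₁ σ₂)) (hb : ExpOn σ₁ σ₂ G) :
    VInt σ₁ (fun s => LNt a (s + w) * (G s / (s - ρ))) ∧
      VInt σ₂ (fun s => LNt a (s + w) * (G s / (s - ρ))) ∧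
      VI σ₂ (fun s => LNt a (s + w) * (G s / (s - ρ))) =
        VI σ₁ (fun s => LNt a (s + w) * (G s / (s - ρ))) + LNt a (ρ + w) * G ρ := by
  obtain ⟨φ, h3, h4⟩ := lineb_LNt ha w hb
  have := VI_shift_pole h1 h2 (lineb_LNt_diff w hd) h3 h4
  simpa only [mul_div_assoc] using this

theorem linec_norm_le : ‖((1 / (2 * π) : ℝ) : ℂ)‖ ≤ 1 := by
  rw [Complex.norm_real, Real.norm_eq_abs, abs_of_pos (by positivity),
    div_le_one (by positivity)]
  linarith [Real.pi_gt_three]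

theorem linec_int {c : ℝ} (hc : 0 < c) (A t₀ : ℝ) :
    Integrable fun y : ℝ => Real.exp (-c * (y - t₀) ^ 2 + A * |y - t₀|) := by
  have := (integrable_gauss_exp hc A 0).comp_sub_right t₀
  simpa only [sub_zero, ← Real.exp_add] using this

/-- full line `σ₂` against the truncated line `σ₁` -/
theorem VI_sub_VT {c : ℝ} (hc : 0 < c) (A W : ℝ) : ∃ C : ℝ, 0 < C ∧
    ∀ (σ₁ σ₂ t₀ T M : ℝ) (F : ℂ → ℂ), σ₁ ≤ σ₂ → σ₂ ≤ σ₁ + W → 0 ≤ T →
      DifferentiableOn ℂ F (rect σ₁ σ₂ t₀ T) → VInt σ₂ F →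
      (∀ s : ℂ, T ≤ |s.im - t₀| → (s ∈ rect σ₁ σ₂ t₀ T ∨ s.re = σ₂) →
        ‖F s‖ ≤ M * Real.exp (-c * (s.im - t₀) ^ 2 + A * |s.im - t₀|)) →
      ‖VI σ₂ F - VT σ₁ (t₀ - T) (t₀ + T) F‖ ≤ C * M * Real.exp (-(c / 4) * T ^ 2) := by
  obtain ⟨C₁, hC₁, h₁⟩ := gauss_tail hc A
  refine ⟨C₁ + |W| * Real.exp (A ^ 2 / (2 * c)), by positivity, ?_⟩
  intro σ₁ σ₂ t₀ T M F h12 hW hT hd hI hM
  have him : ∀ y : ℝ, ((σ₂ : ℂ) + y * I).im = y := fun y => by simp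
  have hre : ∀ y : ℝ, ((σ₂ : ℂ) + y * I).re = σ₂ := fun y => by simp
  have hM0 : 0 ≤ M := by
    have := hM (σ₂ + (t₀ + T : ℝ) * I) (by rw [him, add_sub_cancel_left, abs_of_nonneg hT])
      (Or.inr (hre _))
    exact nonneg_of_mul_nonneg_left ((norm_nonneg _).trans this) (Real.exp_pos _)
  have hS : MeasurableSet {y : ℝ | T ≤ |y - t₀|} :=
    (isClosed_le continuous_const (by fun_prop)).measurableSet
  have hSc : {y : ℝ | T ≤ |y - t₀|}ᶜ = Ioo (t₀ - T) (t₀ + T) := by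
    ext y
    simp only [mem_compl_iff, mem_ofPred_eq, not_le, abs_lt, mem_Ioo]
    constructor <;> rintro ⟨a, b⟩ <;> constructor <;> linarith
  have e1 : VI σ₂ F - VT σ₂ (t₀ - T) (t₀ + T) F =
      ((1 / (2 * π) : ℝ) : ℂ) * ∫ y in {y : ℝ | T ≤ |y - t₀|}, F (σ₂ + y * I) := by
    unfold VI VT
    rw [← integral_add_compl hS hI, hSc, intervalIntegral.integral_of_le (by linarith),
      integral_Ioc_eq_integral_Ioo]
    ring
  have b1 : ‖VI σ₂ F - VT σ₂ (t₀ - T) (t₀ + T) F‖ ≤ C₁ * M * Real.exp (-(c / 4) * T ^ 2) := by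
    rw [e1, norm_mul]
    refine (mul_le_of_le_one_left (norm_nonneg _) linec_norm_le).trans ?_
    refine (norm_integral_le_of_norm_le
      ((linec_int hc A t₀).const_mul M).integrableOn ?_).trans ?_
    · refine (ae_restrict_iff' hS).2 (Eventually.of_forall fun y hy => ?_)
      have := hM (σ₂ + y * I) (by rwa [him]) (Or.inr (hre _))
      rwa [him] at this
    · rw [integral_const_mul, mul_comm C₁, mul_assoc]
      exact mul_le_mul_of_nonneg_left (h₁ t₀ T hT) hM0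
  have b2 := VT_rect (M := M * (Real.exp (A ^ 2 / (2 * c)) * Real.exp (-(c / 4) * T ^ 2)))
    h12 hT hd fun s hs hsT => by
      refine (hM s hsT.ge (Or.inl hs)).trans (mul_le_mul_of_nonneg_left ?_ hM0)
      refine (gauss_absorb hc A _).trans (mul_le_mul_of_nonneg_left ?_ (Real.exp_pos _).le)
      rw [← sq_abs, hsT]
      exact Real.exp_le_exp.2 (by nlinarith [sq_nonneg T])
  have b3 : (σ₂ - σ₁) * (M * (Real.exp (A ^ 2 / (2 * c)) * Real.exp (-(c / 4) * T ^ 2))) ≤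
      |W| * (M * (Real.exp (A ^ 2 / (2 * c)) * Real.exp (-(c / 4) * T ^ 2))) :=
    mul_le_mul_of_nonneg_right (by linarith [le_abs_self W]) (by positivity)
  have b4 := norm_sub_le_norm_sub_add_norm_sub (VI σ₂ F) (VT σ₂ (t₀ - T) (t₀ + T) F)
    (VT σ₁ (t₀ - T) (t₀ + T) F)
  linarith

/-- the packaged truncated shift -/
theorem norm_VI_le_rect {c : ℝ} (hc : 0 < c) (A W : ℝ) : ∃ C : ℝ, 0 < C ∧
    ∀ (σ₁ σ₂ t₀ T M₁ M₂ : ℝ) (F : ℂ → ℂ), σ₁ ≤ σ₂ → σ₂ ≤ σ₁ + W → 0 ≤ T →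
      DifferentiableOn ℂ F (rect σ₁ σ₂ t₀ T) → VInt σ₂ F →
      (∀ s : ℂ, s.re = σ₁ → |s.im - t₀| ≤ T →
        ‖F s‖ ≤ M₁ * Real.exp (-c * (s.im - t₀) ^ 2 + A * |s.im - t₀|)) →
      (∀ s : ℂ, T ≤ |s.im - t₀| → (s ∈ rect σ₁ σ₂ t₀ T ∨ s.re = σ₂) →
        ‖F s‖ ≤ M₂ * Real.exp (-c * (s.im - t₀) ^ 2 + A * |s.im - t₀|)) →
      ‖VI σ₂ F‖ ≤ C * (M₁ + M₂ * Real.exp (-(c / 4) * T ^ 2)) := by
  obtain ⟨C₁, hC₁, h₁⟩ := gauss_tail hc A
  obtain ⟨C₂, hC₂, h₂⟩ := VI_sub_VT hc A W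
  refine ⟨C₁ + C₂, by positivity, ?_⟩
  intro σ₁ σ₂ t₀ T M₁ M₂ F h12 hW hT hd hI hM₁ hM₂
  have him : ∀ σ y : ℝ, ((σ : ℂ) + y * I).im = y := fun σ y => by simp
  have hre : ∀ σ y : ℝ, ((σ : ℂ) + y * I).re = σ := fun σ y => by simp
  have hM20 : 0 ≤ M₂ := by
    have := hM₂ (σ₂ + (t₀ + T : ℝ) * I) (by rw [him, add_sub_cancel_left, abs_of_nonneg hT])
      (Or.inr (hre _ _))
    exact nonneg_of_mul_nonneg_left ((norm_nonneg _).trans this) (Real.exp_pos _)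
  have hM10 : 0 ≤ M₁ := by
    have := hM₁ (σ₁ + t₀ * I) (hre _ _) (by rwa [him, sub_self, abs_zero])
    exact nonneg_of_mul_nonneg_left ((norm_nonneg _).trans this) (Real.exp_pos _)
  have b1 := h₂ σ₁ σ₂ t₀ T M₂ F h12 hW hT hd hI hM₂
  have b2 : ‖VT σ₁ (t₀ - T) (t₀ + T) F‖ ≤ C₁ * M₁ := by
    unfold VT
    rw [norm_mul, intervalIntegral.integral_of_le (by linarith)]
    refine (mul_le_of_le_one_left (norm_nonneg _) linec_norm_le).trans ?_
    refine (norm_integral_le_of_norm_le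
      ((linec_int hc A t₀).const_mul M₁).integrableOn ?_).trans ?_
    · refine (ae_restrict_iff' measurableSet_Ioc).2 (Eventually.of_forall fun y hy => ?_)
      have := hM₁ (σ₁ + y * I) (hre _ _) (by
        rw [him, abs_le]
        constructor <;> linarith [hy.1, hy.2])
      rwa [him] at this
    · rw [integral_const_mul, mul_comm C₁]
      refine mul_le_mul_of_nonneg_left ?_ hM10
      refine (setIntegral_le_integral (linec_int hc A t₀)
        (Eventually.of_forall fun y => (Real.exp_pos _).le)).trans ?_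
      simpa using h₁ t₀ 0 le_rfl
  have b3 := norm_add_le (VI σ₂ F - VT σ₁ (t₀ - T) (t₀ + T) F) (VT σ₁ (t₀ - T) (t₀ + T) F)
  rw [sub_add_cancel] at b3
  have b4 : 0 ≤ C₁ * (M₂ * Real.exp (-(c / 4) * T ^ 2)) := by positivity
  have b5 : 0 ≤ C₂ * M₁ := by positivity
  linarith

/-- holomorphic dependence of a line integral on a parameter -/
theorem diffOn_VI {σ : ℝ} {F : ℂ → ℂ → ℂ} {U : Set ℂ} (hU : IsOpen U)
    (hm : ∀ z ∈ U, AEStronglyMeasurable (fun y : ℝ => F z (σ + y * I)) volume)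
    (hd : ∀ y : ℝ, DifferentiableOn ℂ (fun z => F z (σ + y * I)) U)
    (hb : ∀ z₀ ∈ U, ∃ φ : ℝ → ℝ, Integrable φ ∧ ∀ᶠ z in 𝓝 z₀, ∀ y : ℝ, ‖F z (σ + y * I)‖ ≤ φ y) :
    DifferentiableOn ℂ (fun z => VI σ (F z)) U := by
  exact (diffOn_integral hU hm hd hb).const_mul _

theorem linec_exp_abs {ε : ℝ} (hε : 0 < ε) : Integrable fun y : ℝ => Real.exp (-ε * |y|) := by
  rw [← integrableOn_univ, ← Iic_union_Ioi (a := (0 : ℝ)), integrableOn_union]
  constructor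
  · refine (integrableOn_exp_mul_Iic hε 0).congr_fun (fun y hy => ?_) measurableSet_Iic
    simp only [abs_of_nonpos (mem_Iic.1 hy), neg_mul_neg]
  · refine (exp_neg_integrableOn_Ioi 0 hε).congr_fun (fun y hy => ?_) measurableSet_Ioi
    simp only [abs_of_pos (mem_Ioi.1 hy)]

/-- Mellin continuation: if `Z ↦ VI σ₁ (Φ(s) Z^s)` is `O(Z^θ)` at infinity, `Φ` continues to
`Re s > θ`.  (`G s = ∫ F(e^η) e^{-ηs} dη`; shift to `σ₂` for `η → -∞`; Fourier inversion on every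
line `σ₁ < σ < σ₂`, `MeasureTheory.Integrable.fourier_inversion`-type lemma.) -/
theorem mellin_cont {σ₁ σ₂ θ C Z₀ : ℝ} {Φ : ℂ → ℂ} {φ : ℝ → ℝ} (hθ : θ < σ₁) (h12 : σ₁ < σ₂)
    (hd : DifferentiableOn ℂ Φ (strip σ₁ σ₂)) (hφ : Integrable φ)
    (hb : ∀ s ∈ strip σ₁ σ₂, ‖Φ s‖ ≤ φ s.im)
    (hF : ∀ Z : ℝ, Z₀ ≤ Z → 0 < Z → ‖VI σ₁ fun s => Φ s * (Z : ℂ) ^ s‖ ≤ C * Z ^ θ) :
    ∃ G : ℂ → ℂ, DifferentiableOn ℂ G {s | θ < s.re ∧ s.re < σ₂} ∧
      ∀ s : ℂ, σ₁ < s.re → s.re < σ₂ → G s = Φ s := by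
  let f : ℝ → ℂ := fun η => VI σ₁ fun s => Φ s * cexp (η * s)
  have him : ∀ σ y : ℝ, ((σ : ℂ) + y * I).im = y := fun σ y => by simp
  have hre : ∀ σ y : ℝ, ((σ : ℂ) + y * I).re = σ := fun σ y => by simp
  have hmem : ∀ σ, σ₁ ≤ σ → σ ≤ σ₂ → ∀ y : ℝ, (σ : ℂ) + y * I ∈ strip σ₁ σ₂ :=
    fun σ h1 h2 y => ⟨by rwa [hre], by rwa [hre]⟩
  have hφ0 : ∀ y, 0 ≤ φ y := fun y => by
    have := hb _ (hmem σ₁ le_rfl h12.le y)
    rw [him] at this
    exact (norm_nonneg _).trans this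
  have hexp : ∀ (η : ℝ) (s : ℂ), ‖cexp (η * s)‖ = Real.exp (η * s.re) := fun η s => by
    rw [Complex.norm_exp, re_ofReal_mul]
  have hshift : ∀ σ, σ₁ ≤ σ → σ ≤ σ₂ → ∀ η : ℝ, f η = VI σ fun s => Φ s * cexp (η * s) := by
    intro σ h1 h2 η
    have hsub : strip σ₁ σ ⊆ strip σ₁ σ₂ := fun s hs => ⟨hs.1, hs.2.trans h2⟩
    refine (VI_shift (T₀ := 0) (φ := fun y => φ y * Real.exp (|η| * (|σ₁| + |σ₂|))) h1
      ((hd.mono hsub).fun_mul (by fun_prop)) (hφ.mul_const _) fun s hs _ => ?_).2.2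
    rw [norm_mul, hexp]
    refine mul_le_mul (hb s (hsub hs)) (Real.exp_le_exp.2 ((le_abs_self _).trans ?_))
      (Real.exp_pos _).le (hφ0 _)
    rw [abs_mul]
    refine mul_le_mul_of_nonneg_left (abs_le.2 ⟨?_, ?_⟩) (abs_nonneg _)
    · linarith [hs.1, neg_abs_le σ₁, abs_nonneg σ₂]
    · linarith [hs.2, le_abs_self σ₂, abs_nonneg σ₁]
  set K₀ : ℝ := 1 / (2 * π) * ∫ y, φ y with hK₀
  have hK₀0 : 0 ≤ K₀ := mul_nonneg (by positivity) (integral_nonneg hφ0)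
  have hbd : ∀ σ, σ₁ ≤ σ → σ ≤ σ₂ → ∀ η : ℝ, ‖f η‖ ≤ K₀ * Real.exp (η * σ) := by
    intro σ h1 h2 η
    rw [hshift σ h1 h2 η]
    refine (norm_VI_le (φ := fun y => φ y * Real.exp (η * σ)) (hφ.mul_const _) fun y => ?_).trans
      (le_of_eq ?_)
    · rw [norm_mul, hexp, hre]
      refine mul_le_mul_of_nonneg_right ?_ (Real.exp_pos _).le
      have := hb _ (hmem σ h1 h2 y)
      rwa [him] at this
    · rw [integral_mul_const, hK₀, mul_assoc]
  obtain ⟨K, hK0, hK1, hK2⟩ : ∃ K : ℝ, 0 ≤ K ∧ (∀ η, 0 ≤ η → ‖f η‖ ≤ K * Real.exp (η * θ)) ∧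
      ∀ η, ‖f η‖ ≤ K * Real.exp (η * σ₂) := by
    have hone : 1 ≤ Real.exp (|Z₀| * (σ₁ - θ)) :=
      Real.one_le_exp (mul_nonneg (abs_nonneg _) (by linarith))
    refine ⟨|C| + K₀ * Real.exp (|Z₀| * (σ₁ - θ)), by positivity, fun η hη => ?_, fun η => ?_⟩
    · rcases le_total η |Z₀| with h | h
      · refine (hbd σ₁ le_rfl h12.le η).trans ?_
        have h1 : Real.exp (η * σ₁) ≤ Real.exp (|Z₀| * (σ₁ - θ)) * Real.exp (η * θ) := by
          rw [← Real.exp_add]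
          exact Real.exp_le_exp.2 (by nlinarith)
        have h2 := mul_le_mul_of_nonneg_left h1 hK₀0
        have h3 : 0 ≤ |C| * Real.exp (η * θ) := by positivity
        linarith
      · have h1 := hF (Real.exp η)
          (by linarith [le_abs_self Z₀, Real.add_one_le_exp η]) (Real.exp_pos η)
        have e : (fun s => Φ s * ((Real.exp η : ℝ) : ℂ) ^ s) = fun s => Φ s * cexp (η * s) := by
          funext s
          rw [Complex.cpow_def_of_ne_zero (by exact_mod_cast (Real.exp_pos η).ne'),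
            ← Complex.ofReal_log (Real.exp_pos η).le, Real.log_exp]
        rw [e, ← Real.exp_mul] at h1
        refine h1.trans (mul_le_mul_of_nonneg_right ?_ (Real.exp_pos _).le)
        have : 0 ≤ K₀ * Real.exp (|Z₀| * (σ₁ - θ)) := by positivity
        linarith [le_abs_self C]
    · refine (hbd σ₂ h12.le le_rfl η).trans (mul_le_mul_of_nonneg_right ?_ (Real.exp_pos _).le)
      have := mul_le_mul_of_nonneg_left hone hK₀0
      linarith [abs_nonneg C]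
  have hdom : ∀ ε : ℝ, ∀ s : ℂ, θ + ε ≤ s.re → s.re + ε ≤ σ₂ → ∀ η : ℝ,
      ‖f η * cexp (-(η * s))‖ ≤ K * Real.exp (-ε * |η|) := by
    intro ε s h1 h2 η
    have e : ‖cexp (-(η * s))‖ = Real.exp (-(η * s.re)) := by
      rw [Complex.norm_exp, neg_re, re_ofReal_mul]
    rw [norm_mul, e]
    rcases le_total 0 η with h | h
    · refine (mul_le_mul_of_nonneg_right (hK1 η h) (Real.exp_pos _).le).trans ?_
      rw [mul_assoc, ← Real.exp_add, abs_of_nonneg h]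
      exact mul_le_mul_of_nonneg_left (Real.exp_le_exp.2 (by nlinarith)) hK0
    · refine (mul_le_mul_of_nonneg_right (hK2 η) (Real.exp_pos _).le).trans ?_
      rw [mul_assoc, ← Real.exp_add, abs_of_nonpos h]
      exact mul_le_mul_of_nonneg_left (Real.exp_le_exp.2 (by nlinarith)) hK0
  have hcont : ∀ σ, σ₁ ≤ σ → σ ≤ σ₂ → Continuous fun y : ℝ => Φ (σ + y * I) := fun σ h1 h2 =>
    hd.continuousOn.comp_continuous (by fun_prop) (hmem σ h1 h2)
  have hint : ∀ σ, σ₁ ≤ σ → σ ≤ σ₂ → Integrable fun y : ℝ => Φ (σ + y * I) := fun σ h1 h2 =>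
    hφ.mono' (hcont σ h1 h2).aestronglyMeasurable (Eventually.of_forall fun y => by
      have := hb _ (hmem σ h1 h2 y)
      rwa [him] at this)
  have hπ : (π : ℂ) ≠ 0 := by exact_mod_cast Real.pi_ne_zero
  have hfour : ∀ σ, σ₁ ≤ σ → σ ≤ σ₂ → ∀ η : ℝ, f η = ((1 / (2 * π) : ℝ) : ℂ) * cexp (η * σ) *
      FourierTransform.fourier (fun y : ℝ => Φ (σ + y * I)) (-(2 * π)⁻¹ * η) := by
    intro σ h1 h2 η
    rw [hshift σ h1 h2 η, Real.fourier_real_eq_integral_exp_smul, mul_assoc, ← integral_const_mul]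
    unfold VI
    congr 1
    refine integral_congr_ae (Eventually.of_forall fun y => ?_)
    simp only [smul_eq_mul]
    rw [← mul_assoc, ← Complex.exp_add, mul_comm]
    congr 2
    push_cast
    field_simp
  have hfc : Continuous f := by
    have h1 : Continuous (FourierTransform.fourier (fun y : ℝ => Φ (σ₁ + y * I))) :=
      VectorFourier.fourierIntegral_continuous Real.continuous_fourierChar
        (innerSL ℝ).continuous₂ (hint σ₁ le_rfl h12.le)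
    rw [show f = _ from funext (hfour σ₁ le_rfl h12.le)]
    fun_prop
  refine ⟨fun s => ∫ η : ℝ, f η * cexp (-(η * s)), ?_, fun s h1 h2 => ?_⟩
  · have hU : IsOpen {s : ℂ | θ < s.re ∧ s.re < σ₂} :=
      (isOpen_lt continuous_const continuous_re).inter (isOpen_lt continuous_re continuous_const)
    refine diffOn_integral hU (fun z _ => Continuous.aestronglyMeasurable (by fun_prop))
      (fun η => by fun_prop) fun z₀ hz₀ => ?_
    obtain ⟨ε, hε, h1, h2⟩ : ∃ ε : ℝ, 0 < ε ∧ θ + ε < z₀.re ∧ z₀.re + ε < σ₂ := by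
      have a1 := hz₀.1
      have a2 := hz₀.2
      refine ⟨min (z₀.re - θ) (σ₂ - z₀.re) / 2, half_pos (lt_min (by linarith) (by linarith)),
        ?_, ?_⟩
      · linarith [min_le_left (z₀.re - θ) (σ₂ - z₀.re)]
      · linarith [min_le_right (z₀.re - θ) (σ₂ - z₀.re)]
    refine ⟨_, (linec_exp_abs hε).const_mul K, ?_⟩
    have hV : IsOpen {s : ℂ | θ + ε < s.re ∧ s.re + ε < σ₂} :=
      (isOpen_lt continuous_const continuous_re).inter
        (isOpen_lt (continuous_re.add continuous_const) continuous_const)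
    filter_upwards [hV.mem_nhds ⟨h1, h2⟩] with z hz
    exact hdom ε z hz.1.le hz.2.le
  · set g : ℝ → ℂ := fun y : ℝ => Φ (s.re + y * I) with hg
    have hne : -(2 * π)⁻¹ ≠ 0 := neg_ne_zero.2 (by positivity)
    have hI : Integrable (FourierTransform.fourier g) := by
      rw [← integrable_comp_mul_left_iff _ hne]
      obtain ⟨ε, hε, a1, a2⟩ : ∃ ε : ℝ, 0 < ε ∧ θ + ε ≤ s.re ∧ s.re + ε ≤ σ₂ :=
        ⟨min (s.re - θ) (σ₂ - s.re), lt_min (by linarith) (by linarith),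
          by linarith [min_le_left (s.re - θ) (σ₂ - s.re)],
          by linarith [min_le_right (s.re - θ) (σ₂ - s.re)]⟩
      have a3 : Integrable fun η : ℝ => f η * cexp (-(η * (s.re : ℂ))) :=
        ((linec_exp_abs hε).const_mul K).mono' (Continuous.aestronglyMeasurable (by fun_prop))
          (Eventually.of_forall (hdom ε s.re (by simpa using a1) (by simpa using a2)))
      refine (a3.const_mul (2 * π)).congr (Eventually.of_forall fun η => ?_)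
      beta_reduce
      rw [hfour s.re h1.le h2.le η, Complex.exp_neg, ← hg]
      push_cast
      field_simp
    have hinv := (hint s.re h1.le h2.le).fourierInv_fourier_eq hI (v := s.im)
      (hcont s.re h1.le h2.le).continuousAt
    rw [re_add_im, Real.fourierInv_eq'] at hinv
    have hcv := Measure.integral_comp_mul_left (fun v : ℝ =>
      cexp (((2 * π * inner ℝ v s.im : ℝ) : ℂ) * I) • FourierTransform.fourier g v) (-(2 * π)⁻¹)
    rw [hinv, inv_neg, inv_inv, abs_neg, abs_of_pos (by positivity)] at hcv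
    have e : ∀ η : ℝ, f η * cexp (-(η * s)) = ((1 / (2 * π) : ℝ) : ℂ) *
        (cexp (((2 * π * inner ℝ (-(2 * π)⁻¹ * η) s.im : ℝ) : ℂ) * I) •
          FourierTransform.fourier g (-(2 * π)⁻¹ * η)) := by
      intro η
      have a1 : cexp (((2 * π * inner ℝ (-(2 * π)⁻¹ * η) s.im : ℝ) : ℂ) * I) =
          cexp (η * s.re) * cexp (-(η * s)) := by
        rw [← Complex.exp_add]
        congr 1
        conv_rhs => rw [← re_add_im s]
        simp only [RCLike.inner_apply, conj_trivial, add_re, ofReal_re, mul_re, I_re, mul_zero,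
          ofReal_im, I_im, mul_one, sub_self, add_zero]
        push_cast
        field_simp
        ring
      rw [hfour s.re h1.le h2.le η, a1, smul_eq_mul]
      ring
    simp only [e]
    rw [integral_const_mul, hcv, real_smul]
    push_cast
    field_simp

theorem ExpOn.mul {σ₁ σ₂ : ℝ} {F G : ℂ → ℂ} (hF : ExpOn σ₁ σ₂ F) (hG : ExpOn σ₁ σ₂ G) :
    ExpOn σ₁ σ₂ fun s => F s * G s := by
  obtain ⟨C, A, h⟩ := hF
  obtain ⟨C', A', h'⟩ := hG
  refine ⟨C * C', A + A', fun s hs => ?_⟩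
  rw [norm_mul, add_mul, Real.exp_add, mul_mul_mul_comm]
  exact mul_le_mul (h s hs) (h' s hs) (norm_nonneg _) ((norm_nonneg _).trans (h s hs))

theorem ExpOn.of_bdd {σ₁ σ₂ B : ℝ} {F : ℂ → ℂ} (h : ∀ s ∈ strip σ₁ σ₂, ‖F s‖ ≤ B) :
    ExpOn σ₁ σ₂ F := by
  exact ⟨B, 0, fun s hs => by simpa using h s hs⟩

theorem ExpOn.of_poly {σ₁ σ₂ B A : ℝ} {F : ℂ → ℂ}
    (h : ∀ s ∈ strip σ₁ σ₂, ‖F s‖ ≤ B * (1 + |s.im|) ^ A) : ExpOn σ₁ σ₂ F := by
  refine ⟨|B|, |A|, fun s hs => (h s hs).trans (mul_le_mul (le_abs_self B) ?_ (by positivity)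
    (abs_nonneg B))⟩
  exact (Real.rpow_le_rpow_of_exponent_le (by simp) (le_abs_self A)).trans
    (one_add_abs_rpow_le_exp (abs_nonneg A) _)

theorem expOn_cpow {X : ℝ} (hX : 0 < X) (σ₁ σ₂ : ℝ) (α β : ℝ) :
    ExpOn σ₁ σ₂ fun s => (X : ℂ) ^ (α * s + β) := by
  obtain ⟨B, hB⟩ := (isCompact_Icc (a := σ₁) (b := σ₂)).bddAbove_image
    (f := fun r => X ^ (α * r + β)) ((Real.continuous_const_rpow hX.ne').comp (by fun_prop)).continuousOn
  refine ExpOn.of_bdd (B := B) fun s hs => ?_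
  rw [norm_cpow_eq_rpow_re_of_pos hX]
  exact hB ⟨s.re, hs, by simp⟩

end Crest.Agent.R17
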