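import Crest.Agent.R17.B.Defs

/-! Row 17, block B: holomorphic logarithms, Borel–Carathéodory and three circles. -/

set_option autoImplicit false

namespace Crest.Agent.R17

open Complex MeasureTheory Filter Set
open scoped Real Topology ComplexConjugate

theorem loga_diff {U : Set ℂ} (hU : IsOpen U) {F f : ℂ → ℂ} (hF : DifferentiableOn ℂ F U)
    (hf : ContinuousOn f U) (he : ∀ s ∈ U, cexp (f s) = F s) : DifferentiableOn ℂ f U := by
  intro z hz
  have hzU := hU.mem_nhds hz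
  have hF0 : F z ≠ 0 := he z hz ▸ exp_ne_zero _
  have hc : ContinuousAt (fun w => (f w - f z).im) z :=
    continuous_im.continuousAt.comp ((hf.continuousAt hzU).sub continuousAt_const)
  have h1 : ∀ᶠ w in 𝓝 z, (f w - f z).im ∈ Ioo (-π) π := by
    apply hc.eventually_mem
    simp only [sub_self, zero_im]
    exact Ioo_mem_nhds (by linarith [Real.pi_pos]) Real.pi_pos
  have h2 : f =ᶠ[𝓝 z] fun w => f z + log (F w / F z) := by
    filter_upwards [h1, hzU] with w hw hwU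
    rw [← he w hwU, ← he z hz, ← exp_sub, log_exp hw.1 hw.2.le]
    ring
  have h3 : DifferentiableAt ℂ (fun w => f z + log (F w / F z)) z := by
    refine DifferentiableAt.const_add _ (DifferentiableAt.clog
      ((hF.differentiableAt hzU).div_const _) ?_)
    rw [div_self hF0]
    exact one_mem_slitPlane
  exact (h3.congr_of_eventuallyEq h2).differentiableWithinAt

/-- holomorphic logarithm on a convex open set, extending a given branch
(`Mathlib/Analysis/Complex/BranchLogRoot.lean` gives a continuous branch) -/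
theorem exists_log_ext {U V : Set ℂ} (hU : IsOpen U) (hc : Convex ℝ U) (hVU : V ⊆ U)
    (hV : IsPreconnected V) {F g : ℂ → ℂ} (hF : DifferentiableOn ℂ F U) (h0 : ∀ s ∈ U, F s ≠ 0)
    (hg : ContinuousOn g V) (he : ∀ s ∈ V, cexp (g s) = F s) :
    ∃ G : ℂ → ℂ, DifferentiableOn ℂ G U ∧ (∀ s ∈ U, cexp (G s) = F s) ∧ ∀ s ∈ V, G s = g s := by
  rcases U.eq_empty_or_nonempty with rfl | hne
  · exact ⟨g, differentiableOn_empty, fun s hs => hs.elim, fun s _ => rfl⟩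
  have hsc : IsSimplyConnected U := by
    have := hc.contractibleSpace hne
    exact SimplyConnectedSpace.ofContractible U
  obtain ⟨f, hfc, hf⟩ := exists_continuousOn_eqOn_exp_comp hsc hU hF.continuousOn
    (by rintro ⟨s, hs, h⟩; exact h0 s hs h)
  have hfd := loga_diff hU hF hfc hf
  rcases V.eq_empty_or_nonempty with rfl | ⟨a, ha⟩
  · exact ⟨f, hfd, hf, fun s hs => hs.elim⟩
  have hea : cexp (g a - f a) = 1 := by
    rw [exp_sub, he a ha, ← hf (hVU ha)]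
    exact div_self (exp_ne_zero _)
  have hG : ∀ s ∈ U, cexp (f s + (g a - f a)) = F s := fun s hs => by
    rw [exp_add, hea, mul_one]
    exact hf hs
  refine ⟨fun s => f s + (g a - f a), hfd.add_const _, hG, ?_⟩
  refine isCoveringMap_exp.eqOn_of_comp_eqOn hV ((hfc.mono hVU).add continuousOn_const) hg
    (fun s hs => Subtype.ext ?_) ha (by ring)
  exact (hG s (hVU hs)).trans (he s hs).symm

/-- Hadamard's three circles theorem (three lines for `w ↦ f (z₀ + exp w)`) -/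
theorem three_circles {f : ℂ → ℂ} {z₀ z : ℂ} {r₁ r₃ M₁ M₃ : ℝ} (h1 : 0 < r₁) (h13 : r₁ < r₃)
    (hd : DiffContOnCl ℂ f (Metric.ball z₀ r₃)) (hM₁ : ∀ w, ‖w - z₀‖ = r₁ → ‖f w‖ ≤ M₁)
    (hM₃ : ∀ w, ‖w - z₀‖ = r₃ → ‖f w‖ ≤ M₃) (hz₁ : r₁ ≤ ‖z - z₀‖) (hz₃ : ‖z - z₀‖ ≤ r₃) :
    ‖f z‖ ≤ M₁ ^ (1 - Real.log (‖z - z₀‖ / r₁) / Real.log (r₃ / r₁)) *
      M₃ ^ (Real.log (‖z - z₀‖ / r₁) / Real.log (r₃ / r₁)) := by
  have h3 : 0 < r₃ := h1.trans h13
  have hz0 : 0 < ‖z - z₀‖ := h1.trans_le hz₁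
  have hne : z - z₀ ≠ 0 := norm_pos_iff.1 hz0
  have hlu : Real.log r₁ < Real.log r₃ := Real.log_lt_log h1 h13
  have hn : ∀ w : ℂ, ‖z₀ + cexp w - z₀‖ = Real.exp w.re := fun w => by
    rw [add_sub_cancel_left, norm_exp]
  have hd' : DiffContOnCl ℂ (f ∘ fun w => z₀ + cexp w)
      (HadamardThreeLines.verticalStrip (Real.log r₁) (Real.log r₃)) := by
    refine hd.comp (Differentiable.diffContOnCl (by fun_prop)) fun w hw => ?_
    rw [mem_ball_iff_norm, hn]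
    exact (Real.lt_log_iff_exp_lt h3).1 hw.2
  have hB : BddAbove ((norm ∘ (f ∘ fun w => z₀ + cexp w)) ''
      HadamardThreeLines.verticalClosedStrip (Real.log r₁) (Real.log r₃)) := by
    refine ⟨M₃, ?_⟩
    rintro _ ⟨w, hw, rfl⟩
    refine norm_le_of_forall_mem_frontier_norm_le Metric.isBounded_ball hd (fun v hv => ?_) ?_
    · rw [frontier_ball _ h3.ne', mem_sphere_iff_norm] at hv
      exact hM₃ v hv
    · rw [closure_ball _ h3.ne', mem_closedBall_iff_norm, hn]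
      exact (Real.le_log_iff_exp_le h3).1 hw.2
  have hw : log (z - z₀) ∈ HadamardThreeLines.verticalClosedStrip (Real.log r₁) (Real.log r₃) := by
    change (log (z - z₀)).re ∈ Icc _ _
    rw [log_re]
    exact ⟨Real.log_le_log h1 hz₁, Real.log_le_log hz0 hz₃⟩
  have key := HadamardThreeLines.norm_le_interp_of_mem_verticalClosedStrip' (a := M₁) (b := M₃)
    hlu hw hd' hB
    (fun w hw => hM₁ _ (by rw [hn, show w.re = Real.log r₁ from hw, Real.exp_log h1]))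
    (fun w hw => hM₃ _ (by rw [hn, show w.re = Real.log r₃ from hw, Real.exp_log h3]))
  rw [log_re, Function.comp_apply, exp_log hne, add_sub_cancel] at key
  rw [Real.log_div hz0.ne' h1.ne', Real.log_div h3.ne' h1.ne']
  exact key

theorem loga_rpow {κ δ : ℝ} (hκ : 0 < κ) (hδ : 0 < δ) : ∃ C : ℝ, 0 < C ∧ ∀ x : ℝ, 1 ≤ x →
    x ^ (1 - κ) ≤ δ * x + C := by
  refine ⟨δ ^ (-κ⁻¹), by positivity, fun x hx => ?_⟩
  have hx0 : 0 < x := by linarith
  have hp : 0 < δ ^ (-κ⁻¹) := by positivity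
  rcases le_total x (δ ^ (-κ⁻¹)) with h | h
  · have : x ^ (1 - κ) ≤ x ^ (1 : ℝ) := Real.rpow_le_rpow_of_exponent_le hx (by linarith)
    rw [Real.rpow_one] at this
    nlinarith
  · have h1 : x ^ (-κ) ≤ (δ ^ (-κ⁻¹)) ^ (-κ) := Real.rpow_le_rpow_of_nonpos hp h (by linarith)
    rw [← Real.rpow_mul hδ.le, neg_mul_neg, inv_mul_cancel₀ hκ.ne', Real.rpow_one] at h1
    rw [sub_eq_add_neg, Real.rpow_add hx0, Real.rpow_one]
    nlinarith

/-- Borel–Carathéodory + three circles on one disc of radius `1/2 ≤ r ≤ 3` -/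
theorem log_le_disc {e ε : ℝ} (he : 0 < e) (hε : 0 < ε) (C₀ : ℝ) : ∃ C : ℝ, 0 < C ∧
    ∀ (G : ℂ → ℂ) (z₀ z : ℂ) (r B : ℝ), 1 / 2 ≤ r → r ≤ 3 → 0 ≤ B →
      DifferentiableOn ℂ G (Metric.ball z₀ r) → (∀ w ∈ Metric.ball z₀ r, (G w).re ≤ B) →
      (∀ w, ‖w - z₀‖ ≤ 1 / 4 → ‖G w‖ ≤ C₀) → ‖z - z₀‖ ≤ r - e → ‖G z‖ ≤ ε * B + C := by
  set κ : ℝ := Real.log (1 + e / 6) / Real.log 12 with hκ
  have hl12 : 0 < Real.log 12 := Real.log_pos (by norm_num)
  have hκ0 : 0 < κ := div_pos (Real.log_pos (by linarith)) hl12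
  set M₁ : ℝ := max C₀ 1 with hM₁
  have hM1 : 1 ≤ M₁ := le_max_right _ _
  set K : ℝ := 12 / e + 1 with hK
  have hK0 : 12 / e ≤ K := by linarith
  have hK1 : 1 ≤ K := by have : 0 < 12 / e := by positivity
                         linarith
  obtain ⟨C₁, hC₁, hC⟩ := loga_rpow hκ0 (δ := ε / (M₁ * K)) (by positivity)
  refine ⟨ε * (1 + M₁) + M₁ * C₁ + M₁, by positivity, ?_⟩
  intro G z₀ z r B hr1 hr3 hB hd hre hsm hz
  have hsm' : ∀ w, ‖w - z₀‖ ≤ 1 / 4 → ‖G w‖ ≤ M₁ := fun w hw => (hsm w hw).trans (le_max_left _ _)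
  rcases le_or_gt ‖z - z₀‖ (1 / 4) with h4 | h4
  · have := hsm' z h4
    have h1 : 0 ≤ ε * B := by positivity
    have h2 : 0 ≤ ε * (1 + M₁) + M₁ * C₁ := by positivity
    linarith
  set ρ := ‖z - z₀‖ with hρ
  set r₃ : ℝ := r - e / 2 with hr₃
  have h13 : 1 / 4 < r₃ := by linarith
  have hM₃ : ∀ w, ‖w - z₀‖ = r₃ → ‖G w‖ ≤ K * (B + 1 + M₁) := by
    intro w hw
    have hmap : ∀ v ∈ Metric.ball (0 : ℂ) r, z₀ + v ∈ Metric.ball z₀ r := fun v hv => by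
      rw [mem_ball_iff_norm, add_sub_cancel_left]
      exact mem_ball_zero_iff.1 hv
    have hbc := borelCaratheodory (f := fun v => G (z₀ + v)) (M := B + 1) (R := r) (z := w - z₀)
      (by linarith) (hd.comp (by fun_prop) hmap)
      (fun v hv => (hre _ (hmap v hv)).trans (by linarith)) (by linarith)
      (by rw [mem_ball_zero_iff, hw]; linarith)
    simp only [add_sub_cancel, add_zero] at hbc
    have h0 : ‖G z₀‖ ≤ M₁ := hsm' z₀ (by simp)
    rw [hw, show r - r₃ = e / 2 by rw [hr₃]; ring] at hbc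
    have e1 : 2 * (B + 1) * r₃ / (e / 2) ≤ 12 / e * (B + 1) := by
      rw [div_le_iff₀ (by positivity)]
      have : 12 / e * (B + 1) * (e / 2) = 2 * (B + 1) * 3 := by field_simp; ring
      rw [this]
      exact mul_le_mul_of_nonneg_left (by linarith) (by positivity)
    have e2 : ‖G z₀‖ * (r + r₃) / (e / 2) ≤ 12 / e * M₁ := by
      rw [div_le_iff₀ (by positivity)]
      have : 12 / e * M₁ * (e / 2) = M₁ * 6 := by field_simp; ring
      rw [this]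
      exact mul_le_mul h0 (by linarith) (by linarith) (by linarith)
    have e3 : 12 / e * (B + 1 + M₁) ≤ K * (B + 1 + M₁) :=
      mul_le_mul_of_nonneg_right hK0 (by linarith)
    linarith
  have hdc : DiffContOnCl ℂ G (Metric.ball z₀ r₃) := by
    refine DifferentiableOn.diffContOnCl (hd.mono ?_)
    rw [closure_ball _ (by linarith)]
    exact Metric.closedBall_subset_ball (by linarith)
  have key := three_circles (by norm_num) h13 hdc (fun w hw => hsm' w hw.le) hM₃ h4.le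
    (by linarith : ‖z - z₀‖ ≤ r₃)
  rw [← hρ] at key
  set θ := Real.log (ρ / (1 / 4)) / Real.log (r₃ / (1 / 4)) with hθ
  have hρ0 : 0 < ρ := by linarith
  have hl3 : 0 < Real.log (r₃ / (1 / 4)) := Real.log_pos (by rw [one_lt_div (by norm_num)]; exact h13)
  have hθ0 : 0 ≤ θ :=
    div_nonneg (Real.log_nonneg (by rw [one_le_div (by norm_num)]; exact h4.le)) hl3.le
  have hθ1 : θ ≤ 1 - κ := by
    have e1 : Real.log (1 + e / 6) + Real.log (ρ / (1 / 4)) ≤ Real.log (r₃ / (1 / 4)) := by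
      rw [← Real.log_mul (by positivity) (by positivity)]
      refine Real.log_le_log (by positivity) ?_
      have : e / 6 * ρ ≤ e / 6 * 3 := mul_le_mul_of_nonneg_left (by linarith) (by positivity)
      have h5 : (1 + e / 6) * (ρ / (1 / 4)) = 4 * (ρ + e / 6 * ρ) := by ring
      have h6 : r₃ / (1 / 4) = 4 * r₃ := by ring
      rw [h5, h6]
      linarith
    have e2 : Real.log (r₃ / (1 / 4)) ≤ Real.log 12 :=
      Real.log_le_log (by positivity) (by linarith)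
    have e3 : κ ≤ Real.log (1 + e / 6) / Real.log (r₃ / (1 / 4)) :=
      div_le_div_of_nonneg_left (Real.log_nonneg (by linarith)) hl3 e2
    have e4 : Real.log (1 + e / 6) / Real.log (r₃ / (1 / 4)) + θ ≤ 1 := by
      rw [hθ, ← add_div, div_le_one hl3]
      exact e1
    linarith
  have hx1 : 1 ≤ K * (B + 1 + M₁) := one_le_mul_of_one_le_of_one_le hK1 (by linarith)
  have e1 : M₁ ^ (1 - θ) ≤ M₁ := by
    have := Real.rpow_le_rpow_of_exponent_le hM1 (show 1 - θ ≤ 1 by linarith)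
    rwa [Real.rpow_one] at this
  have e2 : (K * (B + 1 + M₁)) ^ θ ≤ ε / (M₁ * K) * (K * (B + 1 + M₁)) + C₁ :=
    (Real.rpow_le_rpow_of_exponent_le hx1 hθ1).trans (hC _ hx1)
  have e3 : M₁ * (ε / (M₁ * K) * (K * (B + 1 + M₁)) + C₁) = ε * B + (ε * (1 + M₁) + M₁ * C₁) := by
    field_simp
    ring
  have e4 := mul_le_mul e1 e2 (by positivity) (by linarith)
  linarith

/-- The package.  Region `b < Re s`, `Im s ∈ J` (`J` an open interval or all of `ℝ`); `F` zero-free there,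
`‖F s‖ ≤ (Q (2 + |Im s|))^A` for `Re s ≤ 5`; `g` a branch of `log F` on `Re s > 3/2` bounded by `C₀`. -/
theorem log_package {e ε : ℝ} (he : 0 < e) (hε : 0 < ε) (A C₀ : ℝ) : ∃ C : ℝ, 0 < C ∧
    ∀ (F g : ℂ → ℂ) (b Q : ℝ) (J : Set ℝ), -1 ≤ b → b ≤ 3 / 2 → 1 ≤ Q → IsOpen J → J.OrdConnected →
      DifferentiableOn ℂ F {s | b < s.re ∧ s.im ∈ J} → (∀ s : ℂ, b < s.re → s.im ∈ J → F s ≠ 0) →
      (∀ s : ℂ, b < s.re → s.re ≤ 5 → s.im ∈ J → ‖F s‖ ≤ (Q * (2 + |s.im|)) ^ A) →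
      ContinuousOn g {s | 3 / 2 < s.re ∧ s.im ∈ J} →
      (∀ s : ℂ, 3 / 2 < s.re → s.im ∈ J → cexp (g s) = F s ∧ ‖g s‖ ≤ C₀) →
      ∃ G : ℂ → ℂ, DifferentiableOn ℂ G {s | b < s.re ∧ s.im ∈ J} ∧
        (∀ s : ℂ, b < s.re → s.im ∈ J → cexp (G s) = F s) ∧
        (∀ s : ℂ, 3 / 2 < s.re → s.im ∈ J → G s = g s) ∧
        ∀ s : ℂ, b + e ≤ s.re → Icc (s.im - 3) (s.im + 3) ⊆ J →
          ‖G s‖ ≤ ε * Real.log (Q * (2 + |s.im|)) + C ∧
          ‖F s‖ ≤ Real.exp C * (Q * (2 + |s.im|)) ^ ε ∧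
          ‖(F s)⁻¹‖ ≤ Real.exp C * (Q * (2 + |s.im|)) ^ ε := by
  set A' : ℝ := max A 0 with hA'
  have hA0 : 0 ≤ A' := le_max_right _ _
  obtain ⟨C₁, hC₁, hC⟩ := log_le_disc he (ε := ε / (A' + 1)) (by positivity) C₀
  refine ⟨C₁ + ε + |C₀|, by positivity, ?_⟩
  intro F g b Q J hb1 hb2 hQ hJ hJc hF h0 hup hg hge
  have hconv : ∀ x : ℝ, Convex ℝ {s : ℂ | x < s.re ∧ s.im ∈ J} := fun x =>
    (convex_halfSpace_re_gt x).inter (hJc.convex.linear_preimage imLm)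
  have hU : IsOpen {s : ℂ | b < s.re ∧ s.im ∈ J} :=
    (isOpen_lt continuous_const continuous_re).inter (hJ.preimage continuous_im)
  obtain ⟨G, hGd, hGe, hGg⟩ := exists_log_ext hU (hconv b)
    (V := {s : ℂ | 3 / 2 < s.re ∧ s.im ∈ J}) (fun s hs => ⟨hb2.trans_lt hs.1, hs.2⟩)
    (hconv _).isPreconnected hF (fun s hs => h0 s hs.1 hs.2) hg fun s hs => (hge s hs.1 hs.2).1
  refine ⟨G, hGd, fun s h1 h2 => hGe s ⟨h1, h2⟩, fun s h1 h2 => hGg s ⟨h1, h2⟩, ?_⟩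
  intro s hs hsJ
  have hP : 1 ≤ Q * (2 + |s.im|) :=
    one_le_mul_of_one_le_of_one_le hQ (by linarith [abs_nonneg s.im])
  have hL : 0 ≤ Real.log (Q * (2 + |s.im|)) := Real.log_nonneg hP
  have hsim : s.im ∈ J := hsJ ⟨by linarith, by linarith⟩
  have hmain : ‖G s‖ ≤ ε * Real.log (Q * (2 + |s.im|)) + (C₁ + ε + |C₀|) := by
    rcases lt_or_ge (3 / 2) s.re with h32 | h32
    · rw [hGg s ⟨h32, hsim⟩]
      have h1 := (hge s h32 hsim).2
      have h2 : 0 ≤ ε * Real.log (Q * (2 + |s.im|)) := by positivity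
      linarith [le_abs_self C₀]
    have hball : ∀ w : ℂ, ‖w - (2 + s.im * I)‖ < 2 - b →
        b < w.re ∧ w.re ≤ 5 ∧ |w.im - s.im| ≤ 3 := fun w hw => by
      have h1 := abs_re_le_norm (w - (2 + s.im * I))
      have h2 := abs_im_le_norm (w - (2 + s.im * I))
      simp only [sub_re, add_re, re_ofNat, mul_re, ofReal_re, I_re, mul_zero, ofReal_im, I_im,
        mul_one, sub_self, add_zero, sub_im, add_im, im_ofNat, mul_im, zero_add] at h1 h2
      rw [abs_le] at h1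
      exact ⟨by linarith, by linarith, by linarith⟩
    have hJ' : ∀ w : ℂ, |w.im - s.im| ≤ 3 → w.im ∈ J := fun w hw => by
      rw [abs_le] at hw
      exact hsJ ⟨by linarith, by linarith⟩
    have key := hC G (2 + s.im * I) s (2 - b) (A' * (Real.log (Q * (2 + |s.im|)) + 1))
      (by linarith) (by linarith) (by positivity)
      (hGd.mono fun w hw => ⟨(hball w (mem_ball_iff_norm.1 hw)).1,
        hJ' w (hball w (mem_ball_iff_norm.1 hw)).2.2⟩) ?_ ?_ ?_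
    · have e1 : ε / (A' + 1) * (A' * (Real.log (Q * (2 + |s.im|)) + 1)) ≤
          ε * (Real.log (Q * (2 + |s.im|)) + 1) := by
        rw [← mul_assoc]
        refine mul_le_mul_of_nonneg_right ?_ (by linarith)
        rw [div_mul_eq_mul_div, div_le_iff₀ (by positivity)]
        nlinarith
      linarith [abs_nonneg C₀]
    · intro w hw
      obtain ⟨h1, h2, h3⟩ := hball w (mem_ball_iff_norm.1 hw)
      have h4 := hup w h1 h2 (hJ' w h3)
      have hPw : 1 ≤ Q * (2 + |w.im|) :=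
        one_le_mul_of_one_le_of_one_le hQ (by linarith [abs_nonneg w.im])
      rw [← hGe w ⟨h1, hJ' w h3⟩, norm_exp] at h4
      have h5 : (Q * (2 + |w.im|)) ^ A ≤ (Q * (2 + |w.im|)) ^ A' :=
        Real.rpow_le_rpow_of_exponent_le hPw (le_max_left _ _)
      have h6 : Real.log (Q * (2 + |w.im|)) ≤ Real.log (Q * (2 + |s.im|)) + 1 := by
        rw [Real.log_le_iff_le_exp (by linarith), Real.exp_add, Real.exp_log (by linarith),
          mul_assoc]
        refine mul_le_mul_of_nonneg_left ?_ (by linarith)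
        have h7 := Real.exp_one_gt_d9
        have h8 : |w.im| ≤ |s.im| + 3 := by
          have := abs_sub_abs_le_abs_sub w.im s.im
          linarith
        nlinarith [abs_nonneg s.im]
      have h9 := h4.trans h5
      rw [Real.rpow_def_of_pos (by linarith), Real.exp_le_exp] at h9
      nlinarith
    · intro w hw
      have h1 := abs_re_le_norm (w - (2 + s.im * I))
      have h2 := abs_im_le_norm (w - (2 + s.im * I))
      simp only [sub_re, add_re, re_ofNat, mul_re, ofReal_re, I_re, mul_zero, ofReal_im, I_im,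
        mul_one, sub_self, add_zero, sub_im, add_im, im_ofNat, mul_im, zero_add] at h1 h2
      rw [abs_le] at h1
      have h3 : 3 / 2 < w.re := by linarith
      have h4 := hJ' w (by linarith)
      rw [hGg w ⟨h3, h4⟩]
      exact (hge w h3 h4).2
    · have : s - (2 + s.im * I) = ((s.re - 2 : ℝ) : ℂ) := by
        apply Complex.ext <;> simp
      rw [this, norm_real, Real.norm_eq_abs, abs_le]
      constructor <;> linarith
  have hexp : Real.exp ‖G s‖ ≤ Real.exp (C₁ + ε + |C₀|) * (Q * (2 + |s.im|)) ^ ε := by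
    rw [Real.rpow_def_of_pos (by linarith), ← Real.exp_add, Real.exp_le_exp]
    linarith
  have hFs := hGe s ⟨by linarith, hsim⟩
  refine ⟨hmain, ?_, ?_⟩
  · rw [← hFs]
    exact (norm_exp_le_exp_norm _).trans hexp
  · rw [← hFs, ← exp_neg]
    exact (norm_exp_le_exp_norm _).trans (by rwa [norm_neg])

theorem logb_exp_quad (B u : ℝ) : Real.exp (B * |u|) * Real.exp (-u ^ 2) ≤ Real.exp (B ^ 2) := by
  rw [← Real.exp_add]
  refine Real.exp_le_exp.2 ?_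
  have h : u ^ 2 = |u| ^ 2 := (sq_abs u).symm
  rw [h]
  nlinarith [sq_nonneg (B - |u|), sq_nonneg B, sq_nonneg |u|]

theorem logb_gauss {σ₁ σ₂ W : ℝ} (hW : σ₂ ≤ σ₁ + W) {s w : ℂ} (hs : s ∈ strip σ₁ σ₂)
    (hw : w ∈ strip σ₁ σ₂) :
    ‖cexp ((w - s) ^ 2)‖ ≤ Real.exp (W ^ 2) * Real.exp (-(w.im - s.im) ^ 2) := by
  rw [Complex.norm_exp, ← Real.exp_add]
  refine Real.exp_le_exp.2 ?_
  have h1 : ((w - s) ^ 2).re = (w.re - s.re) ^ 2 - (w.im - s.im) ^ 2 := by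
    rw [sq, Complex.mul_re, Complex.sub_re, Complex.sub_im]; ring
  have h2 : (w.re - s.re) ^ 2 ≤ W ^ 2 := by
    obtain ⟨a1, a2⟩ := hs
    obtain ⟨b1, b2⟩ := hw
    exact sq_le_sq' (by linarith) (by linarith)
  rw [h1]; linarith

theorem logb_weight {A : ℝ} (hA : 0 ≤ A) (y t : ℝ) :
    (1 + |y|) ^ A * Real.exp (-(y - t) ^ 2) ≤ Real.exp (A ^ 2) * (1 + |t|) ^ A := by
  have h1 : 1 + |y| ≤ Real.exp |y - t| * (1 + |t|) := by
    have a1 : |y| ≤ |y - t| + |t| := by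
      have := abs_add_le (y - t) t
      rwa [sub_add_cancel] at this
    have a2 : |y - t| + 1 ≤ Real.exp |y - t| := Real.add_one_le_exp _
    have a3 := abs_nonneg t
    have a4 := abs_nonneg (y - t)
    nlinarith [mul_nonneg a3 a4, mul_le_mul_of_nonneg_right a2 (by linarith : (0 : ℝ) ≤ 1 + |t|)]
  have h2 : (1 + |y|) ^ A ≤ Real.exp (A * |y - t|) * (1 + |t|) ^ A := by
    calc (1 + |y|) ^ A ≤ (Real.exp |y - t| * (1 + |t|)) ^ A :=
          Real.rpow_le_rpow (by positivity) h1 hA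
      _ = Real.exp (A * |y - t|) * (1 + |t|) ^ A := by
          rw [Real.mul_rpow (by positivity) (by positivity), ← Real.exp_mul, mul_comm _ A]
  calc (1 + |y|) ^ A * Real.exp (-(y - t) ^ 2)
      ≤ Real.exp (A * |y - t|) * (1 + |t|) ^ A * Real.exp (-(y - t) ^ 2) := by gcongr
    _ = Real.exp (A * |y - t|) * Real.exp (-(y - t) ^ 2) * (1 + |t|) ^ A := by ring
    _ ≤ Real.exp (A ^ 2) * (1 + |t|) ^ A := by
        have := logb_exp_quad A (y - t)
        gcongr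

theorem logb_edge {A W σ₁ σ₂ σ M : ℝ} (hA : 0 ≤ A) (hW : σ₂ ≤ σ₁ + W) (h1 : σ₁ ≤ σ) (h2 : σ ≤ σ₂)
    {F : ℂ → ℂ} (hM : ∀ s : ℂ, s.re = σ → ‖F s‖ ≤ M * (1 + |s.im|) ^ A) {s : ℂ}
    (hs : s ∈ strip σ₁ σ₂) : 0 ≤ M ∧ ∀ w ∈ Complex.re ⁻¹' {σ},
      ‖F w * cexp ((w - s) ^ 2)‖ ≤ M * (Real.exp (W ^ 2 + A ^ 2) * (1 + |s.im|) ^ A) := by
  have hM0 : 0 ≤ M := by
    have h := hM (σ : ℂ) (by simp)
    have h' : (0 : ℝ) < (1 + |(σ : ℂ).im|) ^ A := by positivity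
    exact nonneg_of_mul_nonneg_left ((norm_nonneg _).trans h) h'
  refine ⟨hM0, fun w hw => ?_⟩
  have hw' : w.re = σ := hw
  have hws : w ∈ strip σ₁ σ₂ := ⟨by rw [hw']; exact h1, by rw [hw']; exact h2⟩
  rw [norm_mul]
  calc ‖F w‖ * ‖cexp ((w - s) ^ 2)‖
      ≤ M * (1 + |w.im|) ^ A * (Real.exp (W ^ 2) * Real.exp (-(w.im - s.im) ^ 2)) :=
        mul_le_mul (hM w hw') (logb_gauss hW hs hws) (norm_nonneg _) (by positivity)
    _ = M * (Real.exp (W ^ 2) * ((1 + |w.im|) ^ A * Real.exp (-(w.im - s.im) ^ 2))) := by ring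
    _ ≤ M * (Real.exp (W ^ 2) * (Real.exp (A ^ 2) * (1 + |s.im|) ^ A)) := by
        have := logb_weight hA w.im s.im
        gcongr
    _ = M * (Real.exp (W ^ 2 + A ^ 2) * (1 + |s.im|) ^ A) := by rw [Real.exp_add]; ring

theorem logb_interp {A W σ₁ σ₂ M₁ M₂ : ℝ} (hA : 0 ≤ A) {F : ℂ → ℂ} (h12 : σ₁ < σ₂)
    (hW : σ₂ ≤ σ₁ + W) (hF : DifferentiableOn ℂ F (strip σ₁ σ₂)) (hE : ExpOn σ₁ σ₂ F)
    (hM₁ : ∀ s : ℂ, s.re = σ₁ → ‖F s‖ ≤ M₁ * (1 + |s.im|) ^ A)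
    (hM₂ : ∀ s : ℂ, s.re = σ₂ → ‖F s‖ ≤ M₂ * (1 + |s.im|) ^ A) {s : ℂ} (hs : s ∈ strip σ₁ σ₂) :
    ‖F s‖ ≤ Real.exp (W ^ 2 + A ^ 2) * (M₁ ^ ((σ₂ - s.re) / (σ₂ - σ₁)) *
        M₂ ^ ((s.re - σ₁) / (σ₂ - σ₁))) * (1 + |s.im|) ^ A := by
  obtain ⟨p1, e1⟩ := logb_edge hA hW le_rfl h12.le hM₁ hs
  obtain ⟨p2, e2⟩ := logb_edge hA hW h12.le le_rfl hM₂ hs
  have hcl : Complex.HadamardThreeLines.verticalClosedStrip σ₁ σ₂ = strip σ₁ σ₂ := rfl
  have hG : DifferentiableOn ℂ (fun w => F w * cexp ((w - s) ^ 2)) (strip σ₁ σ₂) :=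
    hF.mul (by fun_prop)
  have hd : DiffContOnCl ℂ (fun w => F w * cexp ((w - s) ^ 2))
      (Complex.HadamardThreeLines.verticalStrip σ₁ σ₂) := by
    refine DifferentiableOn.diffContOnCl (hG.mono ?_)
    refine closure_minimal (fun w hw => ⟨le_of_lt hw.1, le_of_lt hw.2⟩) ?_
    exact isClosed_Icc.preimage Complex.continuous_re
  have hB : BddAbove ((norm ∘ fun w => F w * cexp ((w - s) ^ 2)) ''
      Complex.HadamardThreeLines.verticalClosedStrip σ₁ σ₂) := by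
    obtain ⟨C, B, hC⟩ := hE
    refine ⟨|C| * (Real.exp (|B| * |s.im|) * Real.exp (W ^ 2) * Real.exp (|B| ^ 2)), ?_⟩
    rintro _ ⟨w, hw, rfl⟩
    have hw' : w ∈ strip σ₁ σ₂ := hw
    have a1 : ‖F w‖ ≤ |C| * (Real.exp (|B| * |s.im|) * Real.exp (|B| * |w.im - s.im|)) := by
      refine (hC w hw').trans (mul_le_mul (le_abs_self C) ?_ (by positivity) (abs_nonneg C))
      rw [← Real.exp_add]
      refine Real.exp_le_exp.2 ?_
      have b1 : |w.im| ≤ |w.im - s.im| + |s.im| := by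
        have := abs_add_le (w.im - s.im) s.im
        rwa [sub_add_cancel] at this
      have b2 := mul_le_mul (le_abs_self B) b1 (abs_nonneg _) (abs_nonneg B)
      linarith
    show ‖F w * cexp ((w - s) ^ 2)‖ ≤ _
    rw [norm_mul]
    calc ‖F w‖ * ‖cexp ((w - s) ^ 2)‖
        ≤ |C| * (Real.exp (|B| * |s.im|) * Real.exp (|B| * |w.im - s.im|)) *
            (Real.exp (W ^ 2) * Real.exp (-(w.im - s.im) ^ 2)) :=
          mul_le_mul a1 (logb_gauss hW hs hw') (norm_nonneg _) (by positivity)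
      _ = |C| * (Real.exp (|B| * |s.im|) * Real.exp (W ^ 2) *
            (Real.exp (|B| * |w.im - s.im|) * Real.exp (-(w.im - s.im) ^ 2))) := by ring
      _ ≤ _ := by
          have := logb_exp_quad |B| (w.im - s.im)
          gcongr
  have key := Complex.HadamardThreeLines.norm_le_interp_of_mem_verticalClosedStrip' h12
    (hcl ▸ hs) hd hB e1 e2
  have hne : σ₂ - σ₁ ≠ 0 := (sub_pos.2 h12).ne'
  have hx : 1 - (s.re - σ₁) / (σ₂ - σ₁) = (σ₂ - s.re) / (σ₂ - σ₁) := by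
    field_simp; ring
  have hsum : (σ₂ - s.re) / (σ₂ - σ₁) + (s.re - σ₁) / (σ₂ - σ₁) = 1 := by
    rw [← hx]; ring
  have hK : 0 < Real.exp (W ^ 2 + A ^ 2) * (1 + |s.im|) ^ A := by positivity
  simp only [sub_self, ne_eq, OfNat.ofNat_ne_zero, not_false_eq_true, zero_pow, Complex.exp_zero,
    mul_one] at key
  rw [hx, Real.mul_rpow p1 hK.le, Real.mul_rpow p2 hK.le] at key
  refine key.trans (le_of_eq ?_)
  have hpow : (Real.exp (W ^ 2 + A ^ 2) * (1 + |s.im|) ^ A) ^ ((σ₂ - s.re) / (σ₂ - σ₁)) *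
      (Real.exp (W ^ 2 + A ^ 2) * (1 + |s.im|) ^ A) ^ ((s.re - σ₁) / (σ₂ - σ₁)) =
      Real.exp (W ^ 2 + A ^ 2) * (1 + |s.im|) ^ A := by
    rw [← Real.rpow_add hK, hsum, Real.rpow_one]
  calc _ = (M₁ ^ ((σ₂ - s.re) / (σ₂ - σ₁)) * M₂ ^ ((s.re - σ₁) / (σ₂ - σ₁))) *
        ((Real.exp (W ^ 2 + A ^ 2) * (1 + |s.im|) ^ A) ^ ((σ₂ - s.re) / (σ₂ - σ₁)) *
      (Real.exp (W ^ 2 + A ^ 2) * (1 + |s.im|) ^ A) ^ ((s.re - σ₁) / (σ₂ - σ₁))) := by ring
    _ = _ := by rw [hpow]; ring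

/-- convexity bound (Phragmén–Lindelöf for `F · exp ((s - i t)²)`): polynomial bounds on the two edges
of a strip and exponential growth inside give a polynomial bound inside -/
theorem strip_poly_bound {A : ℝ} (hA : 0 ≤ A) (W : ℝ) : ∃ C : ℝ, 0 < C ∧
    ∀ (σ₁ σ₂ M : ℝ) (F : ℂ → ℂ), σ₁ ≤ σ₂ → σ₂ ≤ σ₁ + W → DifferentiableOn ℂ F (strip σ₁ σ₂) →
      ExpOn σ₁ σ₂ F → (∀ s : ℂ, s.re = σ₁ ∨ s.re = σ₂ → ‖F s‖ ≤ M * (1 + |s.im|) ^ A) →
      ∀ s ∈ strip σ₁ σ₂, ‖F s‖ ≤ C * M * (1 + |s.im|) ^ A := by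
  refine ⟨Real.exp (W ^ 2 + A ^ 2), Real.exp_pos _, fun σ₁ σ₂ M F h12 hW hF hE hM s hs => ?_⟩
  have hM0 : 0 ≤ M := (logb_edge hA hW le_rfl h12 (fun w hw => hM w (Or.inl hw)) hs).1
  rcases h12.eq_or_lt with h | h
  · have h1 : s.re = σ₁ := le_antisymm (h ▸ hs.2) hs.1
    have h2 : 1 ≤ Real.exp (W ^ 2 + A ^ 2) := Real.one_le_exp (by positivity)
    refine (hM s (Or.inl h1)).trans ?_
    have h3 : (0 : ℝ) ≤ M * (1 + |s.im|) ^ A := by positivity
    calc M * (1 + |s.im|) ^ A = 1 * (M * (1 + |s.im|) ^ A) := by ring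
      _ ≤ Real.exp (W ^ 2 + A ^ 2) * (M * (1 + |s.im|) ^ A) := by gcongr
      _ = _ := by ring
  · have key := logb_interp hA h hW hF hE (fun w hw => hM w (Or.inl hw))
      (fun w hw => hM w (Or.inr hw)) hs
    have hne : σ₂ - σ₁ ≠ 0 := (sub_pos.2 h).ne'
    have hsum : (σ₂ - s.re) / (σ₂ - σ₁) + (s.re - σ₁) / (σ₂ - σ₁) = 1 := by
      field_simp; ring
    rwa [← Real.rpow_add' hM0 (by rw [hsum]; exact one_ne_zero), hsum, Real.rpow_one] at key

/-- three lines with polynomial weights: geometric interpolation of the constants -/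
theorem strip_interp {A : ℝ} (hA : 0 ≤ A) (W : ℝ) : ∃ C : ℝ, 0 < C ∧
    ∀ (σ₁ σ₂ M₁ M₂ : ℝ) (F : ℂ → ℂ), σ₁ < σ₂ → σ₂ ≤ σ₁ + W → DifferentiableOn ℂ F (strip σ₁ σ₂) →
      ExpOn σ₁ σ₂ F → (∀ s : ℂ, s.re = σ₁ → ‖F s‖ ≤ M₁ * (1 + |s.im|) ^ A) →
      (∀ s : ℂ, s.re = σ₂ → ‖F s‖ ≤ M₂ * (1 + |s.im|) ^ A) →
      ∀ s ∈ strip σ₁ σ₂, ‖F s‖ ≤ C * (M₁ ^ ((σ₂ - s.re) / (σ₂ - σ₁)) *
        M₂ ^ ((s.re - σ₁) / (σ₂ - σ₁))) * (1 + |s.im|) ^ A := by
  exact ⟨Real.exp (W ^ 2 + A ^ 2), Real.exp_pos _,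
    fun σ₁ σ₂ M₁ M₂ F h12 hW hF hE hM₁ hM₂ s hs => logb_interp hA h12 hW hF hE hM₁ hM₂ hs⟩

end Crest.Agent.R17
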