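import Crest.Agent.R17.B.Defs

/-! Row 17, block B: sums over ordered tuples of distinct elements. -/

set_option autoImplicit false

namespace Crest.Agent.R17

open Complex MeasureTheory Filter Set
open scoped Real Topology ComplexConjugate

open Classical in
/-- ordered `j`-tuples of distinct elements of `S` -/
noncomputable def dist_tup {ι : Type*} (S : Finset ι) (j : ℕ) : Finset (Fin j → ι) :=
  (Fintype.piFinset fun _ : Fin j => S).filter Function.Injective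

theorem mem_dist_tup {ι : Type*} {S : Finset ι} {j : ℕ} {f : Fin j → ι} :
    f ∈ dist_tup S j ↔ (∀ i, f i ∈ S) ∧ Function.Injective f := by
  simp [dist_tup]

open Classical in
theorem nwt_sum_cons {ι R : Type*} [AddCommMonoid R] (S : Finset ι) (j : ℕ)
    (g : (Fin (j + 1) → ι) → R) :
    ∑ f ∈ dist_tup S (j + 1), g f =
      ∑ f ∈ dist_tup S j, ∑ p ∈ S \ Finset.univ.image f, g (Fin.cons p f) := by
  rw [Finset.sum_sigma']
  symm
  refine Finset.sum_bij' (fun x _ => (Fin.cons x.2 x.1 : Fin (j + 1) → ι))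
    (fun f _ => ⟨Fin.tail f, f 0⟩) ?_ ?_ ?_ ?_ ?_
  · rintro ⟨f, p⟩ hx
    simp only [Finset.mem_sigma, mem_dist_tup, Finset.mem_sdiff, Finset.mem_image,
      Finset.mem_univ, true_and, not_exists] at hx
    rw [mem_dist_tup]
    refine ⟨fun i => ?_, ?_⟩
    · refine Fin.cases ?_ (fun k => ?_) i
      · simpa using hx.2.1
      · simpa using hx.1.1 k
    · rw [Fin.cons_injective_iff]
      exact ⟨fun ⟨k, hk⟩ => hx.2.2 k hk, hx.1.2⟩
  · intro f hf
    rw [mem_dist_tup] at hf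
    simp only [Finset.mem_sigma, mem_dist_tup, Finset.mem_sdiff, Finset.mem_image,
      Finset.mem_univ, true_and, not_exists]
    refine ⟨⟨fun i => hf.1 _, fun a b hab => Fin.succ_injective _ (hf.2 hab)⟩, hf.1 0,
      fun k hk => ?_⟩
    exact Fin.succ_ne_zero k (hf.2 hk)
  · rintro ⟨f, p⟩ _
    simp
  · intro f _
    simp
  · intro x _
    rfl

open Classical in
theorem nwt_sum_sdiff {ι R : Type*} [AddCommGroup R] {S : Finset ι} {j : ℕ} {f : Fin j → ι}
    (hf : f ∈ dist_tup S j) (y : ι → R) :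
    ∑ p ∈ S \ Finset.univ.image f, y p = ∑ p ∈ S, y p - ∑ i, y (f i) := by
  rw [mem_dist_tup] at hf
  have hsub : Finset.univ.image f ⊆ S := by
    intro p hp
    obtain ⟨i, -, rfl⟩ := Finset.mem_image.1 hp
    exact hf.1 i
  rw [Finset.sum_sdiff_eq_sub hsub, Finset.sum_image fun a _ b _ h => hf.2 h]

/-- remove the first coordinate:
`∑ = (∑ y₀) ∑' - ∑_i ∑'` with `y_i` replaced by `y₀ y_i` -/
theorem sum_dist_tup_succ {ι : Type*} (S : Finset ι) (j : ℕ) (y : Fin (j + 1) → ι → ℂ) :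
    ∑ f ∈ dist_tup S (j + 1), ∏ i, y i (f i) =
      (∑ p ∈ S, y 0 p) * ∑ f ∈ dist_tup S j, ∏ i, y i.succ (f i) -
        ∑ i₀ : Fin j, ∑ f ∈ dist_tup S j, y 0 (f i₀) * ∏ i, y i.succ (f i) := by
  rw [nwt_sum_cons, Finset.sum_comm (s := Finset.univ), Finset.mul_sum, ← Finset.sum_sub_distrib]
  refine Finset.sum_congr rfl fun f hf => ?_
  simp only [Fin.prod_univ_succ, Fin.cons_zero, Fin.cons_succ]
  rw [← Finset.sum_mul, nwt_sum_sdiff hf, ← Finset.sum_mul, sub_mul]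

theorem nwt_cs {ι : Type*} (S : Finset ι) (u v : ι → ℂ) {A B : ℝ} (hA : 0 ≤ A) (hB : 0 ≤ B)
    (hu : ∑ p ∈ S, ‖u p‖ ^ 2 ≤ A ^ 2) (hv : ∑ p ∈ S, ‖v p‖ ^ 2 ≤ B ^ 2) :
    ‖∑ p ∈ S, u p * v p‖ ≤ A * B ∧ ∑ p ∈ S, ‖u p * v p‖ ^ 2 ≤ (A * B) ^ 2 := by
  have hprod : (∑ p ∈ S, ‖u p‖ ^ 2) * ∑ p ∈ S, ‖v p‖ ^ 2 ≤ (A * B) ^ 2 := by
    rw [mul_pow]
    exact mul_le_mul hu hv (Finset.sum_nonneg fun _ _ => by positivity) (by positivity)
  constructor
  · refine (norm_sum_le _ _).trans ?_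
    simp only [norm_mul]
    have h := Finset.sum_mul_sq_le_sq_mul_sq S (fun p => ‖u p‖) (fun p => ‖v p‖)
    exact (pow_le_pow_iff_left₀ (Finset.sum_nonneg fun _ _ => by positivity) (by positivity)
      two_ne_zero).1 (h.trans hprod)
  · refine le_trans ?_ hprod
    rw [Finset.sum_mul]
    refine Finset.sum_le_sum fun p hp => ?_
    rw [norm_mul, mul_pow]
    exact mul_le_mul_of_nonneg_left
      (Finset.single_le_sum (f := fun p => ‖v p‖ ^ 2) (fun _ _ => by positivity) hp)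
      (by positivity)

/-- Newton bound with slot-dependent weights -/
theorem newton_bound {ι : Type*} (S : Finset ι) (j : ℕ) (y : Fin j → ι → ℂ) (M : Fin j → ℝ)
    (h1 : ∀ i, ‖∑ p ∈ S, y i p‖ ≤ M i) (h2 : ∀ i, ∑ p ∈ S, ‖y i p‖ ^ 2 ≤ M i ^ 2) :
    ‖∑ f ∈ dist_tup S j, ∏ i, y i (f i)‖ ≤ j.factorial * ∏ i, M i := by
  induction j with
  | zero =>
    refine (norm_sum_le _ _).trans ?_
    have : (dist_tup S 0).card ≤ 1 := Finset.card_le_one.2 fun a _ b _ => Subsingleton.elim a b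
    simpa using this
  | succ j ih =>
    have hM : ∀ i, 0 ≤ M i := fun i => (norm_nonneg _).trans (h1 i)
    have hP : 0 ≤ ∏ i : Fin j, M i.succ := Finset.prod_nonneg fun i _ => hM _
    rw [sum_dist_tup_succ]
    refine (norm_sub_le _ _).trans ?_
    have hA : ‖(∑ p ∈ S, y 0 p) * ∑ f ∈ dist_tup S j, ∏ i, y i.succ (f i)‖ ≤
        M 0 * (j.factorial * ∏ i : Fin j, M i.succ) := by
      rw [norm_mul]
      exact mul_le_mul (h1 0) (ih (fun i => y i.succ) (fun i => M i.succ) (fun i => h1 _)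
        (fun i => h2 _)) (norm_nonneg _) (hM 0)
    have hB : ∀ i₀ : Fin j, ‖∑ f ∈ dist_tup S j, y 0 (f i₀) * ∏ i, y i.succ (f i)‖ ≤
        M 0 * (j.factorial * ∏ i : Fin j, M i.succ) := by
      intro i₀
      have hcs := nwt_cs S (y 0) (y i₀.succ) (hM 0) (hM i₀.succ) (h2 0) (h2 i₀.succ)
      have := ih (fun i p => (if i = i₀ then y 0 p else 1) * y i.succ p)
        (fun i => (if i = i₀ then M 0 else 1) * M i.succ)
        (fun i => by
          by_cases h : i = i₀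
          · subst h
            simpa using hcs.1
          · simpa [h] using h1 i.succ)
        (fun i => by
          by_cases h : i = i₀
          · subst h
            simpa using hcs.2
          · simpa [h] using h2 i.succ)
      simp only [Finset.prod_mul_distrib, Finset.prod_ite_eq', Finset.mem_univ, if_true] at this
      refine this.trans (le_of_eq ?_)
      ring
    have hC : ‖∑ i₀ : Fin j, ∑ f ∈ dist_tup S j, y 0 (f i₀) * ∏ i, y i.succ (f i)‖ ≤
        j * (M 0 * (j.factorial * ∏ i : Fin j, M i.succ)) := by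
      refine (norm_sum_le _ _).trans ((Finset.sum_le_sum fun i _ => hB i).trans ?_)
      simp
    refine (add_le_add hA hC).trans (le_of_eq ?_)
    rw [Fin.prod_univ_succ, Nat.factorial_succ]
    push_cast
    ring

theorem newton_bound' {ι : Type*} (S : Finset ι) (j : ℕ) (y : ι → ℂ) {M : ℝ}
    (h1 : ‖∑ p ∈ S, y p‖ ≤ M) (h2 : ∑ p ∈ S, ‖y p‖ ^ 2 ≤ M ^ 2) :
    ‖∑ f ∈ dist_tup S j, ∏ i, y (f i)‖ ≤ j.factorial * M ^ j := by
  simpa using newton_bound S j (fun _ => y) (fun _ => M) (fun _ => h1) (fun _ => h2)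

theorem nwt_sum_le {ι : Type*} (S : Finset ι) (j : ℕ) (g : (Fin j → ι) → ℝ) (hg : ∀ f, 0 ≤ g f) :
    ∑ f ∈ dist_tup S j, g f ≤ ∑ f ∈ Fintype.piFinset fun _ : Fin j => S, g f :=
  Finset.sum_le_sum_of_subset_of_nonneg
    (fun _ hf => Fintype.mem_piFinset.2 (mem_dist_tup.1 hf).1) fun f _ _ => hg f

theorem newton_triv {ι : Type*} (S : Finset ι) (j : ℕ) (y : Fin j → ι → ℂ) :
    ∑ f ∈ dist_tup S j, ∏ i, ‖y i (f i)‖ ≤ ∏ i, ∑ p ∈ S, ‖y i p‖ := by
  rw [Finset.prod_univ_sum]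
  exact nwt_sum_le S j _ fun f => Finset.prod_nonneg fun _ _ => norm_nonneg _

theorem newton_lower {ι : Type*} (S : Finset ι) (j : ℕ) (y : ι → ℝ) {m : ℝ} (hm : 0 ≤ m)
    (h0 : ∀ p ∈ S, 0 ≤ y p ∧ y p ≤ m) (h : j * m ≤ ∑ p ∈ S, y p) :
    (∑ p ∈ S, y p - j * m) ^ j ≤ ∑ f ∈ dist_tup S j, ∏ i, y (f i) := by
  induction j with
  | zero =>
    have : (dist_tup S 0).Nonempty :=
      ⟨Fin.elim0, mem_dist_tup.2 ⟨fun i => i.elim0, fun i => i.elim0⟩⟩
    have := Finset.card_pos.2 this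
    simpa using this
  | succ j ih =>
    push_cast at h ⊢
    have hj : j * m ≤ ∑ p ∈ S, y p := by linarith
    have ih' := ih hj
    rw [nwt_sum_cons]
    have h3 : (∑ p ∈ S, y p - j * m) * ∑ f ∈ dist_tup S j, ∏ i, y (f i) ≤
        ∑ f ∈ dist_tup S j, (∑ p ∈ S, y p - ∑ i, y (f i)) * ∏ i, y (f i) := by
      rw [Finset.mul_sum]
      refine Finset.sum_le_sum fun f hf => ?_
      have hf' := (mem_dist_tup.1 hf).1
      refine mul_le_mul_of_nonneg_right ?_ (Finset.prod_nonneg fun i _ => (h0 _ (hf' i)).1)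
      have : ∑ i, y (f i) ≤ ∑ _i : Fin j, m := Finset.sum_le_sum fun i _ => (h0 _ (hf' i)).2
      simp only [Finset.sum_const, Finset.card_univ, Fintype.card_fin, nsmul_eq_mul] at this
      linarith
    calc _ ≤ (∑ p ∈ S, y p - j * m) ^ (j + 1) :=
          pow_le_pow_left₀ (by linarith) (by linarith) _
      _ ≤ (∑ p ∈ S, y p - j * m) * ∑ f ∈ dist_tup S j, ∏ i, y (f i) := by
          rw [pow_succ']
          exact mul_le_mul_of_nonneg_left ih' (by linarith)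
      _ ≤ _ := h3.trans (le_of_eq ?_)
    refine Finset.sum_congr rfl fun f hf => ?_
    simp only [Fin.prod_univ_succ, Fin.cons_zero, Fin.cons_succ]
    rw [← Finset.sum_mul, nwt_sum_sdiff hf]

theorem nwt_prod_pert {κ : Type*} (s : Finset κ) (u v : κ → ℂ) :
    ‖∏ i ∈ s, (u i + v i) - ∏ i ∈ s, u i‖ ≤ ∏ i ∈ s, (‖u i‖ + ‖v i‖) - ∏ i ∈ s, ‖u i‖ := by
  classical
  induction s using Finset.induction_on with
  | empty => simp
  | insert a s ha ih =>
    rw [Finset.prod_insert ha, Finset.prod_insert ha, Finset.prod_insert ha,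
      Finset.prod_insert ha]
    have e : (u a + v a) * ∏ i ∈ s, (u i + v i) - u a * ∏ i ∈ s, u i =
        u a * (∏ i ∈ s, (u i + v i) - ∏ i ∈ s, u i) + v a * ∏ i ∈ s, (u i + v i) := by ring
    have h2 : ‖∏ i ∈ s, (u i + v i)‖ ≤ ∏ i ∈ s, (‖u i‖ + ‖v i‖) := by
      rw [norm_prod]
      exact Finset.prod_le_prod (fun _ _ => norm_nonneg _) fun _ _ => norm_add_le _ _
    rw [e]
    refine (norm_add_le _ _).trans ?_
    rw [norm_mul, norm_mul]
    have h3 := mul_le_mul_of_nonneg_left ih (norm_nonneg (u a))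
    have h4 := mul_le_mul_of_nonneg_left h2 (norm_nonneg (v a))
    linarith

theorem newton_pert {ι : Type*} (S : Finset ι) (j : ℕ) (y δ : ι → ℂ) :
    ‖∑ f ∈ dist_tup S j, ∏ i, (y (f i) + δ (f i)) - ∑ f ∈ dist_tup S j, ∏ i, y (f i)‖ ≤
      j * (∑ p ∈ S, ‖δ p‖) * (∑ p ∈ S, ‖y p‖ + ∑ p ∈ S, ‖δ p‖) ^ (j - 1) := by
  have hA : 0 ≤ ∑ p ∈ S, ‖y p‖ := Finset.sum_nonneg fun _ _ => norm_nonneg _
  have hB : 0 ≤ ∑ p ∈ S, ‖δ p‖ := Finset.sum_nonneg fun _ _ => norm_nonneg _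
  rw [← Finset.sum_sub_distrib]
  refine (norm_sum_le _ _).trans ((nwt_sum_le S j _ fun _ => norm_nonneg _).trans
    ((Finset.sum_le_sum fun f _ => nwt_prod_pert Finset.univ _ _).trans ?_))
  rw [Finset.sum_sub_distrib,
    ← Finset.prod_univ_sum (fun _ : Fin j => S) (fun _ p => ‖y p‖ + ‖δ p‖),
    ← Finset.prod_univ_sum (fun _ : Fin j => S) (fun _ p => ‖y p‖), Finset.sum_add_distrib]
  simp only [Finset.prod_const, Finset.card_univ, Fintype.card_fin]
  have hb := pow_add_mul_le_add_pow (a := ∑ p ∈ S, ‖y p‖ + ∑ p ∈ S, ‖δ p‖)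
    (b := -∑ p ∈ S, ‖δ p‖) (by linarith) (by linarith) j
  rw [add_neg_cancel_right] at hb
  linarith

end Crest.Agent.R17
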