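import Crest.Agent.R17.B.Sum
import Crest.Agent.R17.B.Gamma

/-! Row 17, block B: the reflection lemma.  A smooth sum of length `X` equals `X / √Q` times an average
over `η`, with the coefficient-independent kernel `rk a b R t η`, of dual smooth sums of width `b < a`,
length `(Q / X) e^η` and twist `-t`.  The kernel is `O((1 + |t|)^A e^{-σ η})` for every `σ > σ₀`,
with `A` the growth exponent of `R` on `Re s = σ` (`A = 0` on `Re s = 1/2`; for `Rth` also at `0`). -/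

set_option autoImplicit false

namespace Crest.Agent.R17

open Complex MeasureTheory Filter Set
open scoped Real Topology ComplexConjugate

variable {ι ι' : Type*} {c : ι → ℂ} {l : ι → ℝ} {c' : ι' → ℂ} {l' : ι' → ℝ} {σ σ₀ : ℝ} {R : ℂ → ℂ}

theorem rfa_expOn {X : ℝ} (hX : 0 < X) (σ₁ σ₂ : ℝ) : ExpOn σ₁ σ₂ fun s => (X : ℂ) ^ s := by
  simpa using expOn_cpow hX σ₁ σ₂ 1 0

theorem rfa_diff {X : ℝ} (hX : 0 < X) : Differentiable ℂ fun s : ℂ => (X : ℂ) ^ s :=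
  differentiable_id.const_cpow (Or.inl (by exact_mod_cast hX.ne'))

theorem rfa_cpow {x : ℝ} (hx : 0 < x) (w : ℂ) : (x : ℂ) ^ w = cexp ((Real.log x : ℂ) * w) := by
  rw [cpow_def_of_ne_zero (by exact_mod_cast hx.ne'), ← ofReal_log hx.le]

theorem rfa_XQ {X Q : ℝ} (hX : 0 < X) (hQ : 0 < Q) (s : ℂ) :
    (X : ℂ) ^ (1 - s) * (Q : ℂ) ^ (s - 1 / 2) = ((X / √Q : ℝ) : ℂ) * ((Q / X : ℝ) : ℂ) ^ s := by
  have e : X / √Q = Real.exp (Real.log X - Real.log Q / 2) := by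
    rw [← Real.log_sqrt hQ.le, Real.exp_sub, Real.exp_log hX, Real.exp_log (Real.sqrt_pos.2 hQ)]
  rw [e, rfa_cpow hX, rfa_cpow hQ, rfa_cpow (div_pos hQ hX), Real.log_div hQ.ne' hX.ne', ofReal_exp,
    ← Complex.exp_add, ← Complex.exp_add]
  congr 1
  push_cast
  ring

/-- shift to `1 - σ` and substitute `s ↦ 1 - s` -/
theorem Adm.SS_eq_reflect (h : Adm c l σ) (hσ : 1 / 2 ≤ σ) {a X : ℝ} (ha : 0 < a) (hX : 0 < X)
    (t : ℝ) {D : ℂ → ℂ} (hd : DifferentiableOn ℂ D (strip (1 - σ) σ)) (hb : ExpOn (1 - σ) σ D)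
    (hD : ∀ s : ℂ, s.re = σ → D s = DD c l s) :
    SS c l a X t = VI σ fun s => LNt a (1 - s + I * t) * (X : ℂ) ^ (1 - s) * D (1 - s) := by
  have h1 := (VI_shift_LNt (G := fun s => (X : ℂ) ^ s * D s) ha (I * t) (by linarith : 1 - σ ≤ σ)
    ((rfa_diff hX).differentiableOn.mul hd) ((rfa_expOn hX _ _).mul hb)).2.2
  have h2 := VI_const_sub σ 1 fun s => LNt a (s + I * t) * ((X : ℂ) ^ s * D s)
  rw [one_re, h1] at h2
  rw [(h.SS_eq_VI ha hX t).2, VI_congr (G := fun s => LNt a (s + I * t) * ((X : ℂ) ^ s * D s))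
    (fun s hs => by rw [hD s hs, mul_assoc]), ← h2]
  exact VI_congr fun s _ => by ring

/-- the same with a simple pole at `1` -/
theorem Adm.SS_eq_reflect_pole (h : Adm c l σ) (hσ : 1 < σ) {a X : ℝ} (ha : 0 < a) (hX : 0 < X)
    (t : ℝ) {G : ℂ → ℂ} (hd : DifferentiableOn ℂ G (strip (1 - σ) σ)) (hb : ExpOn (1 - σ) σ G)
    (hD : ∀ s : ℂ, s.re = σ → G s = (s - 1) * DD c l s) :
    SS c l a X t = G 1 * X * LNt a (1 + I * t) +
      VI σ fun s => LNt a (1 - s + I * t) * (X : ℂ) ^ (1 - s) * (G (1 - s) / (-s)) := by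
  have h1 := (VI_shift_LNt_pole (G := fun s => (X : ℂ) ^ s * G s) (ρ := 1) (σ₁ := 1 - σ) (σ₂ := σ) ha
    (I * t) (by simp only [one_re]; linarith) (by simpa using hσ)
    ((rfa_diff hX).differentiableOn.mul hd) ((rfa_expOn hX _ _).mul hb)).2.2
  have h2 := VI_const_sub σ 1 fun s => LNt a (s + I * t) * ((X : ℂ) ^ s * G s / (s - 1))
  rw [one_re] at h2
  rw [(h.SS_eq_VI ha hX t).2,
    VI_congr (G := fun s => LNt a (s + I * t) * ((X : ℂ) ^ s * G s / (s - 1))) (fun s hs => ?_),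
    h1, ← h2, add_comm, cpow_one]
  · congr 1
    · ring
    · exact VI_congr fun s _ => by rw [sub_sub_cancel_left]; ring
  · have : s - 1 ≠ 0 := fun h0 => by
      have := congrArg re h0
      simp only [sub_re, one_re, zero_re] at this
      linarith
    rw [hD s hs]
    field_simp

theorem rkb_expOn_exp (σ₁ σ₂ α : ℝ) (w : ℂ) :
    ExpOn σ₁ σ₂ fun s => cexp ((α : ℂ) * s + w) := by
  refine ExpOn.of_bdd (B := Real.exp (|α| * (|σ₁| + |σ₂|) + w.re)) fun s hs => ?_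
  rw [Complex.norm_exp]
  apply Real.exp_le_exp.2
  simp only [add_re, mul_re, ofReal_re, ofReal_im, zero_mul, sub_zero]
  have h1 : |s.re| ≤ |σ₁| + |σ₂| := by
    rw [abs_le]
    constructor
    · linarith [hs.1, neg_abs_le σ₁, abs_nonneg σ₂]
    · linarith [hs.2, le_abs_self σ₂, abs_nonneg σ₁]
  have h2 : α * s.re ≤ |α| * (|σ₁| + |σ₂|) :=
    (le_abs_self _).trans (by rw [abs_mul]; gcongr)
  linarith

theorem rkb_shift (hR : PolyOn σ₀ R) {σ₁ σ₂ : ℝ} (h1 : σ₀ < σ₁) (h12 : σ₁ ≤ σ₂) {a c : ℝ}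
    (hc : 0 < c) (t η : ℝ) :
    VInt σ₁ (fun s => LNt c (s - I * t) * cexp (-(a : ℂ) ^ 2 * (s - I * t)) * R s *
        cexp (-(η : ℂ) * s)) ∧
    (VI σ₁ fun s => LNt c (s - I * t) * cexp (-(a : ℂ) ^ 2 * (s - I * t)) * R s *
        cexp (-(η : ℂ) * s)) =
      VI σ₂ fun s => LNt c (s - I * t) * cexp (-(a : ℂ) ^ 2 * (s - I * t)) * R s *
        cexp (-(η : ℂ) * s) := by
  have hG : ExpOn σ₁ σ₂ fun s => cexp (((-a ^ 2 - η : ℝ) : ℂ) * s + (a : ℂ) ^ 2 * (I * t)) * R s := by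
    obtain ⟨C, A, -, -, h⟩ := hR.2 σ₁ σ₂ h1
    exact (rkb_expOn_exp σ₁ σ₂ _ _).mul (ExpOn.of_poly h)
  have hd : DifferentiableOn ℂ
      (fun s => cexp (((-a ^ 2 - η : ℝ) : ℂ) * s + (a : ℂ) ^ 2 * (I * t)) * R s) (strip σ₁ σ₂) := by
    refine DifferentiableOn.mul (by fun_prop) (hR.1.mono fun s hs => ?_)
    exact lt_of_lt_of_le h1 hs.1
  have key := VI_shift_LNt hc (-(I * t)) h12 hd hG
  have he : (fun s => LNt c (s - I * t) * cexp (-(a : ℂ) ^ 2 * (s - I * t)) * R s *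
        cexp (-(η : ℂ) * s)) = fun s => LNt c (s + -(I * t)) *
        (cexp (((-a ^ 2 - η : ℝ) : ℂ) * s + (a : ℂ) ^ 2 * (I * t)) * R s) := by
    funext s
    have : cexp (((-a ^ 2 - η : ℝ) : ℂ) * s + (a : ℂ) ^ 2 * (I * t)) =
        cexp (-(a : ℂ) ^ 2 * (s - I * t)) * cexp (-(η : ℂ) * s) := by
      rw [← Complex.exp_add]; congr 1; push_cast; ring
    rw [this, sub_eq_add_neg s]; ring
  rw [he]
  exact ⟨key.1, key.2.2⟩

theorem rkb_sqrt_pos {a b : ℝ} (hb : 0 < b) (hab : b < a) : 0 < √(a ^ 2 - b ^ 2) :=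
  Real.sqrt_pos.2 (by nlinarith)

/-- freedom to move the line in the kernel -/
theorem rk_eq_VI (hR : PolyOn σ₀ R) (h1 : σ₀ < 1) (hσ : σ₀ < σ) {a b : ℝ} (hb : 0 < b)
    (hab : b < a) (t η : ℝ) :
    rk a b R t η = ((a * Real.exp (a ^ 2 / 2) / (√(2 * π) * b * √(a ^ 2 - b ^ 2)) : ℝ) : ℂ) *
      VI σ fun s => LNt (√(a ^ 2 - b ^ 2)) (s - I * t) * cexp (-(a : ℂ) ^ 2 * (s - I * t)) * R s *
        cexp (-(η : ℂ) * s) := by
  unfold rk
  congr 1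
  rcases le_total σ 1 with h | h
  · exact (rkb_shift hR hσ h (rkb_sqrt_pos hb hab) t η).2.symm
  · exact (rkb_shift hR h1 h (rkb_sqrt_pos hb hab) t η).2

theorem rkb_vInt (hR : PolyOn σ₀ R) (hσ : σ₀ < σ) {a c : ℝ} (hc : 0 < c) (t : ℝ) :
    VInt σ fun s => LNt c (s - I * t) * cexp (-(a : ℂ) ^ 2 * (s - I * t)) * R s := by
  have := (rkb_shift (a := a) hR hσ le_rfl hc t 0).1
  simpa using this

theorem rkb_norm_exp (η σ y : ℝ) : ‖cexp (-(η : ℂ) * (σ + y * I))‖ = Real.exp (-η * σ) := by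
  rw [Complex.norm_exp]; simp

theorem continuous_rk (hR : PolyOn σ₀ R) (h1 : σ₀ < 1) {a b : ℝ} (hb : 0 < b) (hab : b < a)
    (t : ℝ) : Continuous (rk a b R t) := by
  have hK := rkb_vInt (a := a) hR h1 (rkb_sqrt_pos hb hab) t
  unfold rk VI
  refine continuous_const.mul (continuous_const.mul ?_)
  rw [continuous_iff_continuousAt]
  intro η₀
  refine continuousAt_of_dominated (bound := fun y : ℝ =>
    ‖LNt (√(a ^ 2 - b ^ 2)) (((1 : ℝ) + y * I) - I * t) *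
      cexp (-(a : ℂ) ^ 2 * (((1 : ℝ) + y * I) - I * t)) * R ((1 : ℝ) + y * I)‖ *
        Real.exp (-η₀ + 1)) ?_ ?_ ?_ ?_
  · exact Eventually.of_forall fun η => hK.aestronglyMeasurable.mul (by fun_prop)
  · have : ∀ᶠ η : ℝ in 𝓝 η₀, η₀ - 1 < η := lt_mem_nhds (by linarith)
    filter_upwards [this] with η hη
    refine Eventually.of_forall fun y => ?_
    rw [norm_mul _ (cexp _), rkb_norm_exp]
    gcongr
    linarith
  · exact hK.norm.mul_const _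
  · exact Eventually.of_forall fun y => by fun_prop

theorem norm_rk_le {a b A : ℝ} (hb : 0 < b) (hab : b < a) (hA : 0 ≤ A) (σ : ℝ) : ∃ C : ℝ, 0 < C ∧
    ∀ (σ₀ M : ℝ) (R : ℂ → ℂ), PolyOn σ₀ R → σ₀ < 1 → σ₀ < σ →
      (∀ s : ℂ, s.re = σ → ‖R s‖ ≤ M * (1 + |s.im|) ^ A) →
      ∀ t η : ℝ, ‖rk a b R t η‖ ≤ C * M * (1 + |t|) ^ A * Real.exp (-σ * η) := by
  have hc := rkb_sqrt_pos hb hab
  have ha : 0 < a := hb.trans hab
  obtain ⟨c, hcc⟩ : ∃ c, c = √(a ^ 2 - b ^ 2) := ⟨_, rfl⟩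
  rw [← hcc] at hc
  obtain ⟨C, hC, h⟩ := norm_VI_le_gauss (c := c ^ 2 / 2) (by positivity) hA
  have hκ : 0 < a * Real.exp (a ^ 2 / 2) / (√(2 * π) * b * c) := by positivity
  refine ⟨a * Real.exp (a ^ 2 / 2) / (√(2 * π) * b * c) * C *
    (√(2 * π) * c * Real.exp (c ^ 2 * σ ^ 2 / 2) * Real.exp (-a ^ 2 * σ)), by positivity, ?_⟩
  intro σ₀ M R hR h1 hσ hM t η
  rw [rk_eq_VI hR h1 hσ hb hab, ← hcc, norm_mul, Complex.norm_real, Real.norm_of_nonneg hκ.le]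
  have := h σ t (√(2 * π) * c * Real.exp (c ^ 2 * σ ^ 2 / 2) * Real.exp (-a ^ 2 * σ) * M *
    Real.exp (-σ * η)) (fun s => LNt c (s - I * t) * cexp (-(a : ℂ) ^ 2 * (s - I * t)) * R s *
        cexp (-(η : ℂ) * s)) fun y => by
    have e1 : ‖cexp (-(a : ℂ) ^ 2 * ((σ + y * I) - I * t))‖ = Real.exp (-a ^ 2 * σ) := by
      rw [Complex.norm_exp, ← Complex.ofReal_pow]; simp [- Complex.ofReal_pow]
    have e2 : ((σ + y * I : ℂ) - I * t).re = σ := by simp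
    have e3 : ((σ + y * I : ℂ) - I * t).im = y - t := by simp
    have e4 := hM (σ + y * I) (by simp)
    have e5 : (σ + y * I : ℂ).im = y := by simp
    rw [e5] at e4
    rw [norm_mul, norm_mul, norm_mul, rkb_norm_exp, e1, norm_LNt hc.le, e2, e3]
    calc √(2 * π) * c * Real.exp (c ^ 2 * σ ^ 2 / 2) * Real.exp (-(c ^ 2 / 2) * (y - t) ^ 2) *
          Real.exp (-a ^ 2 * σ) * ‖R (σ + y * I)‖ * Real.exp (-η * σ)
        ≤ √(2 * π) * c * Real.exp (c ^ 2 * σ ^ 2 / 2) * Real.exp (-(c ^ 2 / 2) * (y - t) ^ 2) *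
          Real.exp (-a ^ 2 * σ) * (M * (1 + |y|) ^ A) * Real.exp (-η * σ) := by gcongr
      _ = _ := by rw [show -η * σ = -σ * η by ring]; ring
  refine (mul_le_mul_of_nonneg_left this hκ.le).trans (le_of_eq ?_)
  ring

theorem norm_rk_le' (hR : PolyOn σ₀ R) (h1 : σ₀ < 1) (hσ : σ₀ < σ) {a b : ℝ} (hb : 0 < b)
    (hab : b < a) : ∃ C A : ℝ, 0 < C ∧ 0 ≤ A ∧
      ∀ t η : ℝ, ‖rk a b R t η‖ ≤ C * (1 + |t|) ^ A * Real.exp (-σ * η) := by
  obtain ⟨M, A, hM, hA, h⟩ := hR.2 σ σ hσ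
  obtain ⟨C, hC, h'⟩ := norm_rk_le hb hab hA σ
  refine ⟨C * (M + 1), A, by positivity, hA, fun t η => ?_⟩
  refine h' σ₀ (M + 1) R hR h1 hσ (fun s hs => ?_) t η
  refine (h s ⟨hs.ge, hs.le⟩).trans ?_
  gcongr
  linarith

/-- Fubini for a line integral against a Mellin transform in `η` -/
theorem rkb_fubini {K : ℂ → ℂ} (hK : VInt σ K) {H : ℝ → ℂ}
    (hH : Integrable fun η : ℝ => cexp (-(η : ℂ) * σ) * H η) :
    Integrable (fun η : ℝ => (VI σ fun s => K s * cexp (-(η : ℂ) * s)) * H η) ∧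
    ∫ η : ℝ, (VI σ fun s => K s * cexp (-(η : ℂ) * s)) * H η =
      VI σ fun s => K s * ∫ η : ℝ, cexp (-(η : ℂ) * s) * H η := by
  have hp : Integrable (fun p : ℝ × ℝ => K (σ + p.2 * I) * cexp (-(p.1 : ℂ) * (σ + p.2 * I)) * H p.1)
      (volume.prod volume) := by
    have h0 := hH.mul_prod hK
    have h1 := h0.bdd_mul (c := 1) (f := fun p : ℝ × ℝ => cexp (-(p.1 : ℂ) * (p.2 * I)))
      (by fun_prop) (Eventually.of_forall fun p => by rw [Complex.norm_exp]; simp)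
    refine h1.congr (Eventually.of_forall fun p => ?_)
    have : cexp (-(p.1 : ℂ) * (σ + p.2 * I)) =
        cexp (-(p.1 : ℂ) * (p.2 * I)) * cexp (-(p.1 : ℂ) * σ) := by
      rw [← Complex.exp_add]; congr 1; ring
    simp only [this]; ring
  have e1 : (fun η : ℝ => (VI σ fun s => K s * cexp (-(η : ℂ) * s)) * H η) = fun η : ℝ =>
      ((1 / (2 * π) : ℝ) : ℂ) *
        ∫ y : ℝ, K (σ + y * I) * cexp (-(η : ℂ) * (σ + y * I)) * H η := by
    funext η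
    unfold VI
    rw [mul_assoc, ← integral_mul_const]
  rw [e1]
  refine ⟨hp.integral_prod_left.const_mul _, ?_⟩
  rw [integral_const_mul]
  unfold VI
  congr 1
  rw [integral_integral_swap (f := fun η y : ℝ =>
    K (σ + y * I) * cexp (-(η : ℂ) * (σ + y * I)) * H η) hp]
  refine integral_congr_ae (Eventually.of_forall fun y => ?_)
  simp only
  rw [← integral_const_mul]
  simp only [mul_assoc]

theorem rkb_LNt {a b : ℝ} (hb : 0 < b) (hab : b < a) (t : ℝ) (s : ℂ) :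
    LNt a (1 - s + I * t) =
      ((a * Real.exp (a ^ 2 / 2) / (√(2 * π) * b * √(a ^ 2 - b ^ 2)) : ℝ) : ℂ) *
        (LNt (√(a ^ 2 - b ^ 2)) (s - I * t) * cexp (-(a : ℂ) ^ 2 * (s - I * t))) *
        LNt b (s + I * ((-t : ℝ) : ℂ)) := by
  have hc := rkb_sqrt_pos hb hab
  have ha : 0 < a := hb.trans hab
  have hsq : a ^ 2 = b ^ 2 + √(a ^ 2 - b ^ 2) ^ 2 := by
    rw [Real.sq_sqrt (by nlinarith)]; ring
  obtain ⟨c, hcc⟩ : ∃ c, c = √(a ^ 2 - b ^ 2) := ⟨_, rfl⟩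
  rw [← hcc] at hc hsq ⊢
  have h1 := LNt_mul ha.ne' hsq (s - I * t)
  have e0 : s + I * ((-t : ℝ) : ℂ) = s - I * t := by push_cast; ring
  have e1 : 1 - s + I * t = -((s - I * t) + (-1)) := by ring
  have e2 : cexp ((a : ℂ) ^ 2 * (s - I * t) * (-1) + (a : ℂ) ^ 2 * (-1) ^ 2 / 2) =
      cexp (-(a : ℂ) ^ 2 * (s - I * t)) * (Real.exp (a ^ 2 / 2) : ℝ) := by
    rw [Complex.ofReal_exp, ← Complex.exp_add]; congr 1; push_cast; ring
  have e3 : ((a * Real.exp (a ^ 2 / 2) / (√(2 * π) * b * c) : ℝ) : ℂ) *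
      ((√(2 * π) * b * c / a : ℝ) : ℂ) = (Real.exp (a ^ 2 / 2) : ℝ) := by
    rw [← Complex.ofReal_mul]
    congr 1
    have : 0 < √(2 * π) := by positivity
    field_simp
  rw [e0, e1, LNt_neg, LNt_add, e2, ← e3]
  linear_combination (-(((a * Real.exp (a ^ 2 / 2) / (√(2 * π) * b * c) : ℝ) : ℂ) *
    cexp (-(a : ℂ) ^ 2 * (s - I * t)))) * h1

theorem rkb_main (hR : PolyOn σ₀ R) (h1 : σ₀ < 1) (hσ : σ₀ < σ) {a b : ℝ} (hb : 0 < b)
    (hab : b < a) (t : ℝ) {H : ℝ → ℂ} {D : ℂ → ℂ}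
    (hH : Integrable fun η : ℝ => cexp (-(η : ℂ) * σ) * H η)
    (hD : ∀ s : ℂ, s.re = σ →
      ∫ η : ℝ, cexp (-(η : ℂ) * s) * H η = LNt b (s + I * ((-t : ℝ) : ℂ)) * D s) :
    Integrable (fun η : ℝ => rk a b R t η * H η) ∧
    (VI σ fun s => LNt a (1 - s + I * t) * R s * D s) = ∫ η : ℝ, rk a b R t η * H η := by
  have hK := rkb_vInt (a := a) hR hσ (rkb_sqrt_pos hb hab) t
  obtain ⟨hi, he⟩ := rkb_fubini hK hH
  simp only [rk_eq_VI hR h1 hσ hb hab, mul_assoc ((_ : ℝ) : ℂ)]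
  refine ⟨hi.const_mul _, ?_⟩
  rw [integral_const_mul, he, ← VI_const_mul]
  refine VI_congr fun s hs => ?_
  rw [hD s hs, rkb_LNt hb hab]
  ring

/-- the kernel identity for one term -/
theorem VI_eq_rk (hR : PolyOn σ₀ R) (h1 : σ₀ < 1) (hσ : σ₀ < σ) {a b y : ℝ} (hb : 0 < b)
    (hab : b < a) (hy : 0 < y) (t : ℝ) :
    (VI σ fun s => LNt a (1 - s + I * t) * R s * (y : ℂ) ^ (-s)) =
      ∫ η : ℝ, rk a b R t η * LN b (Real.exp η) (-t) y :=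
  (rkb_main hR h1 hσ hb hab t (D := fun s => (y : ℂ) ^ (-s))
    (integral_LN_centre hb hy (-t) σ).1 fun s _ => (integral_LN_centre hb hy (-t) s).2).2

theorem rkb_SS {b L : ℝ} (hb : 0 < b) (hL : 0 < L) (t : ℝ) {s : ℂ} (h' : Adm c' l' s.re) :
    Integrable (fun η : ℝ => cexp (-(η : ℂ) * s) * SS c' l' b (L * Real.exp η) t) ∧
    ∫ η : ℝ, cexp (-(η : ℂ) * s) * SS c' l' b (L * Real.exp η) t =
      LNt b (s + I * t) * ((L : ℂ) ^ s * DD c' l' s) := by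
  obtain ⟨hi, he⟩ := h'.integral_SS hb t
  have e : (fun η : ℝ => cexp (-(η : ℂ) * s) * SS c' l' b (L * Real.exp η) t) = fun η : ℝ =>
      (L : ℂ) ^ s * (cexp (-((η + Real.log L : ℝ) : ℂ) * s) *
        SS c' l' b (Real.exp (η + Real.log L)) t) := by
    funext η
    rw [Real.exp_add, Real.exp_log hL, mul_comm (Real.exp η), ← mul_assoc,
      Complex.cpow_def_of_ne_zero (by exact_mod_cast hL.ne'), ← Complex.exp_add,
      ← Complex.ofReal_log hL.le]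
    congr 2
    push_cast; ring
  rw [e]
  refine ⟨(hi.comp_add_right (Real.log L)).const_mul _, ?_⟩
  rw [integral_const_mul, integral_add_right_eq_self
    (fun η : ℝ => cexp (-(η : ℂ) * s) * SS c' l' b (Real.exp η) t) (Real.log L), he]
  ring

/-- the dual side as a superposition of smooth sums -/
theorem Adm.VI_eq_rk (h' : Adm c' l' σ) (hR : PolyOn σ₀ R) (h1 : σ₀ < 1) (hσ : σ₀ < σ)
    {a b L : ℝ} (hb : 0 < b) (hab : b < a) (hL : 0 < L) (t : ℝ) :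
    Integrable (fun η : ℝ => rk a b R t η * SS c' l' b (L * Real.exp η) (-t)) ∧
    (VI σ fun s => LNt a (1 - s + I * t) * R s * (L : ℂ) ^ s * DD c' l' s) =
      ∫ η : ℝ, rk a b R t η * SS c' l' b (L * Real.exp η) (-t) := by
  have key := rkb_main hR h1 hσ hb hab t (D := fun s => (L : ℂ) ^ s * DD c' l' s)
    (H := fun η => SS c' l' b (L * Real.exp η) (-t))
    (rkb_SS hb hL (-t) (s := σ) (by simpa using h')).1
    fun s hs => (rkb_SS hb hL (-t) (s := s) (by rw [hs]; exact h')).2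
  refine ⟨key.1, ?_⟩
  rw [← key.2]
  simp only [mul_assoc]

/-- REFLECTION LEMMA (entire case) -/
theorem reflect (h : Adm c l σ) (h' : Adm c' l' σ) (hR : PolyOn σ₀ R) (h1 : σ₀ < 1)
    (hσ : 1 ≤ σ) {a b X Q : ℝ} (hb : 0 < b) (hab : b < a) (hX : 0 < X) (hQ : 0 < Q) (t : ℝ)
    {D : ℂ → ℂ} {E : ℂ} (hd : DifferentiableOn ℂ D (strip (1 - σ) σ)) (hbd : ExpOn (1 - σ) σ D)
    (hD : ∀ s : ℂ, s.re = σ → D s = DD c l s)
    (hFE : ∀ s : ℂ, s.re = σ → D (1 - s) = E * (Q : ℂ) ^ (s - 1 / 2) * R s * DD c' l' s) :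
    Integrable (fun η : ℝ => rk a b R t η * SS c' l' b (Q / X * Real.exp η) (-t)) ∧
    SS c l a X t = E * ((X / √Q : ℝ) : ℂ) *
      ∫ η : ℝ, rk a b R t η * SS c' l' b (Q / X * Real.exp η) (-t) := by
  obtain ⟨h2, h3⟩ := h'.VI_eq_rk hR h1 (by linarith) hb hab (div_pos hQ hX) t
  refine ⟨h2, ?_⟩
  rw [h.SS_eq_reflect (by linarith) (hb.trans hab) hX t hd hbd hD, ← h3, ← VI_const_mul]
  refine VI_congr fun s hs => ?_
  rw [hFE s hs]
  linear_combination (LNt a (1 - s + I * t) * E * R s * DD c' l' s) * rfa_XQ hX hQ s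

/-- REFLECTION LEMMA (simple pole at `1`, `G = (s - 1) D`) -/
theorem reflect_pole (h : Adm c l σ) (h' : Adm c' l' σ) (hR : PolyOn σ₀ R) (h1 : σ₀ < 1)
    (hσ : 1 < σ) {a b X Q : ℝ} (hb : 0 < b) (hab : b < a) (hX : 0 < X) (hQ : 0 < Q) (t : ℝ)
    {G : ℂ → ℂ} {E : ℂ} (hd : DifferentiableOn ℂ G (strip (1 - σ) σ)) (hbd : ExpOn (1 - σ) σ G)
    (hD : ∀ s : ℂ, s.re = σ → G s = (s - 1) * DD c l s)
    (hFE : ∀ s : ℂ, s.re = σ →
      G (1 - s) = -s * (E * (Q : ℂ) ^ (s - 1 / 2) * R s * DD c' l' s)) :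
    Integrable (fun η : ℝ => rk a b R t η * SS c' l' b (Q / X * Real.exp η) (-t)) ∧
    SS c l a X t = G 1 * X * LNt a (1 + I * t) + E * ((X / √Q : ℝ) : ℂ) *
      ∫ η : ℝ, rk a b R t η * SS c' l' b (Q / X * Real.exp η) (-t) := by
  obtain ⟨h2, h3⟩ := h'.VI_eq_rk hR h1 (by linarith) hb hab (div_pos hQ hX) t
  refine ⟨h2, ?_⟩
  rw [h.SS_eq_reflect_pole hσ (hb.trans hab) hX t hd hbd hD, ← h3, ← VI_const_mul]
  congr 1
  refine VI_congr fun s hs => ?_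
  have h0 : -s ≠ 0 := fun h0 => by
    have := congrArg re h0
    simp only [neg_re, zero_re] at this
    linarith
  rw [hFE s hs, mul_div_cancel_left₀ _ h0]
  linear_combination (LNt a (1 - s + I * t) * E * R s * DD c' l' s) * rfa_XQ hX hQ s

/-- REFLECTION in the shape of `StD` (`Q = nm c`) -/
theorem reflect_gth (h : Adm c l 3) (h' : Adm c' l' 3) {a b X Q : ℝ} (hb : 0 < b) (hab : b < a)
    (hX : 0 < X) (hQ : 0 < Q) (t : ℝ) {Λ Λ' : ℂ → ℂ} {E : ℂ} (hΛ : EntBdd Λ)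
    (hD : ∀ s : ℂ, 2 < s.re → Λ s = gth s * DD c l s)
    (hD' : ∀ s : ℂ, 2 < s.re → Λ' s = gth s * DD c' l' s)
    (hFE : ∀ s : ℂ, Λ s = E * (Q : ℂ) ^ (1 - 2 * s) * Λ' (1 - s)) :
    Integrable (fun η : ℝ => rk a b Rth t η * SS c' l' b (Q ^ 2 / X * Real.exp η) (-t)) ∧
    SS c l a X t = E * ((X / Q : ℝ) : ℂ) *
      ∫ η : ℝ, rk a b Rth t η * SS c' l' b (Q ^ 2 / X * Real.exp η) (-t) := by
  obtain ⟨B, hB⟩ := hΛ.2 (1 - 3) 3
  have := reflect (D := fun s => Λ s * (gth s)⁻¹) (E := E) (Q := Q ^ 2) h h' polyOn_Rth (by norm_num)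
    (by norm_num) hb hab hX (by positivity) t (hΛ.1.mul differentiable_inv_gth).differentiableOn
    ((ExpOn.of_bdd fun s hs => hB s hs.1 hs.2).mul (expOn_inv_gth _ _)) (fun s hs => ?_)
    (fun s hs => ?_)
  · rwa [Real.sqrt_sq hQ.le] at this
  · have h0 : gth s ≠ 0 := gth_ne_zero (by rw [hs]; norm_num)
    rw [hD s (by rw [hs]; norm_num)]
    field_simp
  · have e : ((Q ^ 2 : ℝ) : ℂ) ^ (s - 1 / 2) = (Q : ℂ) ^ (1 - 2 * (1 - s)) := by
      rw [rfa_cpow (by positivity), rfa_cpow hQ, Real.log_pow]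
      congr 1
      push_cast
      ring
    rw [hFE (1 - s), sub_sub_cancel, hD' s (by rw [hs]; norm_num), e, Rth]
    ring

/-- the theta kernel: `min (1, e^{-η/2})`, and rapid decay beyond `(1 + |t|)^A` -/
theorem norm_rk_Rth {a b : ℝ} (hb : 0 < b) (hab : b < a) : ∃ C : ℝ, 0 < C ∧
    ∀ t η : ℝ, ‖rk a b Rth t η‖ ≤ C * min 1 (Real.exp (-η / 2)) := by
  obtain ⟨C₀, hC₀, h₀⟩ := norm_rk_le hb hab (le_refl (0 : ℝ)) 0
  obtain ⟨C₁, hC₁, h₁⟩ := norm_rk_le hb hab (le_refl (0 : ℝ)) (1 / 2)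
  refine ⟨C₀ * 7 + C₁, by positivity, fun t η => ?_⟩
  have e₀ := h₀ _ 7 Rth polyOn_Rth (by norm_num) (by norm_num)
    (fun s hs => by simpa using norm_Rth_zero hs) t η
  have e₁ := h₁ _ 1 Rth polyOn_Rth (by norm_num) (by norm_num)
    (fun s hs => by simpa using (norm_Rth_half hs).le) t η
  rw [Real.rpow_zero] at e₀ e₁
  have e : -(1 / 2 : ℝ) * η = -η / 2 := by ring
  rw [e] at e₁
  have hp := Real.exp_pos (-η / 2)
  rcases le_total 1 (Real.exp (-η / 2)) with hm | hm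
  · rw [min_eq_left hm]
    simp only [neg_zero, zero_mul, Real.exp_zero] at e₀
    linarith
  · rw [min_eq_right hm]
    nlinarith [mul_pos hC₀ hp]

theorem norm_rk_RK {a b : ℝ} (hb : 0 < b) (hab : b < a) : ∃ C : ℝ, 0 < C ∧
    ∀ t η : ℝ, ‖rk a b RK t η‖ ≤ C * Real.exp (-η / 2) := by
  obtain ⟨C₁, hC₁, h₁⟩ := norm_rk_le hb hab (le_refl (0 : ℝ)) (1 / 2)
  refine ⟨C₁, hC₁, fun t η => ?_⟩
  have e₁ := h₁ _ 1 RK polyOn_RK (by norm_num) (by norm_num)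
    (fun s hs => by simpa using (norm_RK_half hs).le) t η
  rw [Real.rpow_zero] at e₁
  have e : -(1 / 2 : ℝ) * η = -η / 2 := by ring
  rw [e] at e₁
  linarith

theorem rfa_ratio_le {α : ℝ} (h0 : 0 ≤ α) (h1 : α ≤ 1) (m : ℕ) {s : ℂ} (hs : s.re = (m + 1) / 2) :
    ‖Gamma (s + α) * (Gamma (1 - s + α))⁻¹‖ ≤ ((m : ℝ) + 2) ^ m * (1 + |s.im|) ^ m := by
  have hm : (0 : ℝ) ≤ m := Nat.cast_nonneg m
  rw [norm_Gamma_ratio_nat m hs (by rw [hs]; linarith), ← mul_pow]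
  refine (Finset.prod_le_prod (g := fun _ => ((m : ℝ) + 2) * (1 + |s.im|)) (fun _ _ => norm_nonneg _)
    fun j hj => ?_).trans (by rw [Finset.prod_const, Finset.card_range])
  have hj' : (j : ℝ) + 1 ≤ m := by exact_mod_cast Finset.mem_range.1 hj
  have hj0 : (0 : ℝ) ≤ j := Nat.cast_nonneg j
  refine (norm_le_abs_re_add_abs_im _).trans ?_
  have e1 : (s + α - (j + 1)).re = (m + 1) / 2 + α - (j + 1) := by simp [hs]
  have e2 : (s + α - (j + 1)).im = s.im := by simp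
  have e3 : |((m : ℝ) + 1) / 2 + α - (j + 1)| ≤ m + 2 := by rw [abs_le]; constructor <;> linarith
  rw [e1, e2]
  nlinarith [abs_nonneg s.im]

/-- `Rth` has degree `2 m` on `Re s = (m + 1) / 2`: decay in `e^η / (1 + |t|)^4` -/
theorem norm_rk_Rth_decay {a b : ℝ} (hb : 0 < b) (hab : b < a) (m : ℕ) : ∃ C : ℝ, 0 < C ∧
    ∀ t η : ℝ, ‖rk a b Rth t η‖ ≤ C * (1 + |t|) ^ (2 * m) * Real.exp (-((m + 1) / 2 : ℝ) * η) := by
  obtain ⟨C₁, hC₁, h₁⟩ := norm_rk_le (A := ((2 * m : ℕ) : ℝ)) hb hab (Nat.cast_nonneg _) ((m + 1) / 2)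
  have hm : (0 : ℝ) ≤ m := Nat.cast_nonneg m
  have hc : (0 : ℝ) < 27 / (4 * π ^ 2) := by positivity
  refine ⟨C₁ * ((27 / (4 * π ^ 2) : ℝ) ^ ((m + 1) / 2 : ℝ) *
    ((27 / (4 * π ^ 2) : ℝ) ^ (1 - (m + 1) / 2 : ℝ))⁻¹ * (((m : ℝ) + 2) ^ m * ((m : ℝ) + 2) ^ m)),
    by positivity, fun t η => ?_⟩
  have e₁ := h₁ _ ((27 / (4 * π ^ 2) : ℝ) ^ ((m + 1) / 2 : ℝ) *
    ((27 / (4 * π ^ 2) : ℝ) ^ (1 - (m + 1) / 2 : ℝ))⁻¹ * (((m : ℝ) + 2) ^ m * ((m : ℝ) + 2) ^ m))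
    Rth polyOn_Rth (by norm_num) (by linarith) (fun s hs => ?_) t η
  · rwa [Real.rpow_natCast] at e₁
  · have r1 := rfa_ratio_le (α := 1 / 3) (by norm_num) (by norm_num) m hs
    have r2 := rfa_ratio_le (α := 2 / 3) (by norm_num) (by norm_num) m hs
    have e : Rth s = ((27 / (4 * π ^ 2) : ℝ) : ℂ) ^ s * (((27 / (4 * π ^ 2) : ℝ) : ℂ) ^ (1 - s))⁻¹ *
        ((Gamma (s + (1 / 3 : ℝ)) * (Gamma (1 - s + (1 / 3 : ℝ)))⁻¹) *
          (Gamma (s + (2 / 3 : ℝ)) * (Gamma (1 - s + (2 / 3 : ℝ)))⁻¹)) := by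
      simp only [Rth, gth, mul_inv]
      push_cast
      ring
    rw [e, norm_mul, norm_mul, norm_mul, norm_inv, norm_cpow_eq_rpow_re_of_pos hc,
      norm_cpow_eq_rpow_re_of_pos hc, sub_re, one_re, hs, Real.rpow_natCast, mul_assoc _ (_ * _)]
    refine mul_le_mul_of_nonneg_left ?_ (by positivity)
    refine (mul_le_mul r1 r2 (norm_nonneg _) (by positivity)).trans (le_of_eq ?_)
    ring

/-- `RK` has degree `m` on `Re s = (m + 1) / 2`: decay in `e^η / (1 + |t|)^2` -/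
theorem norm_rk_RK_decay {a b : ℝ} (hb : 0 < b) (hab : b < a) (m : ℕ) : ∃ C : ℝ, 0 < C ∧
    ∀ t η : ℝ, ‖rk a b RK t η‖ ≤ C * (1 + |t|) ^ m * Real.exp (-((m + 1) / 2 : ℝ) * η) := by
  obtain ⟨C₁, hC₁, h₁⟩ := norm_rk_le (A := (m : ℝ)) hb hab (Nat.cast_nonneg _) ((m + 1) / 2)
  have hm : (0 : ℝ) ≤ m := Nat.cast_nonneg m
  have hc : (0 : ℝ) < 2 * π / √3 := by positivity
  refine ⟨C₁ * ((2 * π / √3 : ℝ) ^ (-((m + 1) / 2) : ℝ) *
    ((2 * π / √3 : ℝ) ^ (-(1 - (m + 1) / 2) : ℝ))⁻¹ * ((m : ℝ) + 2) ^ m),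
    by positivity, fun t η => ?_⟩
  have e₁ := h₁ _ ((2 * π / √3 : ℝ) ^ (-((m + 1) / 2) : ℝ) *
    ((2 * π / √3 : ℝ) ^ (-(1 - (m + 1) / 2) : ℝ))⁻¹ * ((m : ℝ) + 2) ^ m)
    RK polyOn_RK (by norm_num) (by linarith) (fun s hs => ?_) t η
  · rwa [Real.rpow_natCast] at e₁
  · have r1 := rfa_ratio_le (α := 0) le_rfl (by norm_num) m hs
    have e : RK s = ((2 * π / √3 : ℝ) : ℂ) ^ (-s) * (((2 * π / √3 : ℝ) : ℂ) ^ (-(1 - s)))⁻¹ *
        (Gamma (s + (0 : ℝ)) * (Gamma (1 - s + (0 : ℝ)))⁻¹) := by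
      simp only [RK, gK, mul_inv, ofReal_zero, add_zero]
      ring
    rw [e, norm_mul, norm_mul, norm_inv, norm_cpow_eq_rpow_re_of_pos hc,
      norm_cpow_eq_rpow_re_of_pos hc, neg_re, neg_re, sub_re, one_re, hs, Real.rpow_natCast,
      mul_assoc _ (_ ^ m)]
    exact mul_le_mul_of_nonneg_left r1 (by positivity)

end Crest.Agent.R17
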