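import Crest.Agent.R17.B.Line

/-! Row 17, block B: general smooth sums `SS` and Dirichlet series `DD`. -/

set_option autoImplicit false

namespace Crest.Agent.R17

open Complex MeasureTheory Filter Set
open scoped Real Topology ComplexConjugate

variable {ι : Type*} {c c' : ι → ℂ} {l : ι → ℝ} {σ : ℝ}

theorem sumA_term_nonneg (hl : ∀ n, c n ≠ 0 → 0 < l n) (σ : ℝ) (n : ι) :
    0 ≤ ‖c n‖ * l n ^ (-σ) := by
  by_cases hn : c n = 0
  · simp [hn]
  · exact mul_nonneg (norm_nonneg _) (Real.rpow_nonneg (hl n hn).le _)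

theorem sumA_norm_term (hl : ∀ n, c n ≠ 0 → 0 < l n) (s : ℂ) (n : ι) :
    ‖c n * (l n : ℂ) ^ (-s)‖ = ‖c n‖ * l n ^ (-s.re) := by
  by_cases hn : c n = 0
  · simp [hn]
  · rw [norm_mul, Complex.norm_cpow_eq_rpow_re_of_pos (hl n hn), neg_re]

theorem sumA_ne (hc : ∀ n, ‖c' n‖ ≤ σ * ‖c n‖) {n : ι} (hn : c' n ≠ 0) : c n ≠ 0 := by
  intro h0
  have := hc n
  rw [h0, norm_zero, mul_zero] at this
  exact hn (norm_le_zero_iff.1 this)

theorem sumA_term_le (hl : ∀ n, c n ≠ 0 → 0 < l n) {M : ℝ} (hc : ∀ n, ‖c' n‖ ≤ M * ‖c n‖) (n : ι) :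
    ‖c' n‖ * l n ^ (-σ) ≤ M * (‖c n‖ * l n ^ (-σ)) := by
  by_cases hn : c n = 0
  · have h' : c' n = 0 := by
      by_contra h'
      exact sumA_ne hc h' hn
    simp [hn, h']
  · rw [← mul_assoc]
    exact mul_le_mul_of_nonneg_right (hc n) (Real.rpow_nonneg (hl n hn).le _)

theorem sumA_term_mono (h1 : ∀ n, c n ≠ 0 → 1 ≤ l n) {σ' : ℝ} (hσ : σ ≤ σ') (n : ι) :
    ‖c n‖ * l n ^ (-σ') ≤ ‖c n‖ * l n ^ (-σ) := by
  by_cases hn : c n = 0
  · simp [hn]
  · exact mul_le_mul_of_nonneg_left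
      (Real.rpow_le_rpow_of_exponent_le (h1 n hn) (neg_le_neg hσ)) (norm_nonneg _)

theorem sumA_LN_le (hl : ∀ n, c n ≠ 0 → 0 < l n) {a Y : ℝ} (ha : 0 < a) (hY : 0 < Y) (t σ : ℝ)
    (n : ι) : ‖c n * LN a Y t (l n)‖ ≤
      Real.exp (a ^ 2 * σ ^ 2 / 2) * Y ^ σ * (‖c n‖ * l n ^ (-σ)) := by
  by_cases hn : c n = 0
  · simp [hn]
  · rw [norm_mul]
    calc ‖c n‖ * ‖LN a Y t (l n)‖
        ≤ ‖c n‖ * (Real.exp (a ^ 2 * σ ^ 2 / 2) * Y ^ σ * l n ^ (-σ)) :=
          mul_le_mul_of_nonneg_left (norm_LN_le_rpow ha hY (hl n hn) t σ) (norm_nonneg _)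
      _ = _ := by ring

theorem DA_nonneg (h : Adm c l σ) : 0 ≤ DA c l σ := by
  exact tsum_nonneg (sumA_term_nonneg h.1 σ)

theorem Adm.of_le (h : Adm c l σ) {M : ℝ} (hc : ∀ n, ‖c' n‖ ≤ M * ‖c n‖) : Adm c' l σ := by
  have hl : ∀ n, c' n ≠ 0 → 0 < l n := fun n hn => h.1 n (sumA_ne hc hn)
  exact ⟨hl, Summable.of_nonneg_of_le (sumA_term_nonneg hl σ) (sumA_term_le h.1 hc)
    (h.2.mul_left M)⟩

theorem DA_le_of_le (h : Adm c l σ) {M : ℝ} (hc : ∀ n, ‖c' n‖ ≤ M * ‖c n‖) :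
    DA c' l σ ≤ M * DA c l σ := by
  unfold DA
  rw [← tsum_mul_left]
  exact (h.of_le hc).2.tsum_le_tsum (sumA_term_le h.1 hc) (h.2.mul_left M)

theorem Adm.mono (h : Adm c l σ) (h1 : ∀ n, c n ≠ 0 → 1 ≤ l n) {σ' : ℝ} (hσ : σ ≤ σ') :
    Adm c l σ' ∧ DA c l σ' ≤ DA c l σ := by
  have hs : Summable fun n => ‖c n‖ * l n ^ (-σ') :=
    Summable.of_nonneg_of_le (sumA_term_nonneg h.1 σ') (sumA_term_mono h1 hσ) h.2
  exact ⟨⟨h.1, hs⟩, hs.tsum_le_tsum (sumA_term_mono h1 hσ) h.2⟩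

theorem adm_of_finite (S : Finset ι) (hS : ∀ n, n ∉ S → c n = 0) (hl : ∀ n, c n ≠ 0 → 0 < l n)
    (σ : ℝ) : Adm c l σ := by
  exact ⟨hl, summable_of_ne_finset_zero (s := S) fun n hn => by simp [hS n hn]⟩

theorem Adm.summable_DD (h : Adm c l σ) {s : ℂ} (hs : s.re = σ) :
    Summable fun n => ‖c n * (l n : ℂ) ^ (-s)‖ := by
  subst hs
  simpa only [sumA_norm_term h.1] using h.2

theorem Adm.norm_DD_le (h : Adm c l σ) {s : ℂ} (hs : s.re = σ) : ‖DD c l s‖ ≤ DA c l σ := by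
  refine (norm_tsum_le_tsum_norm (h.summable_DD hs)).trans (le_of_eq ?_)
  subst hs
  simp only [sumA_norm_term h.1, DA]

theorem Adm.continuous_DD (h : Adm c l σ) : Continuous fun y : ℝ => DD c l (σ + y * I) := by
  refine continuous_tsum (fun n => ?_) h.2 fun n y => ?_
  · by_cases hn : c n = 0
    · simpa [hn] using continuous_const
    · have hne : (l n : ℂ) ≠ 0 := by exact_mod_cast (h.1 n hn).ne'
      exact continuous_const.mul (Continuous.const_cpow (by fun_prop) (Or.inl hne))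
  · rw [sumA_norm_term h.1]; simp

theorem Adm.diffOn_DD (h : Adm c l σ) (h1 : ∀ n, c n ≠ 0 → 1 ≤ l n) :
    DifferentiableOn ℂ (DD c l) {s | σ < s.re} ∧ ∀ s : ℂ, σ ≤ s.re → ‖DD c l s‖ ≤ DA c l σ := by
  refine ⟨differentiableOn_tsum_of_summable_norm h.2 (fun n => ?_)
    (isOpen_lt continuous_const continuous_re) fun n w hw => ?_, fun s hs => ?_⟩
  · by_cases hn : c n = 0
    · simp [hn]
    · have hne : (l n : ℂ) ≠ 0 := by exact_mod_cast (h.1 n hn).ne'
      exact ((differentiable_const _).mul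
        (differentiable_id.neg.const_cpow (Or.inl hne))).differentiableOn
  · rw [sumA_norm_term h.1]
    exact sumA_term_mono h1 (le_of_lt hw) n
  · obtain ⟨h2, h3⟩ := h.mono h1 hs
    exact (h2.norm_DD_le rfl).trans h3

theorem Adm.summable_SS (h : Adm c l σ) {a Y : ℝ} (ha : 0 < a) (hY : 0 < Y) (t : ℝ) :
    Summable fun n => ‖c n * LN a Y t (l n)‖ := by
  exact Summable.of_nonneg_of_le (fun _ => norm_nonneg _) (sumA_LN_le h.1 ha hY t σ)
    (h.2.mul_left _)

theorem Adm.norm_SS_le (h : Adm c l σ) {a Y : ℝ} (ha : 0 < a) (hY : 0 < Y) (t : ℝ) :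
    ‖SS c l a Y t‖ ≤ Real.exp (a ^ 2 * σ ^ 2 / 2) * Y ^ σ * DA c l σ := by
  refine (norm_tsum_le_tsum_norm (h.summable_SS ha hY t)).trans ?_
  unfold DA
  rw [← tsum_mul_left]
  exact (h.summable_SS ha hY t).tsum_le_tsum (sumA_LN_le h.1 ha hY t σ) (h.2.mul_left _)

/-- joint continuity in (log centre, twist) -/
theorem Adm.continuous_SS (h : Adm c l σ) {a Y : ℝ} (ha : 0 < a) (hY : 0 < Y) :
    Continuous fun p : ℝ × ℝ => SS c l a (Y * Real.exp p.1) p.2 := by
  rw [continuous_iff_continuousAt]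
  intro p₀
  have hU : IsOpen {p : ℝ × ℝ | |p.1| < |p₀.1| + 1} := isOpen_lt (by fun_prop) continuous_const
  refine ContinuousOn.continuousAt ?_ (hU.mem_nhds (by simp))
  refine continuousOn_tsum (fun n => ?_)
    (h.2.mul_left (Real.exp (a ^ 2 * σ ^ 2 / 2) * (Y ^ σ * Real.exp ((|p₀.1| + 1) * |σ|))))
    fun n p hp => ?_
  · by_cases hn : c n = 0
    · simpa [hn] using continuousOn_const
    · exact (continuous_const.mul (continuous_LN hY (h.1 n hn) a)).continuousOn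
  · refine (sumA_LN_le h.1 ha (mul_pos hY (Real.exp_pos _)) p.2 σ n).trans ?_
    refine mul_le_mul_of_nonneg_right (mul_le_mul_of_nonneg_left ?_ (Real.exp_pos _).le)
      (sumA_term_nonneg h.1 σ n)
    rw [Real.mul_rpow hY.le (Real.exp_pos _).le, ← Real.exp_mul]
    refine mul_le_mul_of_nonneg_left (Real.exp_le_exp.2 ?_) (Real.rpow_nonneg hY.le _)
    calc p.1 * σ ≤ |p.1 * σ| := le_abs_self _
      _ = |p.1| * |σ| := abs_mul _ _
      _ ≤ (|p₀.1| + 1) * |σ| := mul_le_mul_of_nonneg_right (le_of_lt hp) (abs_nonneg _)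

/-- multiplying the coefficients by a power moves centre and twist -/
theorem SS_mul_cpow (hl : ∀ n, c n ≠ 0 → 0 < l n) {a Y : ℝ} (ha : 0 < a) (hY : 0 < Y) (t : ℝ)
    (s : ℂ) :
    SS (fun n => c n * (l n : ℂ) ^ s) l a Y t =
      (Y : ℂ) ^ s * cexp (((a ^ 2 * s.re ^ 2 / 2 : ℝ) : ℂ) + I * ((a ^ 2 * s.re * (t + s.im) : ℝ) : ℂ)) *
        SS c l a (Y * Real.exp (a ^ 2 * s.re)) (t + s.im) := by
  unfold SS
  rw [← tsum_mul_left]
  refine tsum_congr fun n => ?_
  by_cases hn : c n = 0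
  · simp [hn]
  · have := LN_mul_cpow ha hY (hl n hn) t s
    linear_combination c n * this

theorem conj_SS (c : ι → ℂ) (l : ι → ℝ) (a Y t : ℝ) :
    conj (SS c l a Y t) = SS (fun n => conj (c n)) l a Y (-t) := by
  unfold SS
  rw [Complex.conj_tsum]
  simp only [map_mul, conj_LN]

theorem sumb_int {S : Set ι} (hS : S.Countable) {G : ι → ℝ → ℂ} (h0 : ∀ i ∉ S, ∀ y, G i y = 0)
    (hG : ∀ i, Integrable (G i)) (hs : Summable fun i => ∫ y, ‖G i y‖) :
    Integrable (fun y => ∑' i, G i y) ∧ HasSum (fun i => ∫ y, G i y) (∫ y, ∑' i, G i y) := by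
  have := hS.to_subtype
  have e : ∀ y, ∑' i : S, G i y = ∑' i, G i y := fun y =>
    tsum_subtype_eq_of_support_subset (f := fun i => G i y) fun i hi => by
      by_contra h
      exact hi (h0 i h y)
  have hs' : Summable fun i : S => ∫ y, ‖G i y‖ := hs.subtype S
  constructor
  · have h1 := (VI_tsum (σ := 0) (F := fun (i : S) s => G i s.im)
      (fun i => by simpa [VInt] using hG i) (by simpa using hs')).1
    simpa [VInt, e] using h1
  · have h1 := hasSum_integral_of_summable_integral_norm (F := fun i : S => G i)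
      (fun i => hG i) hs'
    simp only [e] at h1
    refine (hasSum_subtype_iff_of_support_subset (s := S) fun i hi => ?_).1 h1
    by_contra h
    exact hi (by simp [h0 i h])

theorem sumb_countable (h : Adm c l σ) : {n | c n ≠ 0}.Countable := by
  refine h.2.countable_support.mono fun n hn => ?_
  exact mul_ne_zero (norm_ne_zero_iff.2 hn) (Real.rpow_pos_of_pos (h.1 n hn) _).ne'

theorem sumb_VI_mul_DD (h : Adm c l σ) {K : ℂ → ℂ} (hK : VInt σ K) :
    VInt σ (fun s => K s * DD c l s) ∧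
    HasSum (fun n => c n * VI σ fun s => K s * (l n : ℂ) ^ (-s)) (VI σ fun s => K s * DD c l s) := by
  have hn : ∀ n (y : ℝ), ‖c n * (K (σ + y * I) * (l n : ℂ) ^ (-(σ + y * I : ℂ)))‖ =
      ‖c n‖ * l n ^ (-σ) * ‖K (σ + y * I)‖ := by
    intro n y
    by_cases hc : c n = 0
    · simp [hc]
    · rw [norm_mul, norm_mul, norm_cpow_eq_rpow_re_of_pos (h.1 n hc)]
      simp only [neg_re, add_re, ofReal_re, mul_re, I_re, mul_zero, ofReal_im, I_im, mul_one,
        sub_self, add_zero]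
      ring
  have hG : ∀ n, Integrable fun y : ℝ => c n * (K (σ + y * I) * (l n : ℂ) ^ (-(σ + y * I : ℂ))) := by
    intro n
    by_cases hc : c n = 0
    · simp [hc]
    · have hl : (l n : ℂ) ≠ 0 := ofReal_ne_zero.2 (h.1 n hc).ne'
      have hm : Continuous fun y : ℝ => (l n : ℂ) ^ (-(σ + y * I : ℂ)) :=
        Continuous.const_cpow (by fun_prop) (Or.inl hl)
      refine Integrable.mono' ((Integrable.norm hK).const_mul (‖c n‖ * l n ^ (-σ)))
        ((hK.1.mul hm.aestronglyMeasurable).const_mul _) (Eventually.of_forall fun y => (hn n y).le)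
  have hs : Summable fun n =>
      ∫ y : ℝ, ‖c n * (K (σ + y * I) * (l n : ℂ) ^ (-(σ + y * I : ℂ)))‖ := by
    simp only [hn, integral_const_mul]
    exact h.2.mul_right _
  obtain ⟨h1, h2⟩ := sumb_int (sumb_countable h)
    (G := fun n (y : ℝ) => c n * (K (σ + y * I) * (l n : ℂ) ^ (-(σ + y * I : ℂ))))
    (fun n hn y => by simp [not_not.1 hn]) hG hs
  have e : ∀ y : ℝ, ∑' n, c n * (K (σ + y * I) * (l n : ℂ) ^ (-(σ + y * I : ℂ))) =
      K (σ + y * I) * DD c l (σ + y * I) := by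
    intro y
    rw [DD, ← tsum_mul_left]
    exact tsum_congr fun n => by ring
  simp only [e] at h1 h2
  refine ⟨h1, ?_⟩
  have h3 := h2.mul_left ((1 / (2 * π) : ℝ) : ℂ)
  simp only [integral_const_mul] at h3
  simp only [VI, mul_left_comm (c _)]
  exact h3

/-- Mellin representation of a smooth sum (the support of `c` is countable) -/
theorem Adm.SS_eq_VI (h : Adm c l σ) {a Y : ℝ} (ha : 0 < a) (hY : 0 < Y) (t : ℝ) :
    VInt σ (fun s => LNt a (s + I * t) * (Y : ℂ) ^ s * DD c l s) ∧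
    SS c l a Y t = VI σ fun s => LNt a (s + I * t) * (Y : ℂ) ^ s * DD c l s := by
  have hK : VInt σ fun s => LNt a (s + I * t) * (Y : ℂ) ^ s := by
    simpa using (LN_eq_VI ha hY one_pos t σ).1
  obtain ⟨h1, h2⟩ := sumb_VI_mul_DD h hK
  refine ⟨h1, ?_⟩
  rw [← h2.tsum_eq, SS]
  refine tsum_congr fun n => ?_
  by_cases hc : c n = 0
  · simp [hc]
  · rw [(LN_eq_VI ha hY (h.1 n hc) t σ).2]

/-- Mellin transform of a smooth sum in its centre -/
theorem Adm.integral_SS {s : ℂ} (h : Adm c l s.re) {a : ℝ} (ha : 0 < a) (t : ℝ) :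
    Integrable (fun η : ℝ => cexp (-(η : ℂ) * s) * SS c l a (Real.exp η) t) ∧
    ∫ η : ℝ, cexp (-(η : ℂ) * s) * SS c l a (Real.exp η) t = LNt a (s + I * t) * DD c l s := by
  have hG : ∀ n, Integrable fun η : ℝ =>
      c n * (cexp (-(η : ℂ) * s) * LN a (Real.exp η) t (l n)) := by
    intro n
    by_cases hc : c n = 0
    · simp [hc]
    · exact (integral_LN_centre ha (h.1 n hc) t s).1.const_mul _
  have hn : ∀ n, ∫ η : ℝ, ‖c n * (cexp (-(η : ℂ) * s) * LN a (Real.exp η) t (l n))‖ =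
      ‖c n‖ * l n ^ (-s.re) * (√(2 * π) * a * Real.exp (a ^ 2 * s.re ^ 2 / 2)) := by
    intro n
    by_cases hc : c n = 0
    · simp [hc]
    · have h1 : ∀ η : ℝ, ‖cexp (-(η : ℂ) * s)‖ = Real.exp (-η * s.re) := fun η => by
        rw [norm_exp]
        simp
      simp only [norm_mul, h1, integral_const_mul]
      rw [integral_norm_LN_centre ha (h.1 n hc)]
      ring
  have hs : Summable fun n =>
      ∫ η : ℝ, ‖c n * (cexp (-(η : ℂ) * s) * LN a (Real.exp η) t (l n))‖ := by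
    simp only [hn]
    exact h.2.mul_right _
  obtain ⟨h1, h2⟩ := sumb_int (sumb_countable h)
    (G := fun n (η : ℝ) => c n * (cexp (-(η : ℂ) * s) * LN a (Real.exp η) t (l n)))
    (fun n hn y => by simp [not_not.1 hn]) hG hs
  have e : ∀ η : ℝ, ∑' n, c n * (cexp (-(η : ℂ) * s) * LN a (Real.exp η) t (l n)) =
      cexp (-(η : ℂ) * s) * SS c l a (Real.exp η) t := by
    intro η
    rw [SS, ← tsum_mul_left]
    exact tsum_congr fun n => by ring
  simp only [e] at h1 h2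
  refine ⟨h1, ?_⟩
  rw [← h2.tsum_eq, DD, ← tsum_mul_left]
  refine tsum_congr fun n => ?_
  by_cases hc : c n = 0
  · simp [hc]
  · rw [integral_const_mul, (integral_LN_centre ha (h.1 n hc) t s).2]
    ring

/-- termwise integration against a kernel on a line -/
theorem Adm.VI_mul_DD (h : Adm c l σ) {K : ℂ → ℂ} (hK : VInt σ K) :
    VInt σ (fun s => K s * DD c l s) ∧
    HasSum (fun n => c n * VI σ fun s => K s * (l n : ℂ) ^ (-s)) (VI σ fun s => K s * DD c l s) := by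
  exact sumb_VI_mul_DD h hK

end Crest.Agent.R17
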