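import Crest.Agent.R17.B.Sum
import Crest.Agent.R17.A.Count

/-! Row 17, block B: log-normal sums over `O`.  `φ : ι → O` is any injective indexing
(`id`, `Subtype.val` on `Pr`, …), the coefficients vanish at `0`. -/

set_option autoImplicit false

namespace Crest.Agent.R17

open Complex MeasureTheory Filter Set
open scoped Real Topology ComplexConjugate

/-- lattice point count (also in block A) -/
theorem B_count : ∃ C : ℝ, 0 < C ∧ ∀ (X : ℝ) (S : Finset O), (∀ n ∈ S, n ≠ 0 ∧ nm n ≤ X) →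
    (S.card : ℝ) ≤ C * max X 0 := by
  refine ⟨11, by norm_num, fun X S hS => ?_⟩
  exact card_le_of_nm_le (le_max_right X 0) fun n hn => ⟨(hS n hn).1, (hS n hn).2.trans (le_max_left X 0)⟩

theorem B_one_le_nm {n : O} (hn : n ≠ 0) : 1 ≤ nm n := by
  exact one_le_nm hn

theorem B_summable_nm {σ : ℝ} (hσ : 1 < σ) : Summable fun n : O => nm n ^ (-σ) := by
  exact summable_nm_rpow hσ

theorem adm_O {θ σ : ℝ} (h : θ + 1 < σ) : ∃ C : ℝ, 0 < C ∧
    ∀ {ι : Type} (φ : ι → O) (c : ι → ℂ) (M : ℝ), Function.Injective φ → (∀ n, φ n = 0 → c n = 0) →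
      (∀ n, φ n ≠ 0 → ‖c n‖ ≤ M * nm (φ n) ^ θ) → 0 ≤ M →
      Adm c (fun n => nm (φ n)) σ ∧ DA c (fun n => nm (φ n)) σ ≤ C * M := by
  have hs := B_summable_nm (σ := σ - θ) (by linarith)
  have h0 : ∀ n : O, 0 ≤ nm n ^ (-(σ - θ)) := fun n => Real.rpow_nonneg (nm_nonneg n) _
  refine ⟨∑' n : O, nm n ^ (-(σ - θ)) + 1, add_pos_of_nonneg_of_pos (tsum_nonneg h0) one_pos, ?_⟩
  intro ι φ c M hφ hc0 hc hM
  have hb : ∀ n, ‖c n‖ * nm (φ n) ^ (-σ) ≤ M * nm (φ n) ^ (-(σ - θ)) := fun n => by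
    by_cases hn : φ n = 0
    · rw [hc0 n hn, norm_zero, zero_mul]
      exact mul_nonneg hM (h0 _)
    · have hp := nm_pos hn
      rw [show -(σ - θ) = θ + -σ by ring, Real.rpow_add hp, ← mul_assoc]
      exact mul_le_mul_of_nonneg_right (hc n hn) (Real.rpow_nonneg hp.le _)
  have hs' : Summable fun n => nm (φ n) ^ (-(σ - θ)) := hs.comp_injective hφ
  have hs'' : Summable fun n => ‖c n‖ * nm (φ n) ^ (-σ) :=
    Summable.of_nonneg_of_le (fun n => mul_nonneg (norm_nonneg _) (Real.rpow_nonneg (nm_nonneg _) _))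
      hb (hs'.mul_left M)
  refine ⟨⟨fun n hn => nm_pos fun h' => hn (hc0 n h'), hs''⟩, ?_⟩
  have h1 : ∑' n, nm (φ n) ^ (-(σ - θ)) ≤ ∑' n : O, nm n ^ (-(σ - θ)) :=
    hs'.tsum_le_tsum_of_inj φ hφ (fun n _ => h0 n) (fun _ => le_rfl) hs
  calc DA c (fun n => nm (φ n)) σ ≤ ∑' n, M * nm (φ n) ^ (-(σ - θ)) :=
        hs''.tsum_le_tsum hb (hs'.mul_left M)
    _ = M * ∑' n, nm (φ n) ^ (-(σ - θ)) := tsum_mul_left
    _ ≤ M * (∑' n : O, nm n ^ (-(σ - θ)) + 1) := by gcongr; linarith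
    _ = _ := mul_comm _ _

/-- bounded coefficients on primary elements -/
theorem adm_Pr {σ : ℝ} (h : 1 < σ) {c : Pr → ℂ} {M : ℝ} (hc : ∀ n, ‖c n‖ ≤ M) :
    Adm c (fun n => nm n) σ := by
  obtain ⟨C, -, hC⟩ := adm_O (θ := 0) (σ := σ) (by linarith)
  refine (hC (fun n : Pr => (n : O)) c M Subtype.val_injective (fun n hn => ?_) (fun n _ => ?_)
    ((norm_nonneg _).trans (hc 1))).1
  · exact absurd hn (Prim.ne_zero n.2)
  · rw [Real.rpow_zero, mul_one]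
    exact hc n

theorem sob_nm_pos {n : O} (hn : n ≠ 0) : 0 < nm n := lt_of_lt_of_le one_pos (B_one_le_nm hn)

theorem sob_block {a Y x : ℝ} (ha : 0 < a) (hY : 0 < Y) (hx : 0 < x) :
    ∃ k : ℕ, x ≤ 2 ^ (k + 1) * Y ∧
      ‖LN a Y 0 x‖ ≤ Real.exp (a ^ 2 * 2 ^ 2 / 2) * (1 / 4) ^ k := by
  classical
  have hex : ∃ k : ℕ, x ≤ 2 ^ (k + 1) * Y := by
    obtain ⟨k, hk⟩ := pow_unbounded_of_one_lt (x / Y) (one_lt_two (α := ℝ))
    refine ⟨k, ?_⟩
    rw [div_lt_iff₀ hY] at hk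
    have : (2 : ℝ) ^ k * Y ≤ 2 ^ (k + 1) * Y := by
      rw [pow_succ]; nlinarith [pow_pos (two_pos (α := ℝ)) k]
    linarith
  have hE : (1 : ℝ) ≤ Real.exp (a ^ 2 * 2 ^ 2 / 2) := Real.one_le_exp (by positivity)
  refine ⟨Nat.find hex, Nat.find_spec hex, ?_⟩
  rcases h : Nat.find hex with _ | k
  · simpa using (norm_LN_le_one a Y 0 x).trans hE
  · have hk : ¬ x ≤ 2 ^ (k + 1) * Y := Nat.find_min hex (by omega)
    push Not at hk
    refine (norm_LN_le_rpow ha hY hx 0 2).trans ?_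
    rw [mul_assoc]
    refine mul_le_mul_of_nonneg_left ?_ (by positivity)
    rw [Real.rpow_neg hx.le, Real.rpow_two, Real.rpow_two, ← div_eq_mul_inv, ← div_pow,
      show ((1 : ℝ) / 4) ^ (k + 1) = (1 / 2 ^ (k + 1)) ^ 2 by
        rw [← one_div_pow, ← pow_mul, mul_comm, pow_mul]; norm_num]
    refine pow_le_pow_left₀ (by positivity) ?_ 2
    rw [div_le_div_iff₀ hx (by positivity)]
    linarith

theorem sob_core {a : ℝ} (ha : 0 < a) : ∃ C : ℝ, 0 < C ∧ ∀ (Y : ℝ) (S : Finset O), 0 < Y →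
    (∀ n ∈ S, n ≠ 0) → ∑ n ∈ S, ‖LN a Y 0 (nm n)‖ ≤ C * Y := by
  classical
  obtain ⟨C, hC, hcount⟩ := B_count
  set E : ℝ := Real.exp (a ^ 2 * 2 ^ 2 / 2) with hEdef
  have hE : 0 < E := Real.exp_pos _
  refine ⟨4 * E * C, by positivity, fun Y S hY hS => ?_⟩
  have hch : ∀ n : O, ∃ k : ℕ, n ≠ 0 → nm n ≤ 2 ^ (k + 1) * Y ∧
      ‖LN a Y 0 (nm n)‖ ≤ E * (1 / 4) ^ k := by
    intro n
    by_cases hn : n = 0
    · exact ⟨0, fun h => absurd hn h⟩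
    · obtain ⟨k, hk⟩ := sob_block ha hY (sob_nm_pos hn)
      exact ⟨k, fun _ => hk⟩
  choose k hk using hch
  calc ∑ n ∈ S, ‖LN a Y 0 (nm n)‖ ≤ ∑ n ∈ S, E * (1 / 4 : ℝ) ^ k n :=
        Finset.sum_le_sum fun n hn => (hk n (hS n hn)).2
    _ = ∑ j ∈ S.image k, ((S.filter fun n => k n = j).card : ℝ) * (E * (1 / 4 : ℝ) ^ j) := by
        rw [Finset.sum_comp (fun j => E * (1 / 4 : ℝ) ^ j) k]
        simp only [nsmul_eq_mul]
    _ ≤ ∑ j ∈ S.image k, (2 * E * C * Y) * (1 / 2 : ℝ) ^ j := by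
        refine Finset.sum_le_sum fun j _ => ?_
        have h1 := hcount (2 ^ (j + 1) * Y) (S.filter fun n => k n = j) (by
          intro n hn
          rw [Finset.mem_filter] at hn
          exact ⟨hS n hn.1, hn.2 ▸ (hk n (hS n hn.1)).1⟩)
        rw [max_eq_left (by positivity)] at h1
        refine (mul_le_mul_of_nonneg_right h1 (by positivity)).trans (le_of_eq ?_)
        have : (2 : ℝ) ^ j * (1 / 4) ^ j = (1 / 2) ^ j := by
          rw [← mul_pow]; norm_num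
        rw [← this, pow_succ]; ring
    _ = (2 * E * C * Y) * ∑ j ∈ S.image k, (1 / 2 : ℝ) ^ j := by rw [Finset.mul_sum]
    _ ≤ (2 * E * C * Y) * 2 := by
        refine mul_le_mul_of_nonneg_left ?_ (by positivity)
        have := summable_geometric_two.sum_le_tsum (S.image k) (fun j _ => by positivity)
        rwa [tsum_geometric_two] at this
    _ = 4 * E * C * Y := by ring

/-- comparison with a sum over nonzero elements of `O` -/
theorem sob_cmp {ι : Type} {φ : ι → O} (hφ : Function.Injective φ) {f : ι → ℝ} {g : O → ℝ}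
    {K B : ℝ} (hK : 0 ≤ K) (hf : ∀ n, 0 ≤ f n) (h0 : ∀ n, φ n = 0 → f n = 0)
    (h1 : ∀ n, φ n ≠ 0 → f n ≤ K * g (φ n))
    (hg : ∀ S : Finset O, (∀ n ∈ S, n ≠ 0) → ∑ n ∈ S, g n ≤ B) :
    Summable f ∧ ∑' n, f n ≤ K * B := by
  classical
  have key : ∀ s : Finset ι, ∑ n ∈ s, f n ≤ K * B := by
    intro s
    calc ∑ n ∈ s, f n = ∑ n ∈ s.filter (fun n => φ n ≠ 0), f n := by
          symm
          exact Finset.sum_filter_of_ne fun n _ hn h => hn (h0 n h)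
      _ ≤ ∑ n ∈ s.filter (fun n => φ n ≠ 0), K * g (φ n) :=
          Finset.sum_le_sum fun n hn => h1 n (Finset.mem_filter.1 hn).2
      _ = K * ∑ m ∈ (s.filter (fun n => φ n ≠ 0)).image φ, g m := by
          rw [Finset.sum_image fun x _ y _ h => hφ h, Finset.mul_sum]
      _ ≤ K * B := by
          refine mul_le_mul_of_nonneg_left (hg _ fun m hm => ?_) hK
          obtain ⟨n, hn, rfl⟩ := Finset.mem_image.1 hm
          exact (Finset.mem_filter.1 hn).2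
  exact ⟨summable_of_sum_le hf key, Real.tsum_le_of_sum_le hf key⟩

/-- the trivial bound, for ALL `Y > 0` (blocks `Y e^k ≤ N n < Y e^(k+1)`) -/
theorem sum_LN_O {a : ℝ} (ha : 0 < a) (θ : ℝ) : ∃ C : ℝ, 0 < C ∧
    ∀ {ι : Type} (φ : ι → O) (c : ι → ℂ) (M Y t : ℝ), Function.Injective φ →
      (∀ n, φ n = 0 → c n = 0) → (∀ n, φ n ≠ 0 → ‖c n‖ ≤ M * nm (φ n) ^ θ) → 0 ≤ M → 0 < Y →
      Summable (fun n => ‖c n * LN a Y t (nm (φ n))‖) ∧
      ∑' n, ‖c n * LN a Y t (nm (φ n))‖ ≤ C * M * Y ^ (θ + 1) := by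
  obtain ⟨C, hC, hcore⟩ := sob_core ha
  refine ⟨Real.exp (a ^ 2 * θ ^ 2 / 2) * (C * Real.exp (a ^ 2 * θ)), by positivity, ?_⟩
  intro ι φ c M Y t hφ h0 h1 hM hY
  have hY' : 0 < Y * Real.exp (a ^ 2 * θ) := by positivity
  have := sob_cmp (f := fun n => ‖c n * LN a Y t (nm (φ n))‖)
    (g := fun m => ‖LN a (Y * Real.exp (a ^ 2 * θ)) 0 (nm m)‖)
    (K := M * (Y ^ θ * Real.exp (a ^ 2 * θ ^ 2 / 2))) hφ (by positivity)
    (fun n => norm_nonneg _) (fun n hn => by simp [h0 n hn]) (fun n hn => by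
      rw [norm_mul, mul_assoc, ← norm_LN_mul_rpow ha hY (sob_nm_pos hn) t 0 θ]
      have := mul_le_mul_of_nonneg_right (h1 n hn) (norm_nonneg (LN a Y t (nm (φ n))))
      linarith) (fun S hS => hcore _ S hY' hS)
  refine ⟨this.1, this.2.trans (le_of_eq ?_)⟩
  rw [Real.rpow_add hY, Real.rpow_one]; ring

/-- short sums: any power of `Y` beyond `θ + 1` (use for `Y ≤ 1`) -/
theorem sum_LN_O_small {a θ σ : ℝ} (ha : 0 < a) (h : θ + 1 ≤ σ) : ∃ C : ℝ, 0 < C ∧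
    ∀ {ι : Type} (φ : ι → O) (c : ι → ℂ) (M Y t : ℝ), Function.Injective φ →
      (∀ n, φ n = 0 → c n = 0) → (∀ n, φ n ≠ 0 → ‖c n‖ ≤ M * nm (φ n) ^ θ) → 0 ≤ M → 0 < Y →
      ∑' n, ‖c n * LN a Y t (nm (φ n))‖ ≤ C * M * Y ^ σ := by
  obtain ⟨C, hC, H⟩ := sum_LN_O ha (σ - 1)
  refine ⟨C, hC, ?_⟩
  intro ι φ c M Y t hφ h0 h1 hM hY
  have := (H φ c M Y t hφ h0 (fun n hn => (h1 n hn).trans (mul_le_mul_of_nonneg_left
    (Real.rpow_le_rpow_of_exponent_le (B_one_le_nm hn) (by linarith)) hM)) hM hY).2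
  rwa [sub_add_cancel] at this

/-- tails: coefficients supported at logarithmic distance `≥ Δ` from the centre -/
theorem sum_LN_O_tail {a : ℝ} (ha : 0 < a) (θ : ℝ) : ∃ C : ℝ, 0 < C ∧
    ∀ {ι : Type} (φ : ι → O) (c : ι → ℂ) (M Y t Δ : ℝ), Function.Injective φ →
      (∀ n, φ n = 0 → c n = 0) → (∀ n, φ n ≠ 0 → ‖c n‖ ≤ M * nm (φ n) ^ θ) → 0 ≤ M → 0 < Y →
      0 ≤ Δ → (∀ n, c n ≠ 0 → Δ ≤ |Real.log (nm (φ n) / Y)|) →
      ∑' n, ‖c n * LN a Y t (nm (φ n))‖ ≤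
        C * M * Y ^ (θ + 1) * Real.exp (-(Δ ^ 2 / (4 * a ^ 2))) := by
  have ha' : 0 < √2 * a := by positivity
  obtain ⟨C, hC, H⟩ := sum_LN_O ha' θ
  obtain ⟨C', -, H'⟩ := sum_LN_O ha θ
  refine ⟨C, hC, ?_⟩
  intro ι φ c M Y t Δ hφ h0 h1 hM hY hΔ hs
  obtain ⟨hS, hB⟩ := H φ c M Y 0 hφ h0 h1 hM hY
  have hS' := (H' φ c M Y t hφ h0 h1 hM hY).1
  calc ∑' n, ‖c n * LN a Y t (nm (φ n))‖
      ≤ ∑' n, ‖c n * LN (√2 * a) Y 0 (nm (φ n))‖ * Real.exp (-(Δ ^ 2 / (4 * a ^ 2))) := by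
        refine hS'.tsum_le_tsum (fun n => ?_) (hS.mul_right _)
        by_cases hc : c n = 0
        · simp [hc]
        · rw [norm_mul, norm_mul, mul_assoc]
          refine mul_le_mul_of_nonneg_left ?_ (norm_nonneg _)
          rw [mul_comm]
          exact norm_LN_tail hΔ (hs n hc) t
    _ ≤ _ := by
        rw [tsum_mul_right]
        exact mul_le_mul_of_nonneg_right hB (Real.exp_pos _).le

/-- tails beyond `Y Z^(±ε)` are negligible -/
theorem sum_LN_O_negl {a ε : ℝ} (ha : 0 < a) (hε : 0 < ε) (θ A : ℝ) : ∃ C : ℝ, 0 < C ∧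
    ∀ {ι : Type} (φ : ι → O) (c : ι → ℂ) (M Y t Z : ℝ), Function.Injective φ →
      (∀ n, φ n = 0 → c n = 0) → (∀ n, φ n ≠ 0 → ‖c n‖ ≤ M * nm (φ n) ^ θ) → 0 ≤ M → 0 < Y →
      1 ≤ Z → (∀ n, c n ≠ 0 → nm (φ n) ≤ Y * Z ^ (-ε) ∨ Y * Z ^ ε ≤ nm (φ n)) →
      ∑' n, ‖c n * LN a Y t (nm (φ n))‖ ≤ C * M * Y ^ (θ + 1) * Z ^ (-A) := by
  obtain ⟨C, hC, H⟩ := sum_LN_O_tail ha θ
  obtain ⟨C', hC', H'⟩ := exp_neg_log_sq_le (c := ε ^ 2 / (4 * a ^ 2)) (by positivity) A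
  refine ⟨C * C', by positivity, ?_⟩
  intro ι φ c M Y t Z hφ h0 h1 hM hY hZ hs
  have hZ0 : 0 < Z := by linarith
  have hL : 0 ≤ Real.log Z := Real.log_nonneg hZ
  have hb := H φ c M Y t (ε * Real.log Z) hφ h0 h1 hM hY (by positivity) (by
    intro n hc
    have hn : φ n ≠ 0 := fun h => hc (h0 n h)
    have hp := sob_nm_pos hn
    rcases hs n hc with h | h
    · have : Real.log (nm (φ n) / Y) ≤ -(ε * Real.log Z) := by
        rw [← neg_mul, ← Real.log_rpow hZ0]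
        refine Real.log_le_log (by positivity) ?_
        rw [div_le_iff₀ hY]; linarith
      exact le_abs.2 (Or.inr (by linarith))
    · have : ε * Real.log Z ≤ Real.log (nm (φ n) / Y) := by
        rw [← Real.log_rpow hZ0]
        refine Real.log_le_log (by positivity) ?_
        rw [le_div_iff₀ hY]; linarith
      exact le_abs.2 (Or.inl this))
  refine hb.trans ?_
  have h2 := H' Z hZ0
  rw [show -(ε ^ 2 / (4 * a ^ 2)) * Real.log Z ^ 2 = -((ε * Real.log Z) ^ 2 / (4 * a ^ 2)) by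
    ring] at h2
  calc _ ≤ C * M * Y ^ (θ + 1) * (C' * Z ^ (-A)) :=
        mul_le_mul_of_nonneg_left h2 (by positivity)
    _ = _ := by ring

theorem sob_Pr_ne_zero (n : Pr) : (n : O) ≠ 0 := by
  intro h
  have h3 : (3 : O) ∣ (n : O) - 1 := n.2
  rw [h, zero_sub, dvd_neg] at h3
  obtain ⟨u, hu⟩ := h3
  have h4 := congrArg (Algebra.norm ℤ) hu
  rw [map_one, map_mul, show (3 : O) = algebraMap ℤ O 3 by simp, Algebra.norm_algebraMap] at h4
  have hr : Module.finrank ℤ O ≠ 0 := Module.finrank_pos.ne'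
  have : (3 : ℤ) ∣ 1 := h4 ▸ (dvd_pow_self 3 hr).mul_right _
  omega

/-- trivial bound for `PS`, `MS`, `PP` (use `PS_eq_SS` etc.) -/
theorem norm_SS_Pr_le {a : ℝ} (ha : 0 < a) : ∃ C : ℝ, 0 < C ∧
    ∀ (c : Pr → ℂ) (M Y t : ℝ), (∀ n, ‖c n‖ ≤ M) → 0 < Y →
      ‖SS c (fun n => nm n) a Y t‖ ≤ C * M * min Y (Y ^ 2) := by
  obtain ⟨C, hC, H⟩ := sum_LN_O ha 0
  obtain ⟨C', hC', H'⟩ := sum_LN_O_small (θ := 0) (σ := 2) ha (by norm_num)
  refine ⟨max C C', lt_max_of_lt_left hC, ?_⟩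
  intro c M Y t hc hY
  have hM : 0 ≤ M := (norm_nonneg _).trans (hc 1)
  have h0 : ∀ n : Pr, (n : O) = 0 → c n = 0 := fun n h => absurd h (sob_Pr_ne_zero n)
  have h1 : ∀ n : Pr, (n : O) ≠ 0 → ‖c n‖ ≤ M * nm (n : O) ^ (0 : ℝ) := fun n _ => by
    simpa using hc n
  obtain ⟨hS, hB⟩ := H (fun n : Pr => (n : O)) c M Y t Subtype.val_injective h0 h1 hM hY
  have hB' := H' (fun n : Pr => (n : O)) c M Y t Subtype.val_injective h0 h1 hM hY
  refine (norm_tsum_le_tsum_norm hS).trans ?_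
  rw [zero_add, Real.rpow_one] at hB
  rw [Real.rpow_two] at hB'
  rcases le_total Y (Y ^ 2) with h | h
  · rw [min_eq_left h]
    exact hB.trans (by gcongr; exact le_max_left _ _)
  · rw [min_eq_right h]
    exact hB'.trans (by gcongr; exact le_max_right _ _)

end Crest.Agent.R17
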