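import Crest.Agent.R17.B.Sum

/-! Row 17, block B: superposition.
TWIST form (`a < b`): a test of width `a`, centre `Y`, twist `t` is a Gaussian average over twists of
tests of width `b` at ANY fixed centre `Y₀`; the price is `exp (log² (Y/Y₀) / (2 (b² - a²)))`.
CENTRE form (`b < a`): average over centres of tests of width `b` with the same twist. -/

set_option autoImplicit false

namespace Crest.Agent.R17

open Complex MeasureTheory Filter Set
open scoped Real Topology ComplexConjugate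

/-- kernel of the twist form; `δ = log (Y / Y₀)`, `1/e² = 1/a² - 1/b²`, `e² = a²b²/(b² - a²)` -/
noncomputable def twk (a b δ t τ : ℝ) : ℂ :=
  ((√(a ^ 2 * b ^ 2 / (b ^ 2 - a ^ 2)) / √(2 * π) * Real.exp (δ ^ 2 / (2 * (b ^ 2 - a ^ 2))) *
      Real.exp (-(a ^ 2 * b ^ 2 / (b ^ 2 - a ^ 2) / 2) * (τ - t) ^ 2) : ℝ) : ℂ) *
    cexp (-(I * ((t * δ + (τ - t) * (b ^ 2 * δ / (b ^ 2 - a ^ 2)) : ℝ) : ℂ)))

/-- kernel of the centre form -/
noncomputable def cek (a b t ξ : ℝ) : ℂ :=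
  ((a / (√(2 * π) * b * √(a ^ 2 - b ^ 2)) * Real.exp (-(ξ ^ 2 / (2 * (a ^ 2 - b ^ 2)))) : ℝ) : ℂ) *
    cexp (I * ((t * ξ : ℝ) : ℂ))

theorem supa_gauss {p : ℝ} (hp : 0 < p) (α β γ ε : ℝ) :
    ∫ x : ℝ, cexp (-(p : ℂ) * x ^ 2 + ((α : ℂ) + I * β) * x + ((γ : ℂ) + I * ε)) =
      ((√(π / p) : ℝ) : ℂ) * cexp (((γ + (α ^ 2 - β ^ 2) / (4 * p) : ℝ) : ℂ) +
        I * ((ε + α * β / (2 * p) : ℝ) : ℂ)) := by
  rw [integral_cexp_quadratic (by simpa using hp), neg_neg]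
  have hp' : (p : ℂ) ≠ 0 := ofReal_ne_zero.2 hp.ne'
  congr 1
  · rw [Real.sqrt_eq_rpow, ofReal_cpow (by positivity)]
    push_cast
    rfl
  · congr 1
    push_cast
    field_simp
    linear_combination (2 * (β : ℂ) ^ 2) * I_sq

theorem LN_eq_twist {a b Y Y₀ x : ℝ} (ha : 0 < a) (hab : a < b) (hY : 0 < Y) (hY₀ : 0 < Y₀)
    (hx : 0 < x) (t : ℝ) :
    LN a Y t x = ∫ τ : ℝ, twk a b (Real.log (Y / Y₀)) t τ * LN b Y₀ τ x := by
  have hD : 0 < b ^ 2 - a ^ 2 := by nlinarith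
  have hb : 0 < b := ha.trans hab
  set E := a ^ 2 * b ^ 2 / (b ^ 2 - a ^ 2) with hE
  have hE0 : 0 < E := by positivity
  set u := Real.log (x / Y) with hu
  set δ := Real.log (Y / Y₀) with hδ
  have hlog : Real.log (x / Y₀) = u + δ := by
    rw [hu, hδ, ← Real.log_mul (by positivity) (by positivity)]
    congr 1
    field_simp
  have hint : ∀ τ : ℝ, twk a b δ t τ * LN b Y₀ τ x = ((√E / √(2 * π) : ℝ) : ℂ) *
      cexp (-((E / 2 : ℝ) : ℂ) * τ ^ 2 +
        (((E * t : ℝ) : ℂ) + I * ((u + δ - b ^ 2 * δ / (b ^ 2 - a ^ 2) : ℝ) : ℂ)) * τ +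
        (((δ ^ 2 / (2 * (b ^ 2 - a ^ 2)) - E / 2 * t ^ 2 - (u + δ) ^ 2 / (2 * b ^ 2) : ℝ) : ℂ) +
          I * ((t * (b ^ 2 * δ / (b ^ 2 - a ^ 2)) - t * δ : ℝ) : ℂ))) := by
    intro τ
    unfold twk LN
    rw [hlog, ← hE, ofReal_mul, ofReal_mul, ofReal_exp, ofReal_exp, mul_assoc, mul_assoc, mul_assoc,
      ← Complex.exp_add, ← Complex.exp_add, ← Complex.exp_add]
    congr 2
    push_cast
    ring
  simp_rw [hint]
  rw [integral_const_mul, supa_gauss (half_pos hE0), ← mul_assoc, ← ofReal_mul]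
  have h1 : √E / √(2 * π) * √(π / (E / 2)) = 1 := by
    rw [← Real.sqrt_div' _ (by positivity), ← Real.sqrt_mul (by positivity), Real.sqrt_eq_one]
    field_simp
  rw [h1, ofReal_one, one_mul]
  unfold LN
  rw [← hu, ← ofReal_neg]
  congr 4
  · rw [hE]; field_simp; ring
  · field_simp; ring

theorem LN_eq_centre {a b Y x : ℝ} (hb : 0 < b) (hab : b < a) (hY : 0 < Y) (hx : 0 < x) (t : ℝ) :
    LN a Y t x = ∫ ξ : ℝ, cek a b t ξ * LN b (Y * Real.exp ξ) t x := by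
  have hD : 0 < a ^ 2 - b ^ 2 := by nlinarith
  have ha : 0 < a := hb.trans hab
  set u := Real.log (x / Y) with hu
  have hlog : ∀ ξ : ℝ, Real.log (x / (Y * Real.exp ξ)) = u - ξ := by
    intro ξ
    rw [hu, ← div_div, Real.log_div (by positivity) (by positivity), Real.log_exp]
  have hint : ∀ ξ : ℝ, cek a b t ξ * LN b (Y * Real.exp ξ) t x =
      ((a / (√(2 * π) * b * √(a ^ 2 - b ^ 2)) : ℝ) : ℂ) *
      cexp (-((1 / (2 * (a ^ 2 - b ^ 2)) + 1 / (2 * b ^ 2) : ℝ) : ℂ) * ξ ^ 2 +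
        (((u / b ^ 2 : ℝ) : ℂ) + I * ((0 : ℝ) : ℂ)) * ξ +
        (((-(u ^ 2 / (2 * b ^ 2)) : ℝ) : ℂ) + I * ((t * u : ℝ) : ℂ))) := by
    intro ξ
    unfold cek LN
    rw [hlog, ofReal_mul, ofReal_exp, mul_assoc, mul_assoc, ← Complex.exp_add, ← Complex.exp_add]
    congr 2
    push_cast
    ring
  simp_rw [hint]
  rw [integral_const_mul, supa_gauss (by positivity), ← mul_assoc, ← ofReal_mul]
  have h1 : a / (√(2 * π) * b * √(a ^ 2 - b ^ 2)) *
      √(π / (1 / (2 * (a ^ 2 - b ^ 2)) + 1 / (2 * b ^ 2))) = 1 := by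
    have h2 : π / (1 / (2 * (a ^ 2 - b ^ 2)) + 1 / (2 * b ^ 2)) =
        2 * π * ((a ^ 2 - b ^ 2) * (b / a) ^ 2) := by
      field_simp
      ring
    have h3 : 0 < √(2 * π) := by positivity
    have h4 : 0 < √(a ^ 2 - b ^ 2) := by positivity
    rw [h2, Real.sqrt_mul (x := 2 * π) (by positivity), Real.sqrt_mul hD.le,
      Real.sqrt_sq (by positivity)]
    field_simp
  rw [h1, ofReal_one, one_mul]
  unfold LN
  rw [← hu, ← ofReal_neg]
  congr 4
  · field_simp; ring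
  · simp

theorem supa_cont_twk (a b δ t : ℝ) : Continuous (twk a b δ t) := by
  unfold twk
  fun_prop

theorem supa_cont_cek (a b t : ℝ) : Continuous (cek a b t) := by
  unfold cek
  fun_prop

theorem supa_norm_twk (a b δ t τ : ℝ) : ‖twk a b δ t τ‖ =
    √(a ^ 2 * b ^ 2 / (b ^ 2 - a ^ 2)) / √(2 * π) * Real.exp (δ ^ 2 / (2 * (b ^ 2 - a ^ 2))) *
      Real.exp (-(a ^ 2 * b ^ 2 / (b ^ 2 - a ^ 2) / 2) * (τ - t) ^ 2) := by
  unfold twk
  rw [norm_mul, Complex.norm_real, Real.norm_of_nonneg (by positivity), ← mul_neg, ← ofReal_neg,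
    norm_exp_I_mul_ofReal, mul_one]

theorem supa_norm_cek {a b : ℝ} (hb : 0 < b) (hab : b < a) (t ξ : ℝ) : ‖cek a b t ξ‖ =
    a / (√(2 * π) * b * √(a ^ 2 - b ^ 2)) *
      Real.exp (-(1 / (2 * (a ^ 2 - b ^ 2))) * ξ ^ 2) := by
  have ha : 0 < a := hb.trans hab
  unfold cek
  rw [norm_mul, Complex.norm_real, Real.norm_of_nonneg (by positivity),
    norm_exp_I_mul_ofReal, mul_one]
  congr 2
  ring

theorem integral_norm_twk {a b : ℝ} (ha : 0 < a) (hab : a < b) (δ t : ℝ) :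
    Integrable (twk a b δ t) ∧
    ∫ τ : ℝ, ‖twk a b δ t τ‖ = Real.exp (δ ^ 2 / (2 * (b ^ 2 - a ^ 2))) := by
  have hD : 0 < b ^ 2 - a ^ 2 := by nlinarith
  have hb : 0 < b := ha.trans hab
  have hE0 : 0 < a ^ 2 * b ^ 2 / (b ^ 2 - a ^ 2) := by positivity
  refine ⟨?_, ?_⟩
  · refine (integrable_norm_iff (supa_cont_twk a b δ t).aestronglyMeasurable).1 ?_
    simp_rw [supa_norm_twk]
    exact ((integrable_exp_neg_mul_sq (half_pos hE0)).comp_sub_right t).const_mul _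
  · simp_rw [supa_norm_twk]
    rw [integral_const_mul, integral_sub_right_eq_self
      (fun τ : ℝ => Real.exp (-(a ^ 2 * b ^ 2 / (b ^ 2 - a ^ 2) / 2) * τ ^ 2)) t,
      integral_gaussian, mul_right_comm, ← Real.sqrt_div' _ (by positivity),
      ← Real.sqrt_mul (by positivity)]
    have h1 : a ^ 2 * b ^ 2 / (b ^ 2 - a ^ 2) / (2 * π) *
        (π / (a ^ 2 * b ^ 2 / (b ^ 2 - a ^ 2) / 2)) = 1 := by field_simp
    rw [h1, Real.sqrt_one, one_mul]

theorem integral_norm_cek {a b : ℝ} (hb : 0 < b) (hab : b < a) (t : ℝ) :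
    Integrable (cek a b t) ∧ ∫ ξ : ℝ, ‖cek a b t ξ‖ = a / b := by
  have hD : 0 < a ^ 2 - b ^ 2 := by nlinarith
  have ha : 0 < a := hb.trans hab
  refine ⟨?_, ?_⟩
  · refine (integrable_norm_iff (supa_cont_cek a b t).aestronglyMeasurable).1 ?_
    simp_rw [supa_norm_cek hb hab]
    exact (integrable_exp_neg_mul_sq (by positivity)).const_mul _
  · simp_rw [supa_norm_cek hb hab]
    rw [integral_const_mul, integral_gaussian]
    have h2 : π / (1 / (2 * (a ^ 2 - b ^ 2))) = 2 * π * (a ^ 2 - b ^ 2) := by field_simp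
    have h3 : 0 < √(2 * π) := by positivity
    have h4 : 0 < √(a ^ 2 - b ^ 2) := by positivity
    rw [h2, Real.sqrt_mul (x := 2 * π) (by positivity)]
    field_simp

variable {ι : Type*} {c : ι → ℂ} {l : ι → ℝ} {σ : ℝ}

theorem supa_tsum {g : ι → ℝ} (hg : Summable g) {G : ι → ℝ → ℂ} {φ : ℝ → ℝ} (hφ : Integrable φ)
    (hm : ∀ n, AEStronglyMeasurable (G n)) (hb : ∀ n τ, ‖G n τ‖ ≤ φ τ * g n) :
    ∑' n, ∫ τ, G n τ = ∫ τ, ∑' n, G n τ := by
  have hcount : (Function.support g).Countable := hg.countable_support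
  have : Countable (Function.support g) := hcount.to_subtype
  have hz : ∀ n, n ∉ Function.support g → ∀ τ, G n τ = 0 := by
    intro n hn τ
    have h0 : g n = 0 := by simpa using hn
    have := hb n τ
    rw [h0, mul_zero] at this
    exact norm_le_zero_iff.1 this
  have hi : ∀ n, Integrable (G n) := fun n =>
    (hφ.mul_const (g n)).mono' (hm n) (Eventually.of_forall (hb n))
  have hs : Summable fun n : Function.support g => ∫ τ, ‖G n τ‖ := by
    refine Summable.of_nonneg_of_le (fun n => integral_nonneg fun τ => norm_nonneg _)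
      (fun n => ?_) ((hg.mul_left (∫ τ, φ τ)).subtype _)
    rw [Function.comp_apply, ← integral_mul_const]
    exact integral_mono (hi n).norm (hφ.mul_const _) (hb n)
  have h1 := (hasSum_integral_of_summable_integral_norm (F := fun n : Function.support g => G n)
    (fun n => hi n) hs).tsum_eq
  rw [← tsum_subtype_eq_of_support_subset (s := Function.support g), h1]
  · congr 1
    funext τ
    refine tsum_subtype_eq_of_support_subset (f := fun n => G n τ) fun n hn => ?_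
    by_contra hn'
    exact hn (hz n hn' τ)
  · intro n hn
    by_contra hn'
    apply hn
    simp [hz n hn']

theorem supa_superpose (h : Adm c l σ) {k : ℝ → ℂ} {φ : ℝ → ℝ} {F : ℝ → ℝ → ℂ} {G : ℝ → ℂ}
    (hφ : Integrable φ) (hk : AEStronglyMeasurable k) (hF : ∀ x, 0 < x → Continuous fun τ => F τ x)
    (hb : ∀ τ x, 0 < x → ‖k τ‖ * ‖F τ x‖ ≤ φ τ * x ^ (-σ))
    (hG : ∀ x, 0 < x → G x = ∫ τ, k τ * F τ x) :
    ∑' n, c n * G (l n) = ∫ τ, k τ * ∑' n, c n * F τ (l n) := by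
  have h1 := supa_tsum h.2 (G := fun n τ => c n * (k τ * F τ (l n))) hφ (fun n => ?_)
    (fun n τ => ?_)
  · have h2 : ∀ n, c n * G (l n) = ∫ τ, c n * (k τ * F τ (l n)) := by
      intro n
      rw [integral_const_mul]
      by_cases hn : c n = 0
      · rw [hn, zero_mul, zero_mul]
      · rw [hG _ (h.1 n hn)]
    simp_rw [h2]
    rw [h1]
    congr 1
    funext τ
    rw [← tsum_mul_left]
    congr 1
    funext n
    ring
  · by_cases hn : c n = 0
    · simp only [hn, zero_mul]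
      exact aestronglyMeasurable_const
    · exact (hk.mul (hF _ (h.1 n hn)).aestronglyMeasurable).const_mul _
  · by_cases hn : c n = 0
    · simp [hn]
    · rw [norm_mul, norm_mul, mul_left_comm (φ τ)]
      exact mul_le_mul_of_nonneg_left (hb τ _ (h.1 n hn)) (norm_nonneg _)

theorem Adm.SS_eq_twist (h : Adm c l σ) {a b Y Y₀ : ℝ} (ha : 0 < a) (hab : a < b) (hY : 0 < Y)
    (hY₀ : 0 < Y₀) (t : ℝ) :
    Integrable (fun τ : ℝ => twk a b (Real.log (Y / Y₀)) t τ * SS c l b Y₀ τ) ∧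
    SS c l a Y t = ∫ τ : ℝ, twk a b (Real.log (Y / Y₀)) t τ * SS c l b Y₀ τ := by
  have hb : 0 < b := ha.trans hab
  have hk := (integral_norm_twk ha hab (Real.log (Y / Y₀)) t).1
  have hc : Continuous fun τ : ℝ => SS c l b Y₀ τ := by
    have := (h.continuous_SS hb hY₀).comp (Continuous.prodMk_right (0 : ℝ))
    simpa [Function.comp_def] using this
  refine ⟨hk.mul_bdd hc.aestronglyMeasurable
    (Eventually.of_forall fun τ => h.norm_SS_le hb hY₀ τ), ?_⟩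
  refine supa_superpose h (φ := fun τ => ‖twk a b (Real.log (Y / Y₀)) t τ‖ *
    (Real.exp (b ^ 2 * σ ^ 2 / 2) * Y₀ ^ σ)) (F := fun τ x => LN b Y₀ τ x) (G := LN a Y t)
    (hk.norm.mul_const _) hk.1 (fun x hx => ?_) (fun τ x hx => ?_)
    (fun x hx => LN_eq_twist ha hab hY hY₀ hx t)
  · have := (continuous_LN hY₀ hx b).comp (Continuous.prodMk_right (0 : ℝ))
    simpa [Function.comp_def] using this
  · rw [mul_assoc]
    exact mul_le_mul_of_nonneg_left (norm_LN_le_rpow hb hY₀ hx τ σ) (norm_nonneg _)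

theorem Adm.SS_eq_centre (h : Adm c l σ) {a b Y : ℝ} (hb : 0 < b) (hab : b < a) (hY : 0 < Y)
    (t : ℝ) :
    Integrable (fun ξ : ℝ => cek a b t ξ * SS c l b (Y * Real.exp ξ) t) ∧
    SS c l a Y t = ∫ ξ : ℝ, cek a b t ξ * SS c l b (Y * Real.exp ξ) t := by
  have ha : 0 < a := hb.trans hab
  have hD : 0 < a ^ 2 - b ^ 2 := by nlinarith
  have hk := supa_cont_cek a b t
  have hφ : Integrable fun ξ : ℝ => ‖cek a b t ξ‖ *
      (Real.exp (b ^ 2 * σ ^ 2 / 2) * (Y * Real.exp ξ) ^ σ) := by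
    have h0 := (integrable_gauss_exp (c := 1 / (2 * (a ^ 2 - b ^ 2))) (by positivity) |σ| 0).const_mul
      (a / (√(2 * π) * b * √(a ^ 2 - b ^ 2)) * (Real.exp (b ^ 2 * σ ^ 2 / 2) * Y ^ σ))
    refine h0.mono' ?_ (Eventually.of_forall fun ξ => ?_)
    · refine (hk.norm.mul (continuous_const.mul ?_)).aestronglyMeasurable
      exact Continuous.rpow_const (by fun_prop) fun ξ => Or.inl (by positivity)
    · rw [Real.norm_of_nonneg (by positivity), supa_norm_cek hb hab, sub_zero,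
        Real.mul_rpow hY.le (Real.exp_pos _).le, ← Real.exp_mul]
      have h1 : Real.exp (ξ * σ) ≤ Real.exp (|σ| * |ξ|) := by
        rw [Real.exp_le_exp, mul_comm, ← abs_mul]
        exact le_abs_self _
      calc _ = a / (√(2 * π) * b * √(a ^ 2 - b ^ 2)) * (Real.exp (b ^ 2 * σ ^ 2 / 2) * Y ^ σ) *
            (Real.exp (-(1 / (2 * (a ^ 2 - b ^ 2))) * ξ ^ 2) * Real.exp (ξ * σ)) := by ring
        _ ≤ _ := by gcongr
  have hc : Continuous fun ξ : ℝ => SS c l b (Y * Real.exp ξ) t := by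
    have := (h.continuous_SS hb hY).comp (Continuous.prodMk_left t)
    simpa only [Function.comp_def] using this
  refine ⟨(hφ.mul_const (DA c l σ)).mono' (hk.mul hc).aestronglyMeasurable
    (Eventually.of_forall fun ξ => ?_), ?_⟩
  · rw [norm_mul, mul_assoc]
    exact mul_le_mul_of_nonneg_left (h.norm_SS_le hb (by positivity) t) (norm_nonneg _)
  · refine supa_superpose h (F := fun ξ x => LN b (Y * Real.exp ξ) t x) (G := LN a Y t) hφ
      hk.aestronglyMeasurable (fun x hx => ?_) (fun ξ x hx => ?_)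
      (fun x hx => LN_eq_centre hb hab hY hx t)
    · have := (continuous_LN hY hx b).comp (Continuous.prodMk_left t)
      simpa only [Function.comp_def] using this
    · rw [mul_assoc]
      exact mul_le_mul_of_nonneg_left (norm_LN_le_rpow hb (by positivity) hx t σ) (norm_nonneg _)

theorem sb_norm_twk (a b δ t τ : ℝ) :
    ‖twk a b δ t τ‖ = √(a ^ 2 * b ^ 2 / (b ^ 2 - a ^ 2)) / √(2 * π) *
      Real.exp (δ ^ 2 / (2 * (b ^ 2 - a ^ 2))) *
      Real.exp (-(a ^ 2 * b ^ 2 / (b ^ 2 - a ^ 2) / 2) * (τ - t) ^ 2) := by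
  unfold twk
  rw [norm_mul, Complex.norm_real, Complex.norm_exp, Real.norm_of_nonneg (by positivity)]
  simp only [neg_re, mul_re, I_re, I_im, ofReal_re, ofReal_im, zero_mul, mul_zero, sub_zero,
    neg_zero, Real.exp_zero, mul_one]

theorem sb_norm_cek {a b : ℝ} (hb : 0 < b) (hab : b < a) (t ξ : ℝ) :
    ‖cek a b t ξ‖ = a / (√(2 * π) * b * √(a ^ 2 - b ^ 2)) *
      Real.exp (-(1 / (2 * (a ^ 2 - b ^ 2))) * ξ ^ 2) := by
  have ha : 0 < a := hb.trans hab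
  unfold cek
  rw [norm_mul, Complex.norm_real, Complex.norm_exp, Real.norm_of_nonneg (by positivity)]
  have : -(ξ ^ 2 / (2 * (a ^ 2 - b ^ 2))) = -(1 / (2 * (a ^ 2 - b ^ 2))) * ξ ^ 2 := by ring
  rw [this]
  simp

theorem sb_cont_twist (h : Adm c l σ) {b Y : ℝ} (hb : 0 < b) (hY : 0 < Y) :
    Continuous fun τ : ℝ => SS c l b Y τ := by
  have := (h.continuous_SS hb hY).comp (Continuous.prodMk_right (0 : ℝ))
  simpa [Function.comp_def] using this

theorem sb_cont_centre (h : Adm c l σ) {b : ℝ} (hb : 0 < b) (t : ℝ) :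
    Continuous fun η : ℝ => SS c l b (Real.exp η) t := by
  have := (h.continuous_SS hb one_pos).comp (Continuous.prodMk_left t)
  simpa [Function.comp_def] using this

theorem sb_sq_le (h : Adm c l σ) {b : ℝ} (hb : 0 < b) {Y : ℝ} (hY : 0 < Y) (η t : ℝ) :
    ‖SS c l b (Real.exp η) t‖ ^ 2 ≤ Real.exp (b ^ 2 * σ ^ 2) * (Y ^ σ * DA c l σ) ^ 2 *
      Real.exp (2 * |σ| * |η - Real.log Y|) := by
  have h1 := h.norm_SS_le hb (Real.exp_pos η) t
  have hD := DA_nonneg h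
  have h2 : Real.exp η ^ σ = Y ^ σ * Real.exp (σ * (η - Real.log Y)) := by
    rw [← Real.exp_mul, Real.rpow_def_of_pos hY, ← Real.exp_add]
    congr 1; ring
  have h3 : Real.exp (σ * (η - Real.log Y)) ≤ Real.exp (|σ| * |η - Real.log Y|) := by
    rw [← abs_mul]; exact Real.exp_le_exp.mpr (le_abs_self _)
  have hYσ : 0 ≤ Y ^ σ := Real.rpow_nonneg hY.le σ
  have h4 : ‖SS c l b (Real.exp η) t‖ ≤ Real.exp (b ^ 2 * σ ^ 2 / 2) * (Y ^ σ * DA c l σ) *
      Real.exp (|σ| * |η - Real.log Y|) := by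
    refine h1.trans ?_
    rw [h2]
    have : 0 ≤ Real.exp (b ^ 2 * σ ^ 2 / 2) * (Y ^ σ * DA c l σ) := by positivity
    calc _ = Real.exp (b ^ 2 * σ ^ 2 / 2) * (Y ^ σ * DA c l σ) *
          Real.exp (σ * (η - Real.log Y)) := by ring
      _ ≤ _ := mul_le_mul_of_nonneg_left h3 this
  refine (pow_le_pow_left₀ (norm_nonneg _) h4 2).trans (le_of_eq ?_)
  rw [mul_pow, mul_pow, ← Real.exp_nat_mul, ← Real.exp_nat_mul]
  congr 2 <;> [congr 1; skip] <;> push_cast <;> ring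

theorem sb_integrable_gauss {e : ℝ} (he : 0 < e) (A L : ℝ) :
    Integrable fun η : ℝ => Real.exp (-e * (η - L) ^ 2 + A * |η - L|) := by
  have := (integrable_gauss_exp he A 0).comp_sub_right L
  simpa [Real.exp_add] using this

/-- squared twist form -/
theorem SS_sq_twist {a b : ℝ} (ha : 0 < a) (hab : a < b) : ∃ C e : ℝ, 0 < C ∧ 0 < e ∧
    ∀ {ι : Type} (c : ι → ℂ) (l : ι → ℝ) (σ Y Y₀ t : ℝ), Adm c l σ → 0 < Y → 0 < Y₀ →
      Integrable (fun τ : ℝ => Real.exp (-e * (τ - t) ^ 2) * ‖SS c l b Y₀ τ‖ ^ 2) ∧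
      ‖SS c l a Y t‖ ^ 2 ≤ C * Real.exp (Real.log (Y / Y₀) ^ 2 / (b ^ 2 - a ^ 2)) *
        ∫ τ : ℝ, Real.exp (-e * (τ - t) ^ 2) * ‖SS c l b Y₀ τ‖ ^ 2 := by
  have hD : 0 < b ^ 2 - a ^ 2 := by nlinarith
  have hb : 0 < b := ha.trans hab
  set E : ℝ := a ^ 2 * b ^ 2 / (b ^ 2 - a ^ 2) with hE
  have hE0 : 0 < E := by positivity
  refine ⟨√E / √(2 * π), E / 2, by positivity, by positivity, ?_⟩
  intro ι c l σ Y Y₀ t h hY hY₀
  have hcont := sb_cont_twist h hb hY₀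
  have hint : Integrable (fun τ : ℝ => Real.exp (-(E / 2) * (τ - t) ^ 2) *
      ‖SS c l b Y₀ τ‖ ^ 2) := by
    have h0 := (integrable_gauss_exp (c := E / 2) (by positivity) 0 t).mul_const
      ((Real.exp (b ^ 2 * σ ^ 2 / 2) * Y₀ ^ σ * DA c l σ) ^ 2)
    refine h0.mono' (by fun_prop) (Eventually.of_forall fun τ => ?_)
    rw [Real.norm_of_nonneg (by positivity)]
    simp only [zero_mul, Real.exp_zero, mul_one]
    exact mul_le_mul_of_nonneg_left
      (pow_le_pow_left₀ (norm_nonneg _) (h.norm_SS_le hb hY₀ τ) 2) (Real.exp_pos _).le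
  refine ⟨hint, ?_⟩
  set δ := Real.log (Y / Y₀) with hδ
  obtain ⟨hk, hk1⟩ := integral_norm_twk ha hab δ t
  have e1 : (fun τ : ℝ => ‖twk a b δ t τ‖ * ‖SS c l b Y₀ τ‖ ^ 2) = fun τ : ℝ =>
      (√E / √(2 * π) * Real.exp (δ ^ 2 / (2 * (b ^ 2 - a ^ 2)))) *
        (Real.exp (-(E / 2) * (τ - t) ^ 2) * ‖SS c l b Y₀ τ‖ ^ 2) := by
    funext τ; rw [sb_norm_twk]; ring
  have h2 := norm_integral_mul_sq_le hk hcont.aestronglyMeasurable (by
    rw [e1]; exact hint.const_mul _)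
  rw [← (h.SS_eq_twist ha hab hY hY₀ t).2, hk1, e1, integral_const_mul] at h2
  refine h2.trans (le_of_eq ?_)
  have e2 : Real.exp (δ ^ 2 / (b ^ 2 - a ^ 2)) = Real.exp (δ ^ 2 / (2 * (b ^ 2 - a ^ 2))) *
      Real.exp (δ ^ 2 / (2 * (b ^ 2 - a ^ 2))) := by
    rw [← Real.exp_add]; congr 1; field_simp; ring
  rw [e2]; ring

/-- squared centre form -/
theorem SS_sq_centre {a b : ℝ} (hb : 0 < b) (hab : b < a) : ∃ C e : ℝ, 0 < C ∧ 0 < e ∧
    ∀ {ι : Type} (c : ι → ℂ) (l : ι → ℝ) (σ Y t : ℝ), Adm c l σ → 0 < Y →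
      Integrable (fun η : ℝ =>
        Real.exp (-e * (η - Real.log Y) ^ 2) * ‖SS c l b (Real.exp η) t‖ ^ 2) ∧
      ‖SS c l a Y t‖ ^ 2 ≤
        C * ∫ η : ℝ, Real.exp (-e * (η - Real.log Y) ^ 2) * ‖SS c l b (Real.exp η) t‖ ^ 2 := by
  have hD : 0 < a ^ 2 - b ^ 2 := by nlinarith
  have ha : 0 < a := hb.trans hab
  set K : ℝ := a / (√(2 * π) * b * √(a ^ 2 - b ^ 2)) with hK
  set e : ℝ := 1 / (2 * (a ^ 2 - b ^ 2)) with he
  have hK0 : 0 < K := by positivity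
  have he0 : 0 < e := by positivity
  refine ⟨a / b * K, e, by positivity, he0, ?_⟩
  intro ι c l σ Y t h hY
  have hcont := sb_cont_centre h hb t
  have hint : Integrable (fun η : ℝ => Real.exp (-e * (η - Real.log Y) ^ 2) *
      ‖SS c l b (Real.exp η) t‖ ^ 2) := by
    have h0 := (sb_integrable_gauss he0 (2 * |σ|) (Real.log Y)).const_mul
      (Real.exp (b ^ 2 * σ ^ 2) * (Y ^ σ * DA c l σ) ^ 2)
    refine h0.mono' (by fun_prop) (Eventually.of_forall fun η => ?_)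
    rw [Real.norm_of_nonneg (by positivity), Real.exp_add]
    refine (mul_le_mul_of_nonneg_left (sb_sq_le h hb hY η t) (Real.exp_pos _).le).trans
      (le_of_eq ?_)
    ring
  refine ⟨hint, ?_⟩
  obtain ⟨hk, hk1⟩ := integral_norm_cek hb hab t
  have e0 : ∀ ξ : ℝ, Y * Real.exp ξ = Real.exp (ξ + Real.log Y) := fun ξ => by
    rw [Real.exp_add, Real.exp_log hY, mul_comm]
  have e1 : (fun ξ : ℝ => ‖cek a b t ξ‖ * ‖SS c l b (Y * Real.exp ξ) t‖ ^ 2) = fun ξ : ℝ =>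
      K * (Real.exp (-e * ((ξ + Real.log Y) - Real.log Y) ^ 2) *
        ‖SS c l b (Real.exp (ξ + Real.log Y)) t‖ ^ 2) := by
    funext ξ; rw [sb_norm_cek hb hab, e0, add_sub_cancel_right]; ring
  have hm : AEStronglyMeasurable (fun ξ : ℝ => SS c l b (Y * Real.exp ξ) t) volume := by
    simp_rw [e0]
    exact (hcont.comp (continuous_add_const (Real.log Y))).aestronglyMeasurable
  have h2 := norm_integral_mul_sq_le hk hm (by
    rw [e1]; exact (hint.comp_add_right (Real.log Y)).const_mul _)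
  rw [← (h.SS_eq_centre hb hab hY t).2, hk1, e1, integral_const_mul,
    integral_add_right_eq_self (fun η : ℝ => Real.exp (-e * (η - Real.log Y) ^ 2) *
      ‖SS c l b (Real.exp η) t‖ ^ 2) (Real.log Y)] at h2
  refine h2.trans (le_of_eq ?_)
  ring

/-- squared centre form, truncated to any window containing `log Y ± Δ` -/
theorem SS_sq_centre_trunc {a b : ℝ} (hb : 0 < b) (hab : b < a) (σ : ℝ) :
    ∃ C e : ℝ, 0 < C ∧ 0 < e ∧
    ∀ {ι : Type} (c : ι → ℂ) (l : ι → ℝ) (Y t Δ η₁ η₂ : ℝ), Adm c l σ → 0 < Y → 0 ≤ Δ →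
      η₁ ≤ Real.log Y - Δ → Real.log Y + Δ ≤ η₂ →
      ‖SS c l a Y t‖ ^ 2 ≤ C * (∫ η in η₁..η₂, ‖SS c l b (Real.exp η) t‖ ^ 2) +
        C * Real.exp (-e * Δ ^ 2) * (Y ^ σ * DA c l σ) ^ 2 := by
  obtain ⟨C₀, e₀, hC₀, he₀, H⟩ := SS_sq_centre hb hab
  obtain ⟨C₁, hC₁, H₁⟩ := gauss_tail he₀ (2 * |σ|)
  refine ⟨C₀ + C₀ * Real.exp (b ^ 2 * σ ^ 2) * C₁, e₀ / 4, by positivity, by positivity, ?_⟩
  intro ι c l Y t Δ η₁ η₂ h hY hΔ h1 h2
  obtain ⟨hint, hle⟩ := H c l σ Y t h hY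
  set L := Real.log Y with hL
  set G : ℝ → ℝ := fun η => ‖SS c l b (Real.exp η) t‖ ^ 2 with hG
  set B : ℝ := (Y ^ σ * DA c l σ) ^ 2 with hB
  have hB0 : 0 ≤ B := by positivity
  have hGc : Continuous G := (sb_cont_centre h hb t).norm.pow 2
  have hG0 : ∀ η, 0 ≤ G η := fun η => by positivity
  have h12 : η₁ ≤ η₂ := by linarith
  set S : Set ℝ := {y : ℝ | Δ ≤ |y - L|} with hS
  have hSm : MeasurableSet S := (isClosed_le continuous_const (by fun_prop)).measurableSet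
  set φ : ℝ → ℝ := fun y => Real.exp (-e₀ * (y - L) ^ 2 + 2 * |σ| * |y - L|) with hφ
  have hφi : Integrable φ := sb_integrable_gauss he₀ _ _
  have i1 : Integrable ((Ioc η₁ η₂).indicator G) :=
    (integrable_indicator_iff measurableSet_Ioc).mpr hGc.integrableOn_Ioc
  have i2 : Integrable (fun y => Real.exp (b ^ 2 * σ ^ 2) * B * S.indicator φ y) :=
    (hφi.indicator hSm).const_mul _
  have hpt : ∀ η, Real.exp (-e₀ * (η - L) ^ 2) * G η ≤
      (Ioc η₁ η₂).indicator G η + Real.exp (b ^ 2 * σ ^ 2) * B * S.indicator φ η := by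
    intro η
    have n1 : 0 ≤ (Ioc η₁ η₂).indicator G η := indicator_nonneg (fun y _ => hG0 y) η
    have n2 : 0 ≤ Real.exp (b ^ 2 * σ ^ 2) * B * S.indicator φ η :=
      mul_nonneg (by positivity) (indicator_nonneg (fun y _ => (Real.exp_pos _).le) η)
    by_cases hη : η ∈ S
    · rw [indicator_of_mem hη] at n2 ⊢
      have := mul_le_mul_of_nonneg_left (sb_sq_le h hb hY η t)
        (Real.exp_pos (-e₀ * (η - L) ^ 2)).le
      have e3 : Real.exp (-e₀ * (η - L) ^ 2) * (Real.exp (b ^ 2 * σ ^ 2) * B *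
          Real.exp (2 * |σ| * |η - L|)) = Real.exp (b ^ 2 * σ ^ 2) * B * φ η := by
        simp only [hφ, Real.exp_add]; ring
      rw [e3] at this
      linarith
    · have hlt : |η - L| < Δ := not_le.mp hη
      have hmem : η ∈ Ioc η₁ η₂ := by
        rw [abs_lt] at hlt
        exact ⟨by linarith [hlt.1], by linarith [hlt.2]⟩
      rw [indicator_of_mem hmem]
      have : Real.exp (-e₀ * (η - L) ^ 2) ≤ 1 :=
        Real.exp_le_one_iff.mpr (by nlinarith [sq_nonneg (η - L)])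
      have := mul_le_of_le_one_left (hG0 η) this
      linarith
  have h3 := integral_mono hint (i1.add i2) hpt
  rw [integral_add' i1 i2, integral_indicator measurableSet_Ioc, integral_const_mul,
    integral_indicator hSm, ← intervalIntegral.integral_of_le h12] at h3
  have h4 : ∫ y in S, φ y ≤ C₁ * Real.exp (-(e₀ / 4) * Δ ^ 2) := H₁ L Δ hΔ
  have h5 : 0 ≤ ∫ η in η₁..η₂, G η := intervalIntegral.integral_nonneg h12 fun η _ => hG0 η
  have h6 := mul_le_mul_of_nonneg_left h4 (by positivity : 0 ≤ Real.exp (b ^ 2 * σ ^ 2) * B)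
  have h7 := mul_le_mul_of_nonneg_left (h3.trans (add_le_add le_rfl h6)) hC₀.le
  refine (hle.trans h7).trans ?_
  have h8 : 0 ≤ C₀ * Real.exp (b ^ 2 * σ ^ 2) * C₁ * ∫ η in η₁..η₂, G η := by positivity
  have h9 : 0 ≤ C₀ * Real.exp (-(e₀ / 4) * Δ ^ 2) * B := by positivity
  nlinarith

/-- ROW form: row-dependent centres (within `e^{±D}` of `Y₀`) and twists (within `T` of `t₀`) are
replaced by a common centre and twist.  `g k ≥ 0` is any other factor. -/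
theorem sum_twist {a b m : ℝ} (ha : 0 < a) (hab : a < b) (hm : 0 ≤ m) (D : ℝ) : ∃ C : ℝ, 0 < C ∧
    ∀ {κ ι : Type} (A : Finset κ) (g : κ → ℝ) (c : κ → ι → ℂ) (l : κ → ι → ℝ) (σ Y t : κ → ℝ)
      (Y₀ t₀ T M : ℝ), 0 < Y₀ → 0 ≤ T →
      (∀ k ∈ A, 0 ≤ g k ∧ Adm (c k) (l k) (σ k) ∧ 0 < Y k ∧ |Real.log (Y k / Y₀)| ≤ D ∧
        |t k - t₀| ≤ T) →
      (∀ τ : ℝ, ∑ k ∈ A, g k * ‖SS (c k) (l k) b Y₀ τ‖ ^ 2 ≤ M * (1 + |τ|) ^ m) →
      ∑ k ∈ A, g k * ‖SS (c k) (l k) a (Y k) (t k)‖ ^ 2 ≤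
        C * (1 + T) * M * (1 + |t₀| + T) ^ m := by
  obtain ⟨C₁, e, hC₁, he, h₁⟩ := SS_sq_twist ha hab
  obtain ⟨C₂, hC₂, h₂⟩ := gauss_plateau he hm
  refine ⟨C₁ * Real.exp (D ^ 2 / (b ^ 2 - a ^ 2)) * C₂, by positivity, ?_⟩
  intro κ ι A g c l σ Y t Y₀ t₀ T M hY₀ hT hA hM
  have hba : 0 < b ^ 2 - a ^ 2 := by nlinarith
  have hM0 : 0 ≤ M := by
    have h0 := (Finset.sum_nonneg fun k hk => mul_nonneg (hA k hk).1 (sq_nonneg _)).trans (hM 0)
    simpa using h0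
  obtain ⟨hi, hp⟩ := h₂ t₀ T hT
  have hint : ∀ k ∈ A, Integrable fun τ : ℝ =>
      g k * (Real.exp (-e * (τ - t k) ^ 2) * ‖SS (c k) (l k) b Y₀ τ‖ ^ 2) := fun k hk =>
    (h₁ (c k) (l k) (σ k) (Y k) Y₀ (t k) (hA k hk).2.1 (hA k hk).2.2.1 hY₀).1.const_mul _
  calc ∑ k ∈ A, g k * ‖SS (c k) (l k) a (Y k) (t k)‖ ^ 2
      ≤ ∑ k ∈ A, C₁ * Real.exp (D ^ 2 / (b ^ 2 - a ^ 2)) * ∫ τ : ℝ,
          g k * (Real.exp (-e * (τ - t k) ^ 2) * ‖SS (c k) (l k) b Y₀ τ‖ ^ 2) := by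
        refine Finset.sum_le_sum fun k hk => ?_
        obtain ⟨hg, hc, hY, hD, -⟩ := hA k hk
        rw [integral_const_mul, mul_left_comm]
        refine mul_le_mul_of_nonneg_left ((h₁ (c k) (l k) (σ k) (Y k) Y₀ (t k) hc hY hY₀).2.trans
          (mul_le_mul_of_nonneg_right (mul_le_mul_of_nonneg_left (Real.exp_le_exp.2 ?_) hC₁.le)
            (integral_nonneg fun τ => by positivity))) hg
        exact div_le_div_of_nonneg_right (sq_le_sq' (abs_le.1 hD).1 (abs_le.1 hD).2) hba.le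
    _ = C₁ * Real.exp (D ^ 2 / (b ^ 2 - a ^ 2)) * ∫ τ : ℝ, ∑ k ∈ A,
          g k * (Real.exp (-e * (τ - t k) ^ 2) * ‖SS (c k) (l k) b Y₀ τ‖ ^ 2) := by
        rw [integral_finsetSum _ hint, Finset.mul_sum]
    _ ≤ C₁ * Real.exp (D ^ 2 / (b ^ 2 - a ^ 2)) * ∫ τ : ℝ,
          M * (Real.exp (-e * max (|τ - t₀| - T) 0 ^ 2) * (1 + |τ|) ^ m) := by
        refine mul_le_mul_of_nonneg_left (integral_mono (integrable_finsetSum _ hint)
          (hi.const_mul _) fun τ => ?_) (by positivity)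
        refine le_trans (Finset.sum_le_sum (g := fun k =>
          Real.exp (-e * max (|τ - t₀| - T) 0 ^ 2) * (g k * ‖SS (c k) (l k) b Y₀ τ‖ ^ 2))
          fun k hk => ?_) ?_
        · obtain ⟨hg, -, -, -, ht⟩ := hA k hk
          rw [mul_left_comm]
          refine mul_le_mul_of_nonneg_right (Real.exp_le_exp.2 ?_) (mul_nonneg hg (sq_nonneg _))
          have h3 : max (|τ - t₀| - T) 0 ≤ |τ - t k| :=
            max_le (by linarith [abs_sub_le τ (t k) t₀]) (abs_nonneg _)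
          have h4 := pow_le_pow_left₀ (le_max_right _ _) h3 2
          rw [sq_abs] at h4
          nlinarith
        · rw [← Finset.mul_sum, mul_left_comm]
          exact mul_le_mul_of_nonneg_left (hM τ) (Real.exp_pos _).le
    _ ≤ C₁ * Real.exp (D ^ 2 / (b ^ 2 - a ^ 2)) * (M * (C₂ * (1 + T) * (1 + |t₀| + T) ^ m)) := by
        rw [integral_const_mul]
        exact mul_le_mul_of_nonneg_left (mul_le_mul_of_nonneg_left hp hM0) (by positivity)
    _ = _ := by ring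

/-- ROW form for a product of `j` smooth sums (induction on `j` with `sum_twist`) -/
theorem sum_twist_prod {a b m : ℝ} (ha : 0 < a) (hab : a < b) (hm : 0 ≤ m) (D : ℝ) (j : ℕ) :
    ∃ C : ℝ, 0 < C ∧
    ∀ {κ ι : Type} (A : Finset κ) (g : κ → ℝ) (c : Fin j → κ → ι → ℂ) (l : Fin j → κ → ι → ℝ)
      (σ Y t : Fin j → κ → ℝ) (Y₀ t₀ : Fin j → ℝ) (T M : ℝ), (∀ i, 0 < Y₀ i) → 0 ≤ T →
      (∀ k ∈ A, 0 ≤ g k ∧ ∀ i, Adm (c i k) (l i k) (σ i k) ∧ 0 < Y i k ∧
        |Real.log (Y i k / Y₀ i)| ≤ D ∧ |t i k - t₀ i| ≤ T) →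
      (∀ τ : Fin j → ℝ, ∑ k ∈ A, g k * ‖∏ i, SS (c i k) (l i k) b (Y₀ i) (τ i)‖ ^ 2 ≤
        M * ∏ i, (1 + |τ i|) ^ m) →
      ∑ k ∈ A, g k * ‖∏ i, SS (c i k) (l i k) a (Y i k) (t i k)‖ ^ 2 ≤
        C * (1 + T) ^ j * M * ∏ i, (1 + |t₀ i| + T) ^ m := by
  induction j with
  | zero =>
    refine ⟨1, one_pos, fun A g c l σ Y t Y₀ t₀ T M _ _ _ hM => ?_⟩
    simpa using hM t₀
  | succ j ih =>
    obtain ⟨C₁, hC₁, h₁⟩ := sum_twist ha hab hm D
    obtain ⟨C₂, hC₂, h₂⟩ := ih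
    refine ⟨C₁ * C₂, mul_pos hC₁ hC₂, fun A g c l σ Y t Y₀ t₀ T M hY₀ hT hA hM => ?_⟩
    have h3 := h₁ A (fun k => g k * ‖∏ i : Fin j,
        SS (c i.succ k) (l i.succ k) a (Y i.succ k) (t i.succ k)‖ ^ 2) (c 0) (l 0) (σ 0) (Y 0) (t 0)
      (Y₀ 0) (t₀ 0) T (C₂ * (1 + T) ^ j * M * ∏ i : Fin j, (1 + |t₀ i.succ| + T) ^ m) (hY₀ 0) hT
      (fun k hk => ⟨mul_nonneg (hA k hk).1 (sq_nonneg _), (hA k hk).2 0⟩) fun τ₀ => by
        have h4 := h₂ A (fun k => g k * ‖SS (c 0 k) (l 0 k) b (Y₀ 0) τ₀‖ ^ 2)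
          (fun i => c i.succ) (fun i => l i.succ) (fun i => σ i.succ) (fun i => Y i.succ)
          (fun i => t i.succ) (fun i => Y₀ i.succ) (fun i => t₀ i.succ) T (M * (1 + |τ₀|) ^ m)
          (fun i => hY₀ _) hT
          (fun k hk => ⟨mul_nonneg (hA k hk).1 (sq_nonneg _), fun i => (hA k hk).2 _⟩) fun τ => by
            have h5 := hM (Fin.cons τ₀ τ)
            simp only [Fin.prod_univ_succ, Fin.cons_zero, Fin.cons_succ, norm_mul, mul_pow] at h5
            simpa only [mul_assoc] using h5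
        refine le_trans (le_of_eq (Finset.sum_congr rfl fun k _ => by ring))
          (h4.trans (le_of_eq (by ring)))
    simp only [Fin.prod_univ_succ, norm_mul, mul_pow]
    exact le_trans (le_of_eq (Finset.sum_congr rfl fun k _ => by ring))
      (h3.trans (le_of_eq (by ring)))

/-- ROW form of the centre superposition: centres anywhere in `[e^{η₁ + Δ}, e^{η₂ - Δ}]`. -/
theorem sum_centre {a b : ℝ} (hb : 0 < b) (hab : b < a) (σ : ℝ) : ∃ C e : ℝ, 0 < C ∧ 0 < e ∧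
    ∀ {κ ι : Type} (A : Finset κ) (g : κ → ℝ) (c : κ → ι → ℂ) (l : κ → ι → ℝ) (Y t : κ → ℝ)
      (Δ η₁ η₂ M : ℝ), 0 ≤ Δ → η₁ ≤ η₂ →
      (∀ k ∈ A, 0 ≤ g k ∧ Adm (c k) (l k) σ ∧ 0 < Y k ∧ η₁ ≤ Real.log (Y k) - Δ ∧
        Real.log (Y k) + Δ ≤ η₂) →
      (∀ η : ℝ, η₁ ≤ η → η ≤ η₂ →
        ∑ k ∈ A, g k * ‖SS (c k) (l k) b (Real.exp η) (t k)‖ ^ 2 ≤ M) →
      ∑ k ∈ A, g k * ‖SS (c k) (l k) a (Y k) (t k)‖ ^ 2 ≤ C * (η₂ - η₁) * M +
        C * Real.exp (-e * Δ ^ 2) * ∑ k ∈ A, g k * (Y k ^ σ * DA (c k) (l k) σ) ^ 2 := by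
  obtain ⟨C, e, hC, he, h₁⟩ := SS_sq_centre_trunc hb hab σ
  refine ⟨C, e, hC, he, fun A g c l Y t Δ η₁ η₂ M hΔ hη hA hM => ?_⟩
  have hcont : ∀ k ∈ A, Continuous fun η : ℝ =>
      g k * ‖SS (c k) (l k) b (Real.exp η) (t k)‖ ^ 2 := fun k hk => by
    have h2 := ((hA k hk).2.1.continuous_SS hb one_pos).comp
      (continuous_id.prodMk (continuous_const (y := t k)))
    have h3 : Continuous fun η : ℝ => SS (c k) (l k) b (Real.exp η) (t k) := by
      simpa only [Function.comp_def, one_mul, id] using h2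
    exact continuous_const.mul (h3.norm.pow 2)
  calc ∑ k ∈ A, g k * ‖SS (c k) (l k) a (Y k) (t k)‖ ^ 2
      ≤ ∑ k ∈ A, (C * (∫ η in η₁..η₂, g k * ‖SS (c k) (l k) b (Real.exp η) (t k)‖ ^ 2) +
          C * Real.exp (-e * Δ ^ 2) * (g k * (Y k ^ σ * DA (c k) (l k) σ) ^ 2)) := by
        refine Finset.sum_le_sum fun k hk => ?_
        obtain ⟨hg, hc, hY, h2, h3⟩ := hA k hk
        rw [intervalIntegral.integral_const_mul]
        exact (mul_le_mul_of_nonneg_left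
          (h₁ (c k) (l k) (Y k) (t k) Δ η₁ η₂ hc hY hΔ h2 h3) hg).trans (le_of_eq (by ring))
    _ = C * (∫ η in η₁..η₂, ∑ k ∈ A, g k * ‖SS (c k) (l k) b (Real.exp η) (t k)‖ ^ 2) +
          C * Real.exp (-e * Δ ^ 2) * ∑ k ∈ A, g k * (Y k ^ σ * DA (c k) (l k) σ) ^ 2 := by
        rw [Finset.sum_add_distrib, ← Finset.mul_sum, ← Finset.mul_sum,
          intervalIntegral.integral_finsetSum fun k hk => (hcont k hk).intervalIntegrable _ _]
    _ ≤ _ := by
        have h2 := intervalIntegral.integral_mono_on hη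
          ((continuous_finsetSum A hcont).intervalIntegrable (μ := volume) _ _)
          (intervalIntegrable_const (c := M)) fun η hη => hM η hη.1 hη.2
        rw [intervalIntegral.integral_const, smul_eq_mul] at h2
        rw [mul_assoc C (η₂ - η₁)]
        exact add_le_add (mul_le_mul_of_nonneg_left h2 hC.le) le_rfl

end Crest.Agent.R17
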