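import Crest.Agent.R17.B.Gauss
import Crest.Agent.R17.B.LN
import Crest.Agent.R17.B.Line
import Crest.Agent.R17.B.Gamma
import Crest.Agent.R17.B.Sum
import Crest.Agent.R17.B.SumO
import Crest.Agent.R17.B.Super
import Crest.Agent.R17.B.Reflect
import Crest.Agent.R17.B.Log
import Crest.Agent.R17.B.Newton
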