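import Crest.Agent.R17.Iface

/-!
Row 17, block B (analysis API; owner helper70): definitions.  Import `Crest.Agent.R17.B.All`.
`VI σ F = (1/2πi) ∫_{Re s = σ} F`, `SS c l a Y t = ∑ c n · LN a Y t (l n)` (general smooth sum:
`PS`, `MS`, `PP` are instances), `DD c l s = ∑ c n · (l n)^{-s}`.
-/

set_option autoImplicit false

namespace Crest.Agent.R17

open Complex MeasureTheory Filter Set
open scoped Real Topology ComplexConjugate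

/-- `(1 / 2πi) ∫_{Re s = σ} F(s) ds` -/
noncomputable def VI (σ : ℝ) (F : ℂ → ℂ) : ℂ :=
  ((1 / (2 * π) : ℝ) : ℂ) * ∫ y : ℝ, F (σ + y * I)

/-- the truncated line integral, heights from `T₁` to `T₂` -/
noncomputable def VT (σ T₁ T₂ : ℝ) (F : ℂ → ℂ) : ℂ :=
  ((1 / (2 * π) : ℝ) : ℂ) * ∫ y in T₁..T₂, F (σ + y * I)

/-- `F` is integrable on the line `Re s = σ` -/
def VInt (σ : ℝ) (F : ℂ → ℂ) : Prop := Integrable fun y : ℝ => F (σ + y * I)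

/-- closed vertical strip -/
def strip (σ₁ σ₂ : ℝ) : Set ℂ := {s | σ₁ ≤ s.re ∧ s.re ≤ σ₂}

/-- closed rectangle of heights `|Im s - t₀| ≤ T` -/
def rect (σ₁ σ₂ t₀ T : ℝ) : Set ℂ := {s | σ₁ ≤ s.re ∧ s.re ≤ σ₂ ∧ |s.im - t₀| ≤ T}

/-- at most exponential growth on a closed strip -/
def ExpOn (σ₁ σ₂ : ℝ) (F : ℂ → ℂ) : Prop :=
  ∃ C A : ℝ, ∀ s ∈ strip σ₁ σ₂, ‖F s‖ ≤ C * Real.exp (A * |s.im|)

/-- holomorphic on `Re s > σ₀` with polynomial growth on closed strips -/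
def PolyOn (σ₀ : ℝ) (R : ℂ → ℂ) : Prop :=
  DifferentiableOn ℂ R {s | σ₀ < s.re} ∧
    ∀ σ₁ σ₂ : ℝ, σ₀ < σ₁ → ∃ C A : ℝ, 0 ≤ C ∧ 0 ≤ A ∧
      ∀ s ∈ strip σ₁ σ₂, ‖R s‖ ≤ C * (1 + |s.im|) ^ A

/-- general smooth sum -/
noncomputable def SS {ι : Type*} (c : ι → ℂ) (l : ι → ℝ) (a Y t : ℝ) : ℂ :=
  ∑' n, c n * LN a Y t (l n)

/-- general Dirichlet series -/
noncomputable def DD {ι : Type*} (c : ι → ℂ) (l : ι → ℝ) (s : ℂ) : ℂ :=
  ∑' n, c n * (l n : ℂ) ^ (-s)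

/-- the absolute series on `Re s = σ` -/
noncomputable def DA {ι : Type*} (c : ι → ℂ) (l : ι → ℝ) (σ : ℝ) : ℝ :=
  ∑' n, ‖c n‖ * l n ^ (-σ)

/-- the Dirichlet series converges absolutely on `Re s = σ` -/
def Adm {ι : Type*} (c : ι → ℂ) (l : ι → ℝ) (σ : ℝ) : Prop :=
  (∀ n, c n ≠ 0 → 0 < l n) ∧ Summable fun n => ‖c n‖ * l n ^ (-σ)

/-- Gamma factor of the Hecke `L`-functions -/
noncomputable def gK (s : ℂ) : ℂ := ((2 * π / √3 : ℝ) : ℂ) ^ (-s) * Gamma s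

/-- `gK s / gK (1 - s)` -/
noncomputable def RK (s : ℂ) : ℂ := gK s * (gK (1 - s))⁻¹

/-- `gth s / gth (1 - s)` -/
noncomputable def Rth (s : ℂ) : ℂ := gth s * (gth (1 - s))⁻¹

/-- the reflection kernel: for `0 < b < a`, the transform of `LN a · t` with Gamma ratio `R` is
`∫ rk a b R t η · LN b (e^η) (-t) dη`.  It does not depend on the coefficients. -/
noncomputable def rk (a b : ℝ) (R : ℂ → ℂ) (t η : ℝ) : ℂ :=
  ((a * Real.exp (a ^ 2 / 2) / (√(2 * π) * b * √(a ^ 2 - b ^ 2)) : ℝ) : ℂ) *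
    VI 1 fun s => LNt (√(a ^ 2 - b ^ 2)) (s - I * t) * cexp (-(a : ℂ) ^ 2 * (s - I * t)) * R s *
      cexp (-(η : ℂ) * s)

theorem PS_eq_SS (ψ : O → ℂ) (a Y t : ℝ) :
    PS ψ a Y t = SS (fun n : Pr => ψ n) (fun n => nm n) a Y t := rfl

theorem MS_eq_SS (ψ : O → ℂ) (a Y t : ℝ) :
    MS ψ a Y t = SS (fun n : Pr => mu n * ψ n) (fun n => nm n) a Y t := rfl

open Classical in
theorem PP_eq_SS (ψ : O → ℂ) (a Y t : ℝ) :
    PP ψ a Y t = SS (fun n : Pr => if Prime (n : O) then ψ n else 0) (fun n => nm n) a Y t := by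
  simp only [PP, SS, ite_mul, zero_mul]

theorem DS_eq_DD (ψ : O → ℂ) (s : ℂ) : DS ψ s = DD (fun n : Pr => ψ n) (fun n => nm n) s := rfl

end Crest.Agent.R17
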