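import Crest.Agent.R17.B.Defs

/-! Row 17, block B: Gaussian integrals, elementary bounds, Cauchy–Schwarz for integrals. -/

set_option autoImplicit false

namespace Crest.Agent.R17

open Complex MeasureTheory Filter Set
open scoped Real Topology ComplexConjugate

theorem one_add_abs_rpow_le_exp {A : ℝ} (hA : 0 ≤ A) (y : ℝ) :
    (1 + |y|) ^ A ≤ Real.exp (A * |y|) := by
  rw [mul_comm, Real.exp_mul]
  refine Real.rpow_le_rpow (by positivity) ?_ hA
  rw [add_comm]
  exact Real.add_one_le_exp _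

theorem one_add_abs_add_rpow_le {A : ℝ} (hA : 0 ≤ A) (x y : ℝ) :
    (1 + |x + y|) ^ A ≤ (1 + |x|) ^ A * (1 + |y|) ^ A := by
  rw [← Real.mul_rpow (by positivity) (by positivity)]
  refine Real.rpow_le_rpow (by positivity) ?_ hA
  nlinarith [abs_add_le x y, abs_nonneg x, abs_nonneg y, mul_nonneg (abs_nonneg x) (abs_nonneg y)]

/-- `-c u² + A|u| ≤ A²/(2c) - c u²/2` -/
theorem gauss_absorb {c : ℝ} (hc : 0 < c) (A u : ℝ) :
    Real.exp (-c * u ^ 2 + A * |u|) ≤ Real.exp (A ^ 2 / (2 * c)) * Real.exp (-(c / 2) * u ^ 2) := by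
  rw [← Real.exp_add]
  refine Real.exp_le_exp.2 ?_
  have h1 : 0 ≤ (c * |u| - A) ^ 2 / (2 * c) := by positivity
  have h2 : (c * |u| - A) ^ 2 / (2 * c) = c / 2 * |u| ^ 2 - A * |u| + A ^ 2 / (2 * c) := by
    field_simp
    ring
  rw [h2, sq_abs] at h1
  linarith

theorem integrable_gauss_exp {c : ℝ} (hc : 0 < c) (A t₀ : ℝ) :
    Integrable fun y : ℝ => Real.exp (-c * (y - t₀) ^ 2) * Real.exp (A * |y|) := by
  have h1 : Integrable fun y : ℝ => Real.exp (-(c / 2) * (y - t₀) ^ 2) :=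
    (integrable_exp_neg_mul_sq (half_pos hc)).comp_sub_right t₀
  refine (h1.const_mul (Real.exp (|A| * |t₀|) * Real.exp (|A| ^ 2 / (2 * c)))).mono'
    (by fun_prop) (Eventually.of_forall fun y => ?_)
  rw [Real.norm_of_nonneg (by positivity), mul_assoc]
  refine le_trans ?_ (mul_le_mul_of_nonneg_left (gauss_absorb hc |A| (y - t₀)) (by positivity))
  rw [← Real.exp_add, ← Real.exp_add]
  refine Real.exp_le_exp.2 ?_
  have h2 : |y| ≤ |t₀| + |y - t₀| := by
    have := abs_add_le t₀ (y - t₀)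
    rwa [add_sub_cancel] at this
  have h3 : A * |y| ≤ |A| * (|t₀| + |y - t₀|) :=
    (mul_le_mul_of_nonneg_right (le_abs_self A) (abs_nonneg y)).trans
      (mul_le_mul_of_nonneg_left h2 (abs_nonneg A))
  linarith

theorem integrable_gauss_poly {c A : ℝ} (hc : 0 < c) (hA : 0 ≤ A) (t₀ : ℝ) :
    Integrable fun y : ℝ => Real.exp (-c * (y - t₀) ^ 2) * (1 + |y|) ^ A := by
  refine (integrable_gauss_exp hc A t₀).mono' ?_ (Eventually.of_forall fun y => ?_)
  · refine Continuous.aestronglyMeasurable (Continuous.mul (by fun_prop) ?_)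
    exact Continuous.rpow_const (by fun_prop) fun y => Or.inr hA
  · rw [Real.norm_of_nonneg (by positivity)]
    exact mul_le_mul_of_nonneg_left (one_add_abs_rpow_le_exp hA y) (by positivity)

theorem gauss_poly {c A : ℝ} (hc : 0 < c) (hA : 0 ≤ A) : ∃ C : ℝ, 0 < C ∧ ∀ t₀ : ℝ,
    ∫ y : ℝ, Real.exp (-c * (y - t₀) ^ 2) * (1 + |y|) ^ A ≤ C * (1 + |t₀|) ^ A := by
  have h0 := integrable_gauss_poly hc hA 0
  simp only [sub_zero] at h0
  have hI : 0 ≤ ∫ u : ℝ, Real.exp (-c * u ^ 2) * (1 + |u|) ^ A :=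
    integral_nonneg fun u => by positivity
  refine ⟨(∫ u : ℝ, Real.exp (-c * u ^ 2) * (1 + |u|) ^ A) + 1, by linarith, fun t₀ => ?_⟩
  have h1 : ∫ y : ℝ, Real.exp (-c * (y - t₀) ^ 2) * (1 + |y|) ^ A ≤
      ∫ y : ℝ, Real.exp (-c * (y - t₀) ^ 2) * (1 + |y - t₀|) ^ A * (1 + |t₀|) ^ A := by
    refine integral_mono (integrable_gauss_poly hc hA t₀)
      ((h0.comp_sub_right t₀).mul_const _) fun y => ?_
    have := one_add_abs_add_rpow_le hA (y - t₀) t₀
    rw [sub_add_cancel] at this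
    simp only [mul_assoc]
    exact mul_le_mul_of_nonneg_left this (by positivity)
  rw [integral_mul_const, integral_sub_right_eq_self
    (fun u : ℝ => Real.exp (-c * u ^ 2) * (1 + |u|) ^ A) t₀] at h1
  refine h1.trans (mul_le_mul_of_nonneg_right (by linarith) (by positivity))

/-- plateau version: weight `exp (-c dist(y, [t₀ - T, t₀ + T])²)` -/
theorem gauss_plateau {c A : ℝ} (hc : 0 < c) (hA : 0 ≤ A) : ∃ C : ℝ, 0 < C ∧ ∀ t₀ T : ℝ, 0 ≤ T →
    Integrable (fun y : ℝ => Real.exp (-c * max (|y - t₀| - T) 0 ^ 2) * (1 + |y|) ^ A) ∧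
    ∫ y : ℝ, Real.exp (-c * max (|y - t₀| - T) 0 ^ 2) * (1 + |y|) ^ A ≤
      C * (1 + T) * (1 + |t₀| + T) ^ A := by
  set I₀ : ℝ := ∫ u : ℝ, Real.exp (-(c / 2) * u ^ 2) with hI₀
  have hI : 0 ≤ I₀ := integral_nonneg fun u => by positivity
  set K : ℝ := Real.exp (A ^ 2 / (2 * c)) with hK
  have hK0 : 0 < K := Real.exp_pos _
  refine ⟨K * (2 + 2 * I₀), by positivity, fun t₀ T hT => ?_⟩
  have hg := integrable_exp_neg_mul_sq (half_pos hc)
  let φ : ℝ → ℝ := fun y => (Icc (t₀ - T) (t₀ + T)).indicator (fun _ => (1 : ℝ)) y +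
    Real.exp (-(c / 2) * (y - (t₀ + T)) ^ 2) + Real.exp (-(c / 2) * (y - (t₀ - T)) ^ 2)
  have i1 : Integrable ((Icc (t₀ - T) (t₀ + T)).indicator (fun _ => (1 : ℝ))) :=
    (integrableOn_const (by simp)).integrable_indicator measurableSet_Icc
  have i2 : Integrable fun y : ℝ => Real.exp (-(c / 2) * (y - (t₀ + T)) ^ 2) :=
    hg.comp_sub_right _
  have i3 : Integrable fun y : ℝ => Real.exp (-(c / 2) * (y - (t₀ - T)) ^ 2) :=
    hg.comp_sub_right _
  have hφ : Integrable φ := (i1.add i2).add i3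
  have hφI : ∫ y, φ y = 2 * T + I₀ + I₀ := by
    have i4 : Integrable fun y : ℝ => (Icc (t₀ - T) (t₀ + T)).indicator (fun _ => (1 : ℝ)) y +
      Real.exp (-(c / 2) * (y - (t₀ + T)) ^ 2) := i1.add i2
    simp only [φ]
    rw [integral_add i4 i3, integral_add i1 i2,
      integral_sub_right_eq_self (fun u : ℝ => Real.exp (-(c / 2) * u ^ 2)),
      integral_sub_right_eq_self (fun u : ℝ => Real.exp (-(c / 2) * u ^ 2)),
      integral_indicator measurableSet_Icc, setIntegral_const, Real.volume_real_Icc,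
      max_eq_left (by linarith), smul_eq_mul]
    ring
  have hb : ∀ y : ℝ, Real.exp (-c * max (|y - t₀| - T) 0 ^ 2) * (1 + |y|) ^ A ≤
      K * (1 + |t₀| + T) ^ A * φ y := by
    intro y
    set m : ℝ := max (|y - t₀| - T) 0 with hm
    have hm0 : 0 ≤ m := le_max_right _ _
    have h1 : (1 + |y|) ^ A ≤ (1 + |t₀| + T) ^ A * Real.exp (A * |m|) := by
      refine le_trans ?_ (mul_le_mul_of_nonneg_left (one_add_abs_rpow_le_exp hA m) (by positivity))
      rw [← Real.mul_rpow (by positivity) (by positivity), abs_of_nonneg hm0]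
      refine Real.rpow_le_rpow (by positivity) ?_ hA
      have h2 : |y| ≤ |t₀| + |y - t₀| := by
        have := abs_add_le t₀ (y - t₀)
        rwa [add_sub_cancel] at this
      have h3 : |y - t₀| - T ≤ m := le_max_left _ _
      nlinarith [abs_nonneg t₀, mul_nonneg (add_nonneg (abs_nonneg t₀) hT) hm0]
    have h2 : Real.exp (-(c / 2) * m ^ 2) ≤ φ y := by
      have p1 : 0 ≤ (Icc (t₀ - T) (t₀ + T)).indicator (fun _ => (1 : ℝ)) y :=
        indicator_nonneg (fun _ _ => zero_le_one) _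
      have p2 := (Real.exp_pos (-(c / 2) * (y - (t₀ + T)) ^ 2)).le
      have p3 := (Real.exp_pos (-(c / 2) * (y - (t₀ - T)) ^ 2)).le
      by_cases hy : |y - t₀| ≤ T
      · have : y ∈ Icc (t₀ - T) (t₀ + T) := by
          rw [abs_le] at hy
          constructor <;> linarith [hy.1, hy.2]
        have e1 : m = 0 := max_eq_right (by linarith)
        simp only [φ, indicator_of_mem this] at p1 ⊢
        rw [e1]
        simp only [ne_eq, OfNat.ofNat_ne_zero, not_false_eq_true, zero_pow, mul_zero, Real.exp_zero]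
        linarith
      · have e1 : m = |y - t₀| - T := max_eq_left (by linarith [not_le.1 hy])
        rcases le_total 0 (y - t₀) with h | h
        · have : m ^ 2 = (y - (t₀ + T)) ^ 2 := by rw [e1, abs_of_nonneg h]; ring
          rw [this]
          simp only [φ]
          linarith
        · have : m ^ 2 = (y - (t₀ - T)) ^ 2 := by rw [e1, abs_of_nonpos h]; ring
          rw [this]
          simp only [φ]
          linarith
    calc Real.exp (-c * m ^ 2) * (1 + |y|) ^ A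
        ≤ Real.exp (-c * m ^ 2) * ((1 + |t₀| + T) ^ A * Real.exp (A * |m|)) :=
          mul_le_mul_of_nonneg_left h1 (by positivity)
      _ = (1 + |t₀| + T) ^ A * Real.exp (-c * m ^ 2 + A * |m|) := by rw [Real.exp_add]; ring
      _ ≤ (1 + |t₀| + T) ^ A * (K * Real.exp (-(c / 2) * m ^ 2)) :=
          mul_le_mul_of_nonneg_left (gauss_absorb hc A m) (by positivity)
      _ ≤ (1 + |t₀| + T) ^ A * (K * φ y) :=
          mul_le_mul_of_nonneg_left (mul_le_mul_of_nonneg_left h2 hK0.le) (by positivity)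
      _ = _ := by ring
  have hint : Integrable
      (fun y : ℝ => Real.exp (-c * max (|y - t₀| - T) 0 ^ 2) * (1 + |y|) ^ A) := by
    refine (hφ.const_mul (K * (1 + |t₀| + T) ^ A)).mono' ?_ (Eventually.of_forall fun y => ?_)
    · refine Continuous.aestronglyMeasurable (Continuous.mul (by fun_prop) ?_)
      exact Continuous.rpow_const (by fun_prop) fun y => Or.inr hA
    · rw [Real.norm_of_nonneg (by positivity)]
      exact hb y
  refine ⟨hint, (integral_mono hint (hφ.const_mul _) hb).trans ?_⟩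
  rw [integral_const_mul, hφI]
  have h3 : 2 * T + I₀ + I₀ ≤ (2 + 2 * I₀) * (1 + T) := by nlinarith [mul_nonneg hI hT]
  calc K * (1 + |t₀| + T) ^ A * (2 * T + I₀ + I₀)
      ≤ K * (1 + |t₀| + T) ^ A * ((2 + 2 * I₀) * (1 + T)) :=
        mul_le_mul_of_nonneg_left h3 (by positivity)
    _ = _ := by ring

theorem gauss_tail {c : ℝ} (hc : 0 < c) (A : ℝ) : ∃ C : ℝ, 0 < C ∧ ∀ t₀ T : ℝ, 0 ≤ T →
    ∫ y in {y : ℝ | T ≤ |y - t₀|}, Real.exp (-c * (y - t₀) ^ 2 + A * |y - t₀|) ≤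
      C * Real.exp (-(c / 4) * T ^ 2) := by
  set I₀ : ℝ := ∫ u : ℝ, Real.exp (-(c / 4) * u ^ 2) with hI₀
  have hI : 0 ≤ I₀ := integral_nonneg fun u => by positivity
  set K : ℝ := Real.exp (A ^ 2 / (2 * c)) with hK
  have hK0 : 0 < K := Real.exp_pos _
  refine ⟨K * (I₀ + 1), by positivity, fun t₀ T hT => ?_⟩
  have hg : Integrable fun y : ℝ => Real.exp (-(c / 4) * (y - t₀) ^ 2) :=
    (integrable_exp_neg_mul_sq (by positivity : 0 < c / 4)).comp_sub_right _
  have hm : MeasurableSet {y : ℝ | T ≤ |y - t₀|} :=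
    measurableSet_le measurable_const (by fun_prop)
  have h1 : ∫ y in {y : ℝ | T ≤ |y - t₀|}, Real.exp (-c * (y - t₀) ^ 2 + A * |y - t₀|) ≤
      ∫ y in {y : ℝ | T ≤ |y - t₀|},
        K * Real.exp (-(c / 4) * T ^ 2) * Real.exp (-(c / 4) * (y - t₀) ^ 2) := by
    refine integral_mono_of_nonneg (Eventually.of_forall fun y => (Real.exp_pos _).le)
      (hg.const_mul _).integrableOn ?_
    refine (ae_restrict_mem hm).mono fun y hy => (gauss_absorb hc A (y - t₀)).trans ?_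
    beta_reduce
    rw [mul_assoc, ← Real.exp_add (-(c / 4) * T ^ 2)]
    refine mul_le_mul_of_nonneg_left (Real.exp_le_exp.2 ?_) hK0.le
    have h2 : T ^ 2 ≤ (y - t₀) ^ 2 := by
      rw [← sq_abs (y - t₀)]
      exact pow_le_pow_left₀ hT hy 2
    nlinarith
  refine h1.trans ((setIntegral_le_integral (hg.const_mul _)
    (Eventually.of_forall fun y => by positivity)).trans ?_)
  rw [integral_const_mul, integral_sub_right_eq_self (fun u : ℝ => Real.exp (-(c / 4) * u ^ 2))]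
  have := (Real.exp_pos (-(c / 4) * T ^ 2)).le
  nlinarith [mul_nonneg hK0.le this]

/-- `exp (-c log² Z)` is negligible -/
theorem exp_neg_log_sq_le {c : ℝ} (hc : 0 < c) (A : ℝ) : ∃ C : ℝ, 0 < C ∧ ∀ Z : ℝ, 0 < Z →
    Real.exp (-c * Real.log Z ^ 2) ≤ C * Z ^ (-A) := by
  refine ⟨Real.exp (A ^ 2 / (4 * c)), Real.exp_pos _, fun Z hZ => ?_⟩
  rw [Real.rpow_def_of_pos hZ, ← Real.exp_add]
  refine Real.exp_le_exp.2 ?_
  have h1 : 0 ≤ (2 * c * Real.log Z - A) ^ 2 / (4 * c) := by positivity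
  have h2 : (2 * c * Real.log Z - A) ^ 2 / (4 * c) =
      c * Real.log Z ^ 2 - A * Real.log Z + A ^ 2 / (4 * c) := by
    field_simp
    ring
  rw [h2] at h1
  linarith

theorem one_add_log_rpow_le (A : ℝ) {ε : ℝ} (hε : 0 < ε) : ∃ C : ℝ, 0 < C ∧ ∀ Z : ℝ, 1 ≤ Z →
    (1 + Real.log Z) ^ A ≤ C * Z ^ ε := by
  set B : ℝ := max A 1 with hB
  have hB0 : 0 < B := lt_of_lt_of_le one_pos (le_max_right _ _)
  set δ : ℝ := min (ε / B) 1 with hδ
  have hδ0 : 0 < δ := lt_min (by positivity) one_pos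
  have hδ1 : δ ≤ 1 := min_le_right _ _
  have hδ2 : δ * B ≤ ε := (le_div_iff₀ hB0).1 (min_le_left _ _)
  refine ⟨δ⁻¹ ^ B, by positivity, fun Z hZ => ?_⟩
  have hL : 0 ≤ Real.log Z := Real.log_nonneg hZ
  have h1 : 1 + Real.log Z ≤ δ⁻¹ * Real.exp (δ * Real.log Z) := by
    rw [le_inv_mul_iff₀ hδ0]
    have := Real.add_one_le_exp (δ * Real.log Z)
    nlinarith
  calc (1 + Real.log Z) ^ A ≤ (1 + Real.log Z) ^ B :=
        Real.rpow_le_rpow_of_exponent_le (by linarith) (le_max_left _ _)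
    _ ≤ (δ⁻¹ * Real.exp (δ * Real.log Z)) ^ B := Real.rpow_le_rpow (by linarith) h1 hB0.le
    _ = δ⁻¹ ^ B * Real.exp (δ * Real.log Z * B) := by
        rw [Real.mul_rpow (by positivity) (by positivity), ← Real.exp_mul]
    _ ≤ δ⁻¹ ^ B * Z ^ ε := by
        rw [Real.rpow_def_of_pos (by linarith : 0 < Z)]
        refine mul_le_mul_of_nonneg_left (Real.exp_le_exp.2 ?_) (by positivity)
        nlinarith

theorem gb_cs {α : Type*} [MeasurableSpace α] {μ : Measure α} {k F : α → ℂ}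
    {φ : α → ℝ} (hF : AEStronglyMeasurable F μ)
    (hφ : ∀ y, ‖k y‖ ≤ φ y) (h1 : Integrable φ μ)
    (h2 : Integrable (fun y => φ y * ‖F y‖ ^ 2) μ) :
    ‖∫ y, k y * F y ∂μ‖ ^ 2 ≤ (∫ y, φ y ∂μ) * ∫ y, φ y * ‖F y‖ ^ 2 ∂μ := by
  have h0 : ∀ y, 0 ≤ φ y := fun y => (norm_nonneg _).trans (hφ y)
  have h3 : Integrable (fun y => φ y * ‖F y‖) μ := by
    refine (h1.add h2).mono' (h1.aestronglyMeasurable.mul hF.norm) (Eventually.of_forall fun y => ?_)
    rw [Real.norm_of_nonneg (mul_nonneg (h0 y) (norm_nonneg _))]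
    have := h0 y
    have := norm_nonneg (F y)
    simp only [Pi.add_apply]
    nlinarith [mul_nonneg (h0 y) (sq_nonneg (‖F y‖ - 1)), mul_nonneg (h0 y) (norm_nonneg (F y))]
  have h4 : ‖∫ y, k y * F y ∂μ‖ ≤ ∫ y, φ y * ‖F y‖ ∂μ := by
    refine norm_integral_le_of_norm_le h3 (Eventually.of_forall fun y => ?_)
    rw [norm_mul]
    exact mul_le_mul_of_nonneg_right (hφ y) (norm_nonneg _)
  have h5 : discrim (∫ y, φ y ∂μ) (-2 * ∫ y, φ y * ‖F y‖ ∂μ) (∫ y, φ y * ‖F y‖ ^ 2 ∂μ) ≤ 0 := by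
    refine discrim_le_zero fun t => ?_
    have e : (∫ y, φ y ∂μ) * (t * t) + (-2 * ∫ y, φ y * ‖F y‖ ∂μ) * t + ∫ y, φ y * ‖F y‖ ^ 2 ∂μ =
        ∫ y, φ y * (t - ‖F y‖) ^ 2 ∂μ := by
      have e1 : (fun y => φ y * (t - ‖F y‖) ^ 2) =
          fun y => ((t * t) * φ y + (-2 * t) * (φ y * ‖F y‖)) + φ y * ‖F y‖ ^ 2 := by
        funext y; ring
      have i1 : Integrable (fun y => (t * t) * φ y + (-2 * t) * (φ y * ‖F y‖)) μ :=
        (h1.const_mul _).add (h3.const_mul _)
      rw [e1, integral_add i1 h2,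
        integral_add (h1.const_mul _) (h3.const_mul _), integral_const_mul, integral_const_mul]
      ring
    rw [e]
    exact integral_nonneg fun y => mul_nonneg (h0 y) (sq_nonneg _)
  have h6 := pow_le_pow_left₀ (norm_nonneg _) h4 2
  unfold discrim at h5
  nlinarith

/-- Cauchy–Schwarz with a kernel -/
theorem norm_integral_mul_sq_le {α : Type*} [MeasurableSpace α] {μ : Measure α} {k F : α → ℂ}
    (hk : Integrable k μ) (hF : AEStronglyMeasurable F μ)
    (h2 : Integrable (fun y => ‖k y‖ * ‖F y‖ ^ 2) μ) :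
    ‖∫ y, k y * F y ∂μ‖ ^ 2 ≤ (∫ y, ‖k y‖ ∂μ) * ∫ y, ‖k y‖ * ‖F y‖ ^ 2 ∂μ :=
  gb_cs hF (fun _ => le_rfl) hk.norm h2

/-- Cauchy–Schwarz with a majorant `‖k‖ ≤ φ` -/
theorem norm_integral_mul_sq_le' {α : Type*} [MeasurableSpace α] {μ : Measure α} {k F : α → ℂ}
    {φ : α → ℝ} (hk : AEStronglyMeasurable k μ) (hF : AEStronglyMeasurable F μ)
    (hφ : ∀ y, ‖k y‖ ≤ φ y) (h1 : Integrable φ μ)
    (h2 : Integrable (fun y => φ y * ‖F y‖ ^ 2) μ) :
    ‖∫ y, k y * F y ∂μ‖ ^ 2 ≤ (∫ y, φ y ∂μ) * ∫ y, φ y * ‖F y‖ ^ 2 ∂μ :=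
  gb_cs hF hφ h1 h2

/-- holomorphic dependence of an integral on a parameter (Cauchy estimate +
`hasDerivAt_integral_of_dominated_loc_of_deriv_le`, or Morera) -/
theorem diffOn_integral {α : Type*} [MeasurableSpace α] {μ : Measure α} {F : ℂ → α → ℂ}
    {U : Set ℂ} (hU : IsOpen U) (hm : ∀ z ∈ U, AEStronglyMeasurable (F z) μ)
    (hd : ∀ y, DifferentiableOn ℂ (fun z => F z y) U)
    (hb : ∀ z₀ ∈ U, ∃ φ : α → ℝ, Integrable φ μ ∧ ∀ᶠ z in 𝓝 z₀, ∀ y, ‖F z y‖ ≤ φ y) :
    DifferentiableOn ℂ (fun z => ∫ y, F z y ∂μ) U := by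
  intro z₀ hz₀
  obtain ⟨φ, hφ, hb⟩ := hb z₀ hz₀
  obtain ⟨r, hr, hball⟩ := Metric.eventually_nhds_iff_ball.1 (hb.and (hU.mem_nhds hz₀))
  have hsub : ∀ z ∈ Metric.ball z₀ (r / 2), Metric.closedBall z (r / 4) ⊆ Metric.ball z₀ r := by
    intro z hz w hw
    rw [Metric.mem_ball] at hz ⊢
    rw [Metric.mem_closedBall] at hw
    linarith [dist_triangle w z z₀]
  have hdz : ∀ y, ∀ z ∈ U, HasDerivAt (fun z => F z y) (deriv (fun z => F z y) z) z :=
    fun y z hz => ((hd y).differentiableAt (hU.mem_nhds hz)).hasDerivAt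
  have key := hasDerivAt_integral_of_dominated_loc_of_deriv_le (μ := μ) (F := F) (x₀ := z₀)
    (s := Metric.ball z₀ (r / 2)) (bound := fun y => φ y / (r / 4))
    (F' := fun z y => deriv (fun z => F z y) z) (Metric.ball_mem_nhds _ (by linarith))
    (Filter.mem_of_superset (hU.mem_nhds hz₀) hm)
    (hφ.mono' (hm z₀ hz₀) (Eventually.of_forall (hball z₀ (Metric.mem_ball_self hr)).1)) ?_ ?_
    (hφ.div_const _) ?_
  · exact key.2.differentiableAt.differentiableWithinAt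
  · -- measurability of the derivative: limit of difference quotients
    have ht : Tendsto (fun n : ℕ => z₀ + ((r / 2 / ((n : ℝ) + 1) : ℝ) : ℂ)) atTop (𝓝[≠] z₀) := by
      refine tendsto_nhdsWithin_iff.2 ⟨?_, Eventually.of_forall fun n => ?_⟩
      · have h1 : Tendsto (fun n : ℕ => r / 2 / ((n : ℝ) + 1)) atTop (𝓝 0) :=
          tendsto_const_nhds.div_atTop (tendsto_natCast_atTop_atTop.atTop_add tendsto_const_nhds)
        have h2 := (Complex.continuous_ofReal.tendsto 0).comp h1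
        simpa using tendsto_const_nhds.add h2
      · simp only [mem_compl_iff, mem_singleton_iff, add_eq_left, ofReal_eq_zero]
        positivity
    refine aestronglyMeasurable_of_tendsto_ae atTop
      (f := fun (n : ℕ) y => slope (fun z => F z y) z₀ (z₀ + ((r / 2 / ((n : ℝ) + 1) : ℝ) : ℂ)))
      (fun n => ?_) (Eventually.of_forall fun y => ?_)
    · have hmem : z₀ + ((r / 2 / ((n : ℝ) + 1) : ℝ) : ℂ) ∈ U := by
        refine (hball _ ?_).2
        rw [Metric.mem_ball, dist_eq_norm, add_sub_cancel_left, Complex.norm_real,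
          Real.norm_of_nonneg (by positivity)]
        have : r / 2 / ((n : ℝ) + 1) ≤ r / 2 :=
          div_le_self (by linarith) (by linarith [(Nat.cast_nonneg n : (0 : ℝ) ≤ n)])
        linarith
      simp only [slope, vsub_eq_sub, smul_eq_mul]
      exact ((hm _ hmem).sub (hm z₀ hz₀)).const_mul _
    · exact (hasDerivAt_iff_tendsto_slope.1 (hdz y z₀ hz₀)).comp ht
  · refine Eventually.of_forall fun y z hz => ?_
    refine Complex.norm_deriv_le_of_forall_mem_sphere_norm_le (by linarith) ?_ fun w hw => ?_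
    · refine DifferentiableOn.diffContOnCl ((hd y).mono fun w hw => (hball w (hsub z hz ?_)).2)
      exact Metric.closure_ball_subset_closedBall hw
    · exact (hball w (hsub z hz (Metric.sphere_subset_closedBall hw))).1 y
  · refine Eventually.of_forall fun y z hz => hdz y z (hball z ?_).2
    exact Metric.ball_subset_ball (by linarith) hz

end Crest.Agent.R17
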